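/-
Row 236 / S0471, route K (helper18).  Blueprint: `git show origin/helper18:docs/R236_S0471.md`, section 2.
Supplements to `R236/ZCl.lean`, `R236/ZCl2.lean` (helper354's polynomial function toolkit): restriction to lines,
density of the complement of a hypersurface, derivatives of polynomial maps.
-/
import Claimed.Agent.R236.ZCl2

set_option autoImplicit false

namespace Claimed.Agent.R236.K

open scoped BigOperators

section Alg

variable {E F : Type*} [AddCommGroup E] [Module ℂ E] [AddCommGroup F] [Module ℂ F]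

/-- the affine line `s ↦ u + s • v` is a polynomial map -/
theorem polyMap_line (u v : E) : PolyMap (fun s : ℂ => u + s • v) :=
  (polyMap_const u).add (PolyMap.smul (PolyFun.linear (LinearMap.id : ℂ →ₗ[ℂ] ℂ))
    (polyMap_const v))

/-- PF1: restriction of a polynomial function to a line -/
theorem exists_poly_line {f : E → ℂ} (hf : f ∈ PolyFun E) (u v : E) :
    ∃ p : Polynomial ℂ, ∀ s : ℂ, f (u + s • v) = p.eval s :=
  PolyFun.exists_polynomial (PolyFun.comp hf (polyMap_line u v))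

theorem finite_zeros_line {f : E → ℂ} (hf : f ∈ PolyFun E) {u v : E}
    (h : ∃ s : ℂ, f (u + s • v) ≠ 0) : {s : ℂ | f (u + s • v) = 0}.Finite := by
  obtain ⟨p, hp⟩ := exists_poly_line hf u v
  obtain ⟨s₀, hs₀⟩ := h
  have hp0 : p ≠ 0 := by
    rintro rfl
    exact hs₀ (by rw [hp s₀, Polynomial.eval_zero])
  refine (Polynomial.finite_setOfPred_isRoot hp0).subset fun s hs => ?_
  show p.eval s = 0
  rw [← hp s]
  exact hs

/-- PC2, the line principle -/
theorem ZCl_line {A : Set E} (u v : E) (h : {s : ℂ | u + s • v ∈ ZCl A}.Infinite) (s : ℂ) :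
    u + s • v ∈ ZCl A :=
  ZCl_curve (polyMap_line u v) h s

theorem PolyMap.update {ι : Type*} [Finite ι] [DecidableEq ι] {Φ : E → ι → F} (hΦ : PolyMap Φ)
    (i : ι) {Ψ : E → F} (hΨ : PolyMap Ψ) : PolyMap (fun x => Function.update (Φ x) i (Ψ x)) := by
  rw [polyMap_pi (X := fun _ : ι => F)] at hΦ ⊢
  intro j
  by_cases hj : j = i
  · subst hj
    simpa only [Function.update_self] using hΨ
  · simpa only [Function.update_of_ne hj] using hΦ j

theorem polyMap_prodMk_iff {H : Type*} [AddCommGroup H] [Module ℂ H] {Φ : E → F} {Ψ : E → H} :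
    PolyMap (fun x => (Φ x, Ψ x)) ↔ PolyMap Φ ∧ PolyMap Ψ :=
  ⟨fun h => ⟨h.fst, h.snd⟩, fun h => h.1.prodMk h.2⟩

/-- if a polynomial map sends a Zariski dense set into `ZCl B`, it sends everything into `ZCl B` -/
theorem PolyMap.maps_univ {Φ : E → F} (hΦ : PolyMap Φ) {A : Set E} (hA : ZCl A = Set.univ)
    {B : Set F} (h : ∀ a ∈ A, Φ a ∈ ZCl B) (x : E) : Φ x ∈ ZCl B :=
  hΦ.maps_ZCl h x (hA ▸ Set.mem_univ x)

end Alg

section Normed

variable {E F : Type*} [NormedAddCommGroup E] [NormedSpace ℂ E] [FiniteDimensional ℂ E]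
  [NormedAddCommGroup F] [NormedSpace ℂ F] [FiniteDimensional ℂ F]

theorem PolyMap.continuous {Φ : E → F} (hΦ : PolyMap Φ) : Continuous Φ :=
  (PolyMap.contDiff hΦ).continuous

/-- PC3 -/
theorem ZCl_eq_univ_of_mem_nhds {N : Set E} {u : E} (h : N ∈ nhds u) : ZCl N = Set.univ := by
  obtain ⟨t, htN, hopen, hu⟩ := mem_nhds_iff.1 h
  refine Set.eq_univ_of_univ_subset ?_
  rw [← ZCl_of_isOpen hopen ⟨u, hu⟩]
  exact ZCl_mono htN

/-- PC5 -/
theorem dense_ne_zero {f : E → ℂ} (hf : f ∈ PolyFun E) {u₁ : E} (h : f u₁ ≠ 0) :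
    Dense {u | f u ≠ 0} := by
  intro u
  have hfin : {s : ℂ | f (u + s • (u₁ - u)) = 0}.Finite :=
    finite_zeros_line hf ⟨1, by simpa using h⟩
  have hdense : Dense {s : ℂ | f (u + s • (u₁ - u)) = 0}ᶜ := hfin.countable.dense_compl ℝ
  have hcont : Continuous (fun s : ℂ => u + s • (u₁ - u)) := by fun_prop
  have h0 := map_mem_closure hcont (hdense 0) (t := {u | f u ≠ 0}) fun s hs => hs
  simpa using h0

theorem PolyMap.differentiable {Φ : E → F} (hΦ : PolyMap Φ) : Differentiable ℂ Φ :=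
  (PolyMap.contDiff hΦ).differentiable (by simp)

/-- PF2 -/
theorem PolyMap.hasStrictFDerivAt {Φ : E → F} (hΦ : PolyMap Φ) (u : E) :
    HasStrictFDerivAt Φ (fderiv ℂ Φ u) u :=
  (PolyMap.contDiff hΦ).contDiffAt.hasStrictFDerivAt (by simp)

/-- the derivative is computed along lines -/
theorem PolyMap.hasDerivAt_line {Φ : E → F} (hΦ : PolyMap Φ) (u v : E) :
    HasDerivAt (fun s : ℂ => Φ (u + s • v)) (fderiv ℂ Φ u v) 0 := by
  have h1 : HasDerivAt (fun s : ℂ => u + s • v) v 0 := by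
    simpa using ((hasDerivAt_id (0 : ℂ)).smul_const v).const_add u
  have h2 : HasFDerivAt Φ (fderiv ℂ Φ u) (u + (0 : ℂ) • v) := by
    rw [zero_smul, add_zero]
    exact (PolyMap.differentiable hΦ u).hasFDerivAt
  exact h2.comp_hasDerivAt 0 h1

end Normed

end Claimed.Agent.R236.K
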