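/-
Row 236 / S0471, route K (helper18).  Blueprint: `git show origin/helper18:docs/R236_S0471.md`, sections 1 and 3.
Tuples of matrices, the representation variety `VV`, the multi-cone `GG` over the `SL_r(O)`-points and
its polynomial closure `ZZ`.
-/
import Claimed.Agent.R236.K.PolyX
import Claimed.Agent.R236.Basic
import Claimed.Agent.R236.VC

set_option autoImplicit false

namespace Claimed.Agent.R236.K

open scoped BigOperators Matrix.Norms.Elementwise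

/-- a handle `(A,B)` -/
abbrev Pair (r : ℕ) := Mat r × Mat r
/-- `g` handles -/
abbrev Tup (g r : ℕ) := Fin g → Pair r

variable {g g' r r' : ℕ}

/-- the commutator `A B A⁻¹ B⁻¹` of a handle -/
noncomputable def cmm (τ : Pair r) : Mat r := τ.1 * τ.2 * τ.1⁻¹ * τ.2⁻¹

/-- the ordered product of the commutators -/
noncomputable def kap (ρ : Tup g r) : Mat r := (List.ofFn fun i => cmm (ρ i)).prod

/-- all matrices invertible -/
def Invt (ρ : Tup g r) : Prop := ∀ i, (ρ i).1.det ≠ 0 ∧ (ρ i).2.det ≠ 0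

/-- `V_g`: the `GL_r` representation variety of the closed surface group -/
def VV (g r : ℕ) : Set (Tup g r) := {ρ | Invt ρ ∧ kap ρ = 1}

/-- independent scaling of the `2g` matrices -/
def scal (lam : Fin g → ℂ × ℂ) (ρ : Tup g r) : Tup g r :=
  fun i => ((lam i).1 • (ρ i).1, (lam i).2 • (ρ i).2)

/-- all scalars non-zero -/
def NZ (lam : Fin g → ℂ × ℂ) : Prop := ∀ i, (lam i).1 ≠ 0 ∧ (lam i).2 ≠ 0

/-- simultaneous conjugation -/
noncomputable def cj (x : Mat r) (ρ : Tup g r) : Tup g r :=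
  fun i => (x * (ρ i).1 * x⁻¹, x * (ρ i).2 * x⁻¹)

/-- `SL_r(O)` -/
def SLO (O : Subring ℂ) (r : ℕ) : Set (Mat r) := {X | (∀ i j, X i j ∈ O) ∧ X.det = 1}

/-- `V_g(O)` -/
def VO (O : Subring ℂ) (g r : ℕ) : Set (Tup g r) :=
  {ρ | ρ ∈ VV g r ∧ ∀ i, (ρ i).1 ∈ SLO O r ∧ (ρ i).2 ∈ SLO O r}

/-- the multi-cone `𝒢_g` -/
def GG (O : Subring ℂ) (g r : ℕ) : Set (Tup g r) :=
  {ρ | ∃ ρ0 ∈ VO O g r, ∃ lam : Fin g → ℂ × ℂ, NZ lam ∧ ρ = scal lam ρ0}

/-- `Z_g`: the polynomial closure of the multi-cone -/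
def ZZ (O : Subring ℂ) (g r : ℕ) : Set (Tup g r) := ZCl (GG O g r)

/-- `W` is invariant under all matrices of `ρ` -/
def InvSub (ρ : Tup g r) (W : Submodule ℂ (Fin r → ℂ)) : Prop :=
  ∀ i, (∀ x ∈ W, (ρ i).1.mulVec x ∈ W) ∧ (∀ x ∈ W, (ρ i).2.mulVec x ∈ W)

/-- irreducible tuples -/
def Irr (ρ : Tup g r) : Prop := ∀ W : Submodule ℂ (Fin r → ℂ), InvSub ρ W → W = ⊥ ∨ W = ⊤

/-- a handle with scalar commutant -/
def SCp (τ : Pair r) : Prop :=
  ∀ Y : Mat r, Y * τ.1 = τ.1 * Y → Y * τ.2 = τ.2 * Y → ∃ c : ℂ, Y = c • (1 : Mat r)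

/-! ### commutators, `kap`, `VV` -/

theorem cmm_smul (τ : Pair r) {a b : ℂ} (ha : a ≠ 0) (hb : b ≠ 0) :
    cmm (a • τ.1, b • τ.2) = cmm τ := by
  exact cm_smul (A := τ.1) (B := τ.2) ha hb

theorem det_cmm (τ : Pair r) (h1 : τ.1.det ≠ 0) (h2 : τ.2.det ≠ 0) : (cmm τ).det = 1 := by
  exact det_cm (isUnit_iff_ne_zero.2 h1) (isUnit_iff_ne_zero.2 h2)

theorem kap_zero (ρ : Tup 0 r) : kap ρ = 1 := by
  simp [kap]

theorem kap_succ (ρ : Tup (g + 1) r) : kap ρ = cmm (ρ 0) * kap (fun i => ρ i.succ) := by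
  unfold kap
  rw [List.ofFn_succ, List.prod_cons]

theorem kap_congr {ρ ρ' : Tup g r} (h : ∀ i, cmm (ρ i) = cmm (ρ' i)) : kap ρ = kap ρ' := by
  unfold kap
  congr 1
  congr 1
  funext i
  exact h i

theorem det_kap {ρ : Tup g r} (h : Invt ρ) : (kap ρ).det = 1 := by
  induction g with
  | zero => simp [kap_zero]
  | succ g ih =>
    rw [kap_succ, Matrix.det_mul, det_cmm _ (h 0).1 (h 0).2, ih (fun i => h i.succ), one_mul]

theorem kap_scal {lam : Fin g → ℂ × ℂ} (h : NZ lam) (ρ : Tup g r) : kap (scal lam ρ) = kap ρ := by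
  exact kap_congr fun i => cmm_smul (ρ i) (h i).1 (h i).2

theorem Basic_det_smul_ne_zero {c : ℂ} (hc : c ≠ 0) (A : Mat r) :
    (c • A).det ≠ 0 ↔ A.det ≠ 0 := by
  rw [Matrix.det_smul]
  constructor
  · intro h
    exact right_ne_zero_of_mul h
  · intro h
    exact mul_ne_zero (pow_ne_zero _ hc) h

theorem Basic_invt_scal {lam : Fin g → ℂ × ℂ} (h : NZ lam) {ρ : Tup g r} :
    Invt (scal lam ρ) ↔ Invt ρ := by
  refine forall_congr' fun i => ?_
  exact and_congr (Basic_det_smul_ne_zero (h i).1 _) (Basic_det_smul_ne_zero (h i).2 _)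

theorem scal_mem_VV {lam : Fin g → ℂ × ℂ} (h : NZ lam) {ρ : Tup g r} :
    scal lam ρ ∈ VV g r ↔ ρ ∈ VV g r := by
  show (Invt (scal lam ρ) ∧ kap (scal lam ρ) = 1) ↔ (Invt ρ ∧ kap ρ = 1)
  rw [Basic_invt_scal h, kap_scal h]

theorem scal_scal (lam mu : Fin g → ℂ × ℂ) (ρ : Tup g r) :
    scal lam (scal mu ρ) = scal (fun i => ((lam i).1 * (mu i).1, (lam i).2 * (mu i).2)) ρ := by
  funext i
  simp [scal, smul_smul]

theorem kap_cj {x : Mat r} (hx : x.det ≠ 0) (ρ : Tup g r) : kap (cj x ρ) = x * kap ρ * x⁻¹ := by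
  have hu : IsUnit x.det := isUnit_iff_ne_zero.2 hx
  have h1 : x⁻¹ * x = 1 := Matrix.nonsing_inv_mul _ hu
  induction g with
  | zero => simp [kap_zero, Matrix.mul_nonsing_inv _ hu]
  | succ g ih =>
    rw [kap_succ, kap_succ]
    have e1 : cmm (cj x ρ 0) = x * cmm (ρ 0) * x⁻¹ := cm_conj hu (ρ 0).1 (ρ 0).2
    have e2 : kap (fun i : Fin g => cj x ρ i.succ) = x * kap (fun i : Fin g => ρ i.succ) * x⁻¹ :=
      ih (fun i => ρ i.succ)
    rw [e1, e2]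
    calc x * cmm (ρ 0) * x⁻¹ * (x * kap (fun i : Fin g => ρ i.succ) * x⁻¹)
        = x * cmm (ρ 0) * (x⁻¹ * x) * kap (fun i : Fin g => ρ i.succ) * x⁻¹ := by
          simp only [Matrix.mul_assoc]
      _ = _ := by rw [h1]; simp only [Matrix.mul_one, Matrix.mul_assoc]

theorem Basic_det_conj {x : Mat r} (hx : x.det ≠ 0) (A : Mat r) : (x * A * x⁻¹).det = A.det := by
  rw [Matrix.det_mul, Matrix.det_mul, Matrix.det_nonsing_inv, Ring.inverse_eq_inv']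
  field_simp

theorem cj_mem_VV {x : Mat r} (hx : x.det ≠ 0) {ρ : Tup g r} (h : ρ ∈ VV g r) :
    cj x ρ ∈ VV g r := by
  refine ⟨fun i => ⟨?_, ?_⟩, ?_⟩
  · show (x * (ρ i).1 * x⁻¹).det ≠ 0
    rw [Basic_det_conj hx]
    exact (h.1 i).1
  · show (x * (ρ i).2 * x⁻¹).det ≠ 0
    rw [Basic_det_conj hx]
    exact (h.1 i).2
  · rw [kap_cj hx, h.2, Matrix.mul_one, Matrix.mul_nonsing_inv _ (isUnit_iff_ne_zero.2 hx)]

/-! ### `SL_r(O)` -/

theorem SLO_one (O : Subring ℂ) : (1 : Mat r) ∈ SLO O r := by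
  refine ⟨fun i j => ?_, Matrix.det_one⟩
  by_cases h : i = j
  · rw [h, Matrix.one_apply_eq]
    exact O.one_mem
  · rw [Matrix.one_apply_ne h]
    exact O.zero_mem

theorem SLO_mul {O : Subring ℂ} {X Y : Mat r} (hX : X ∈ SLO O r) (hY : Y ∈ SLO O r) :
    X * Y ∈ SLO O r := by
  refine ⟨fun i j => ?_, by rw [Matrix.det_mul, hX.2, hY.2, one_mul]⟩
  rw [Matrix.mul_apply]
  exact O.sum_mem fun l _ => O.mul_mem (hX.1 i l) (hY.1 l j)

theorem SLO_pow {O : Subring ℂ} {X : Mat r} (hX : X ∈ SLO O r) (k : ℕ) : X ^ k ∈ SLO O r := by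
  induction k with
  | zero => simpa only [pow_zero] using SLO_one O
  | succ k ih => simpa only [pow_succ] using SLO_mul ih hX

theorem Basic_det_mem {O : Subring ℂ} {X : Mat r} (hX : ∀ i j, X i j ∈ O) : X.det ∈ O := by
  rw [Matrix.det_apply]
  exact O.sum_mem fun σ _ => O.zsmul_mem (O.prod_mem fun i _ => hX _ _) _

theorem SLO_adjugate {O : Subring ℂ} {X : Mat r} (hX : X ∈ SLO O r) : X.adjugate ∈ SLO O r := by
  refine ⟨fun i j => ?_, by rw [Matrix.det_adjugate, hX.2, one_pow]⟩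
  rw [Matrix.adjugate_apply]
  refine Basic_det_mem fun a b => ?_
  by_cases hab : a = j
  · subst hab
    rw [Matrix.updateRow_self]
    by_cases hb : b = i
    · subst hb
      rw [Pi.single_eq_same]
      exact O.one_mem
    · rw [Pi.single_eq_of_ne hb]
      exact O.zero_mem
  · rw [Matrix.updateRow_ne hab]
    exact hX.1 a b

theorem SLO_inv_eq {O : Subring ℂ} {X : Mat r} (hX : X ∈ SLO O r) : X⁻¹ = X.adjugate := by
  rw [Matrix.inv_def, hX.2, Ring.inverse_one, one_smul]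

theorem SLO_inv {O : Subring ℂ} {X : Mat r} (hX : X ∈ SLO O r) : X⁻¹ ∈ SLO O r := by
  rw [SLO_inv_eq hX]
  exact SLO_adjugate hX

/-! ### Z1 - Z3 -/

theorem GG_subset_VV (O : Subring ℂ) : GG O g r ⊆ VV g r := by
  rintro ρ ⟨ρ0, h0, lam, hlam, rfl⟩
  exact (scal_mem_VV hlam).2 h0.1

theorem VO_subset_GG (O : Subring ℂ) : VO O g r ⊆ GG O g r := by
  intro ρ hρ
  refine ⟨ρ, hρ, fun _ => (1, 1), fun _ => ⟨one_ne_zero, one_ne_zero⟩, ?_⟩
  funext i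
  simp [scal]

/-- Z1 -/
theorem GG_subset_ZZ (O : Subring ℂ) : GG O g r ⊆ ZZ O g r := by
  exact subset_ZCl _

theorem ZZ_isClosed (O : Subring ℂ) : IsClosed (ZZ O g r) := by
  exact isClosed_ZCl _

/-- Z2 (transport) -/
theorem ZZ_transport (O : Subring ℂ) {Φ : Tup g r → Tup g' r'} (hΦ : PolyMap Φ)
    (h : ∀ ρ ∈ GG O g r, Φ ρ ∈ ZZ O g' r') : ∀ ρ ∈ ZZ O g r, Φ ρ ∈ ZZ O g' r' := by
  exact hΦ.maps_ZCl h

/-- `scal lam` as a linear map -/
def Basic_scalL (lam : Fin g → ℂ × ℂ) : Tup g r →ₗ[ℂ] Tup g r where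
  toFun := scal lam
  map_add' := by
    intro x y
    funext i
    simp [scal]
  map_smul' := by
    intro t x
    funext i
    simp only [scal, Pi.smul_apply, Prod.smul_fst, Prod.smul_snd, RingHom.id_apply, Prod.smul_mk]
    rw [smul_comm (lam i).1 t, smul_comm (lam i).2 t]

theorem polyMap_scal (lam : Fin g → ℂ × ℂ) : PolyMap (scal lam : Tup g r → Tup g r) := by
  exact polyMap_linear (Basic_scalL lam)

theorem scal_mem_GG (O : Subring ℂ) {lam : Fin g → ℂ × ℂ} (h : NZ lam) {ρ : Tup g r}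
    (hρ : ρ ∈ GG O g r) : scal lam ρ ∈ GG O g r := by
  obtain ⟨ρ0, h0, mu, hmu, rfl⟩ := hρ
  exact ⟨ρ0, h0, _, fun i => ⟨mul_ne_zero (h i).1 (hmu i).1, mul_ne_zero (h i).2 (hmu i).2⟩,
    scal_scal lam mu ρ0⟩

theorem Basic_scal_mem_ZZ (O : Subring ℂ) {lam : Fin g → ℂ × ℂ} (h : NZ lam) {ρ : Tup g r}
    (hρ : ρ ∈ ZZ O g r) : scal lam ρ ∈ ZZ O g r :=
  ZZ_transport O (polyMap_scal lam) (fun _ hσ => GG_subset_ZZ O (scal_mem_GG O h hσ)) ρ hρ

/-- Z3 -/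
theorem scal_mem_ZZ (O : Subring ℂ) {lam : Fin g → ℂ × ℂ} (h : NZ lam) {ρ : Tup g r} :
    scal lam ρ ∈ ZZ O g r ↔ ρ ∈ ZZ O g r := by
  refine ⟨fun hρ => ?_, Basic_scal_mem_ZZ O h⟩
  have hinv : NZ (fun i => ((lam i).1⁻¹, (lam i).2⁻¹)) :=
    fun i => ⟨inv_ne_zero (h i).1, inv_ne_zero (h i).2⟩
  have := Basic_scal_mem_ZZ O hinv hρ
  rw [scal_scal] at this
  have e : scal (fun i => ((lam i).1⁻¹ * (lam i).1, (lam i).2⁻¹ * (lam i).2)) ρ = ρ := by
    funext i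
    simp [scal, inv_mul_cancel₀ (h i).1, inv_mul_cancel₀ (h i).2]
  rwa [e] at this

end Claimed.Agent.R236.K
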