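/-
Row 236 / S0471, route K (helper18).  Blueprint: `git show origin/helper18:docs/R236_S0471.md`, section 8 (CH1 - CH5).
The chart: a linear projection `PrL` of the representation variety which has a polynomial inverse `Psi` (up to scalars)
on the set `UU`.   Matrix size `r = n + 2`, genus `g = k + 2`; the chart handle is slot `0`, written `(C,D)`.
-/
import Claimed.Agent.R236.K.Basic

set_option autoImplicit false

namespace Claimed.Agent.R236.K

open scoped BigOperators Matrix.Norms.Elementwise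

variable {g k n r : ℕ}

/-- chart coordinates of the handle `0`: rows `1..` of `D`, the entry `D 0 last`, the column `0` of `C` -/
abbrev Ytau (n : ℕ) := (Fin (n + 1) → Fin (n + 2) → ℂ) × ℂ × (Fin (n + 2) → ℂ)
/-- chart coordinates -/
abbrev Ych (k n : ℕ) := Ytau n × Tup (k + 1) (n + 2)

/-- rows `1..` of a matrix -/
def lowRows (D : Mat (n + 2)) : Fin (n + 1) → Fin (n + 2) → ℂ := fun i j => D i.succ j

/-- the matrix with row `0` equal to `w` and the other rows `Db` -/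
def Dmat (Db : Fin (n + 1) → Fin (n + 2) → ℂ) (w : Fin (n + 2) → ℂ) : Mat (n + 2) :=
  Matrix.of (Fin.cons w Db : Fin (n + 2) → Fin (n + 2) → ℂ)

/-- `Pr_τ` -/
def Prtau (τ : Pair (n + 2)) : Ytau n :=
  (lowRows τ.2, τ.2 0 (Fin.last (n + 1)), fun i => τ.1 i 0)

/-- `Pr_τ` as a linear map -/
def PrtauL (n : ℕ) : Pair (n + 2) →ₗ[ℂ] Ytau n where
  toFun := Prtau
  map_add' _ _ := rfl
  map_smul' _ _ := rfl

/-- the linear projection `Pr` -/
def PrL (k n : ℕ) : Tup (k + 2) (n + 2) →ₗ[ℂ] Ych k n where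
  toFun ρ := (Prtau (ρ 0), fun i => ρ i.succ)
  map_add' _ _ := rfl
  map_smul' _ _ := rfl

/-- `κ̂(σ) = ∏ A B adj A adj B` -/
def khat (σ : Tup g r) : Mat r :=
  (List.ofFn fun i => (σ i).1 * (σ i).2 * (σ i).1.adjugate * (σ i).2.adjugate).prod

/-- `d(σ) = ∏ det A det B` -/
def dd (σ : Tup g r) : ℂ := ∏ i, ((σ i).1.det * (σ i).2.det)

/-- `L_i(w) = det(x_i K - d D_w) - d^r det(x_i - D_w)`, `x_i = i + 1` -/
def Lfun (K : Mat (n + 2)) (d : ℂ) (Db : Fin (n + 1) → Fin (n + 2) → ℂ) (i : Fin (n + 1))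
    (w : Fin (n + 2) → ℂ) : ℂ :=
  ((((i : ℕ) : ℂ) + 1) • K - d • Dmat Db w).det
    - d ^ (n + 2) * ((((i : ℕ) : ℂ) + 1) • (1 : Mat (n + 2)) - Dmat Db w).det

/-- coefficients of the affine function `L_i` -/
def mcoef (K : Mat (n + 2)) (d : ℂ) (Db : Fin (n + 1) → Fin (n + 2) → ℂ) (i : Fin (n + 1))
    (j : Fin (n + 2)) : ℂ :=
  Lfun K d Db i (Pi.single j 1) - Lfun K d Db i 0

/-- the square system -/
def MMat (K : Mat (n + 2)) (d : ℂ) (Db : Fin (n + 1) → Fin (n + 2) → ℂ) :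
    Matrix (Fin (n + 1)) (Fin (n + 1)) ℂ :=
  Matrix.of fun i j => mcoef K d Db i j.castSucc

/-- `Δ` -/
def Del (K : Mat (n + 2)) (d : ℂ) (Db : Fin (n + 1) → Fin (n + 2) → ℂ) : ℂ := (MMat K d Db).det

/-- right hand side -/
def bvec (K : Mat (n + 2)) (d : ℂ) (Db : Fin (n + 1) → Fin (n + 2) → ℂ) (s : ℂ) : Fin (n + 1) → ℂ :=
  fun i => - Lfun K d Db i 0 - mcoef K d Db i (Fin.last (n + 1)) * s

/-- `w̃` -/
def wtil (K : Mat (n + 2)) (d : ℂ) (Db : Fin (n + 1) → Fin (n + 2) → ℂ) (s : ℂ) : Fin (n + 2) → ℂ :=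
  Fin.snoc (α := fun _ => ℂ) ((MMat K d Db).adjugate.mulVec (bvec K d Db s)) (Del K d Db * s)

/-- `D̃` -/
def Dtil (K : Mat (n + 2)) (d : ℂ) (Db : Fin (n + 1) → Fin (n + 2) → ℂ) (s : ℂ) : Mat (n + 2) :=
  Dmat (fun i j => Del K d Db * Db i j) (wtil K d Db s)

/-- weighted Krylov matrix: column `j` is `c^(r-1-j) N^j v` -/
def Kry (c : ℂ) (N : Mat r) (v : Fin r → ℂ) : Mat r :=
  Matrix.of fun i j => c ^ (r - 1 - (j : ℕ)) * ((N ^ (j : ℕ)).mulVec v) i

/-- `C̃` -/
def Ctil (K : Mat (n + 2)) (d : ℂ) (Db : Fin (n + 1) → Fin (n + 2) → ℂ) (s : ℂ)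
    (x : Fin (n + 2) → ℂ) : Mat (n + 2) :=
  Kry (d ^ (n + 1) * Del K d Db) (K.adjugate * Dtil K d Db s) x
    * (Kry (Del K d Db) (Dtil K d Db s) (Pi.single 0 1)).adjugate

/-- the polynomial "inverse" `Ψ̃` of the chart -/
def Psi (y : Ych k n) : Tup (k + 2) (n + 2) :=
  Fin.cons (Ctil (khat y.2) (dd y.2) y.1.1 y.1.2.1 y.1.2.2, Dtil (khat y.2) (dd y.2) y.1.1 y.1.2.1) y.2

/-- the two non-degeneracy functions of the chart -/
def ndel (ρ : Tup (k + 2) (n + 2)) : ℂ :=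
  Del (khat fun i : Fin (k + 1) => ρ i.succ) (dd fun i : Fin (k + 1) => ρ i.succ) (lowRows (ρ 0).2)

/-- non-degeneracy -/
def ND (ρ : Tup (k + 2) (n + 2)) : Prop :=
  ndel ρ ≠ 0 ∧ (Kry 1 (ρ 0).2 (Pi.single 0 1)).det ≠ 0

/-- the chart domain `𝒰` -/
def UU (k n : ℕ) : Set (Tup (k + 2) (n + 2)) := {ρ | ρ ∈ VV (k + 2) (n + 2) ∧ ND ρ}

/-- the non-degeneracy function expressed through the handle `0` alone -/
def nd (τ : Pair (n + 2)) : ℂ :=
  Del (τ.2 * τ.1 * τ.2.adjugate * τ.1.adjugate) (τ.1.det * τ.2.det) (lowRows τ.2)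
    * (Kry 1 τ.2 (Pi.single 0 1)).det

/-! ### polynomiality -/

section Poly

variable {E : Type*} [AddCommGroup E] [Module ℂ E]

theorem chart_polyMap_pi2 {a b : ℕ} {Φ : E → Fin a → Fin b → ℂ} :
    PolyMap Φ ↔ ∀ i j, (fun v => Φ v i j) ∈ PolyFun E := by
  rw [polyMap_pi (X := fun _ : Fin a => Fin b → ℂ)]
  refine forall_congr' fun i => ?_
  rw [polyMap_pi (X := fun _ : Fin b => ℂ)]
  exact forall_congr' fun j => polyMap_iff_polyFun

theorem chart_polyMap_pi1 {b : ℕ} {Φ : E → Fin b → ℂ} :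
    PolyMap Φ ↔ ∀ j, (fun v => Φ v j) ∈ PolyFun E := by
  rw [polyMap_pi (X := fun _ : Fin b => ℂ)]
  exact forall_congr' fun j => polyMap_iff_polyFun

theorem polyMap_Dmat {Db : E → Fin (n + 1) → Fin (n + 2) → ℂ} {w : E → Fin (n + 2) → ℂ}
    (hDb : PolyMap Db) (hw : PolyMap w) : PolyMap (fun v => Dmat (Db v) (w v)) := by
  rw [polyMap_matrix]
  rw [chart_polyMap_pi2] at hDb
  rw [chart_polyMap_pi1] at hw
  intro i j
  refine Fin.cases ?_ (fun i => ?_) i
  · exact hw j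
  · exact hDb i j

theorem polyMap_lowRows {D : E → Mat (n + 2)} (hD : PolyMap D) :
    PolyMap (fun v => lowRows (D v)) := by
  rw [chart_polyMap_pi2]
  rw [polyMap_matrix] at hD
  intro i j
  exact hD i.succ j

theorem polyFun_Lfun {K : E → Mat (n + 2)} {d : E → ℂ} {Db : E → Fin (n + 1) → Fin (n + 2) → ℂ}
    {w : E → Fin (n + 2) → ℂ} (hK : PolyMap K) (hd : d ∈ PolyFun E) (hDb : PolyMap Db)
    (hw : PolyMap w) (i : Fin (n + 1)) :
    (fun v => Lfun (K v) (d v) (Db v) i (w v)) ∈ PolyFun E := by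
  unfold Lfun
  refine PolyFun.sub (PolyMap.det ?_) (PolyFun.mul (PolyFun.pow hd _) (PolyMap.det ?_))
  · exact (PolyMap.smul (PolyFun.const _) hK).sub (PolyMap.smul hd (polyMap_Dmat hDb hw))
  · exact (polyMap_const _).sub (polyMap_Dmat hDb hw)

theorem polyFun_mcoef {K : E → Mat (n + 2)} {d : E → ℂ} {Db : E → Fin (n + 1) → Fin (n + 2) → ℂ}
    (hK : PolyMap K) (hd : d ∈ PolyFun E) (hDb : PolyMap Db) (i : Fin (n + 1)) (j : Fin (n + 2)) :
    (fun v => mcoef (K v) (d v) (Db v) i j) ∈ PolyFun E := by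
  unfold mcoef
  exact PolyFun.sub (polyFun_Lfun hK hd hDb (polyMap_const _) i)
    (polyFun_Lfun hK hd hDb (polyMap_const _) i)

theorem polyMap_MMat {K : E → Mat (n + 2)} {d : E → ℂ} {Db : E → Fin (n + 1) → Fin (n + 2) → ℂ}
    (hK : PolyMap K) (hd : d ∈ PolyFun E) (hDb : PolyMap Db) :
    PolyMap (fun v => MMat (K v) (d v) (Db v)) := by
  rw [polyMap_matrix]
  intro i j
  exact polyFun_mcoef hK hd hDb i j.castSucc

theorem polyFun_Del {K : E → Mat (n + 2)} {d : E → ℂ} {Db : E → Fin (n + 1) → Fin (n + 2) → ℂ}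
    (hK : PolyMap K) (hd : d ∈ PolyFun E) (hDb : PolyMap Db) :
    (fun v => Del (K v) (d v) (Db v)) ∈ PolyFun E :=
  PolyMap.det (polyMap_MMat hK hd hDb)

theorem polyMap_bvec {K : E → Mat (n + 2)} {d : E → ℂ} {Db : E → Fin (n + 1) → Fin (n + 2) → ℂ}
    {s : E → ℂ} (hK : PolyMap K) (hd : d ∈ PolyFun E) (hDb : PolyMap Db) (hs : s ∈ PolyFun E) :
    PolyMap (fun v => bvec (K v) (d v) (Db v) (s v)) := by
  rw [chart_polyMap_pi1]
  intro i
  unfold bvec
  exact PolyFun.sub (PolyFun.neg (polyFun_Lfun hK hd hDb (polyMap_const _) i))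
    (PolyFun.mul (polyFun_mcoef hK hd hDb i _) hs)

theorem polyMap_wtil {K : E → Mat (n + 2)} {d : E → ℂ} {Db : E → Fin (n + 1) → Fin (n + 2) → ℂ}
    {s : E → ℂ} (hK : PolyMap K) (hd : d ∈ PolyFun E) (hDb : PolyMap Db) (hs : s ∈ PolyFun E) :
    PolyMap (fun v => wtil (K v) (d v) (Db v) (s v)) := by
  have h1 : PolyMap (fun v => (MMat (K v) (d v) (Db v)).adjugate.mulVec
      (bvec (K v) (d v) (Db v) (s v))) :=
    PolyMap.mulVec (PolyMap.adjugate (polyMap_MMat hK hd hDb)) (polyMap_bvec hK hd hDb hs)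
  rw [chart_polyMap_pi1] at h1 ⊢
  intro j
  refine Fin.lastCases ?_ (fun j => ?_) j
  · simp only [wtil, Fin.snoc_last]
    exact PolyFun.mul (polyFun_Del hK hd hDb) hs
  · simp only [wtil, Fin.snoc_castSucc]
    exact h1 j

theorem polyMap_Dtil {K : E → Mat (n + 2)} {d : E → ℂ} {Db : E → Fin (n + 1) → Fin (n + 2) → ℂ}
    {s : E → ℂ} (hK : PolyMap K) (hd : d ∈ PolyFun E) (hDb : PolyMap Db) (hs : s ∈ PolyFun E) :
    PolyMap (fun v => Dtil (K v) (d v) (Db v) (s v)) := by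
  unfold Dtil
  refine polyMap_Dmat ?_ (polyMap_wtil hK hd hDb hs)
  rw [chart_polyMap_pi2]
  intro i j
  exact PolyFun.mul (polyFun_Del hK hd hDb) (chart_polyMap_pi2.mp hDb i j)

theorem polyMap_Kry {c : E → ℂ} {N : E → Mat r} {x : E → Fin r → ℂ} (hc : c ∈ PolyFun E)
    (hN : PolyMap N) (hx : PolyMap x) : PolyMap (fun v => Kry (c v) (N v) (x v)) := by
  rw [polyMap_matrix]
  intro i j
  exact PolyFun.mul (PolyFun.pow hc _) (chart_polyMap_pi1.mp (PolyMap.mulVec (PolyMap.matPow hN _) hx) i)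

theorem polyMap_Ctil {K : E → Mat (n + 2)} {d : E → ℂ} {Db : E → Fin (n + 1) → Fin (n + 2) → ℂ}
    {s : E → ℂ} {x : E → Fin (n + 2) → ℂ} (hK : PolyMap K) (hd : d ∈ PolyFun E) (hDb : PolyMap Db)
    (hs : s ∈ PolyFun E) (hx : PolyMap x) :
    PolyMap (fun v => Ctil (K v) (d v) (Db v) (s v) (x v)) := by
  unfold Ctil
  refine PolyMap.matMul (polyMap_Kry (PolyFun.mul (PolyFun.pow hd _) (polyFun_Del hK hd hDb))
    (PolyMap.matMul (PolyMap.adjugate hK) (polyMap_Dtil hK hd hDb hs)) hx) (PolyMap.adjugate ?_)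
  exact polyMap_Kry (polyFun_Del hK hd hDb) (polyMap_Dtil hK hd hDb hs) (polyMap_const _)

theorem khat_succ (σ : Tup (g + 1) r) :
    khat σ = (σ 0).1 * (σ 0).2 * (σ 0).1.adjugate * (σ 0).2.adjugate * khat (fun i => σ i.succ) := by
  simp only [khat, List.ofFn_succ, List.prod_cons]

theorem polyMap_khat {σ : E → Tup g r} (hσ : PolyMap σ) : PolyMap (fun v => khat (σ v)) := by
  induction g with
  | zero =>
    simp only [khat, List.ofFn_zero, List.prod_nil]
    exact polyMap_const 1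
  | succ g ih =>
    simp only [khat_succ]
    have h := (polyMap_pi (X := fun _ : Fin (g + 1) => Pair r)).mp hσ
    have h0 := h 0
    refine PolyMap.matMul (PolyMap.matMul (PolyMap.matMul (PolyMap.matMul h0.fst h0.snd)
      (PolyMap.adjugate h0.fst)) (PolyMap.adjugate h0.snd)) (ih ?_)
    rw [polyMap_pi (X := fun _ : Fin g => Pair r)]
    exact fun i => h i.succ

theorem polyFun_dd {σ : E → Tup g r} (hσ : PolyMap σ) : (fun v => dd (σ v)) ∈ PolyFun E := by
  have h := (polyMap_pi (X := fun _ : Fin g => Pair r)).mp hσ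
  unfold dd
  exact PolyFun.prod _ fun i _ => PolyFun.mul (PolyMap.det (h i).fst) (PolyMap.det (h i).snd)

end Poly

theorem polyMap_Psi : PolyMap (Psi : Ych k n → Tup (k + 2) (n + 2)) := by
  have hid : PolyMap (fun y : Ych k n => y) := polyMap_id
  have h2 : PolyMap (fun y : Ych k n => y.2) := hid.snd
  have hK := polyMap_khat h2
  have hd := polyFun_dd h2
  have hDb : PolyMap (fun y : Ych k n => y.1.1) := hid.fst.fst
  have hs : (fun y : Ych k n => y.1.2.1) ∈ PolyFun (Ych k n) :=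
    polyMap_iff_polyFun.mp hid.fst.snd.fst
  have hx : PolyMap (fun y : Ych k n => y.1.2.2) := hid.fst.snd.snd
  rw [polyMap_pi (X := fun _ : Fin (k + 2) => Pair (n + 2))]
  intro i
  refine Fin.cases ?_ (fun i => ?_) i
  · exact (polyMap_Ctil hK hd hDb hs hx).prodMk (polyMap_Dtil hK hd hDb hs)
  · exact (polyMap_pi (X := fun _ : Fin (k + 1) => Pair (n + 2))).mp h2 i

theorem polyFun_ndel : (ndel : Tup (k + 2) (n + 2) → ℂ) ∈ PolyFun (Tup (k + 2) (n + 2)) := by
  have hid : PolyMap (fun ρ : Tup (k + 2) (n + 2) => ρ) := polyMap_id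
  have h := (polyMap_pi (X := fun _ : Fin (k + 2) => Pair (n + 2))).mp hid
  have h2 : PolyMap (fun (ρ : Tup (k + 2) (n + 2)) (i : Fin (k + 1)) => ρ i.succ) := by
    rw [polyMap_pi (X := fun _ : Fin (k + 1) => Pair (n + 2))]
    exact fun i => h i.succ
  exact polyFun_Del (polyMap_khat h2) (polyFun_dd h2) (polyMap_lowRows (h 0).snd)

theorem polyFun_nd : (nd : Pair (n + 2) → ℂ) ∈ PolyFun (Pair (n + 2)) := by
  have hid : PolyMap (fun τ : Pair (n + 2) => τ) := polyMap_id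
  have h1 := hid.fst
  have h2 := hid.snd
  refine PolyFun.mul (polyFun_Del (PolyMap.matMul (PolyMap.matMul (PolyMap.matMul h2 h1)
    (PolyMap.adjugate h2)) (PolyMap.adjugate h1)) (PolyFun.mul (PolyMap.det h1) (PolyMap.det h2))
    (polyMap_lowRows h2)) (PolyMap.det ?_)
  exact polyMap_Kry (PolyFun.const 1) h2 (polyMap_const _)

theorem ND_eventually {ρ : Tup (k + 2) (n + 2)} (h : ND ρ) : ∀ᶠ ρ' in nhds ρ, ND ρ' := by
  have hid : PolyMap (fun ρ : Tup (k + 2) (n + 2) => ρ) := polyMap_id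
  have h0 := (polyMap_pi (X := fun _ : Fin (k + 2) => Pair (n + 2))).mp hid 0
  have hk : (fun ρ : Tup (k + 2) (n + 2) => (Kry 1 (ρ 0).2 (Pi.single 0 1)).det)
      ∈ PolyFun (Tup (k + 2) (n + 2)) :=
    PolyMap.det (polyMap_Kry (PolyFun.const 1) h0.snd (polyMap_const _))
  have c1 : Continuous (ndel : Tup (k + 2) (n + 2) → ℂ) := PolyFun.continuous polyFun_ndel
  have c2 := PolyFun.continuous hk
  exact (c1.continuousAt.eventually_ne h.1).and (c2.continuousAt.eventually_ne h.2)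

/-! ### the linear system -/

/-- a determinant is a linear function of row `0` -/
theorem chart_det_updateRow_eq_sum (N : Mat (n + 2)) (u : Fin (n + 2) → ℂ) :
    (N.updateRow 0 u).det = ∑ j, u j * (N.updateRow 0 (Pi.single j 1)).det := by
  rw [Matrix.det_eq_sum_mul_adjugate_row (N.updateRow 0 u) 0]
  refine Finset.sum_congr rfl fun j _ => ?_
  rw [Matrix.adjugate_apply, Matrix.updateRow_self, Matrix.updateRow_idem]

theorem sub_smul_Dmat (M : Mat (n + 2)) (c : ℂ) (Db : Fin (n + 1) → Fin (n + 2) → ℂ)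
    (w : Fin (n + 2) → ℂ) :
    M - c • Dmat Db w = (M - c • Dmat Db 0).updateRow 0 (fun j => M 0 j - c * w j) := by
  ext i j
  refine Fin.cases ?_ (fun i => ?_) i
  · simp [Dmat, Matrix.updateRow_self]
  · rw [Matrix.updateRow_ne (Fin.succ_ne_zero i)]
    simp [Dmat]

/-- `w ↦ det (M - c D_w)` is affine -/
theorem det_sub_smul_Dmat_affine (M : Mat (n + 2)) (c : ℂ) (Db : Fin (n + 1) → Fin (n + 2) → ℂ)
    (w : Fin (n + 2) → ℂ) :
    (M - c • Dmat Db w).det = (M - c • Dmat Db 0).det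
      + ∑ j, ((M - c • Dmat Db (Pi.single j 1)).det - (M - c • Dmat Db 0).det) * w j := by
  have key : ∀ w : Fin (n + 2) → ℂ, (M - c • Dmat Db w).det
      = ∑ j, (M 0 j - c * w j) * ((M - c • Dmat Db 0).updateRow 0 (Pi.single j 1)).det := by
    intro w
    rw [sub_smul_Dmat, chart_det_updateRow_eq_sum]
  have hs : ∀ j, (M - c • Dmat Db (Pi.single j 1)).det - (M - c • Dmat Db 0).det
      = - c * ((M - c • Dmat Db 0).updateRow 0 (Pi.single j 1)).det := by
    intro j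
    rw [key (Pi.single j 1), key 0, ← Finset.sum_sub_distrib]
    rw [Finset.sum_eq_single j]
    · simp
      ring
    · intro b _ hb
      simp [Pi.single_eq_of_ne hb]
    · intro hj
      exact absurd (Finset.mem_univ j) hj
  simp only [hs]
  rw [key w, key 0, ← Finset.sum_add_distrib]
  refine Finset.sum_congr rfl fun j _ => ?_
  simp
  ring

/-- `det` is affine in row `0` -/
theorem Lfun_affine (K : Mat (n + 2)) (d : ℂ) (Db : Fin (n + 1) → Fin (n + 2) → ℂ) (i : Fin (n + 1))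
    (w : Fin (n + 2) → ℂ) : Lfun K d Db i w = Lfun K d Db i 0 + ∑ j, mcoef K d Db i j * w j := by
  have h1 := det_sub_smul_Dmat_affine ((((i : ℕ) : ℂ) + 1) • K) d Db w
  have h2 := det_sub_smul_Dmat_affine ((((i : ℕ) : ℂ) + 1) • (1 : Mat (n + 2))) 1 Db w
  simp only [one_smul] at h2
  simp only [Lfun, mcoef]
  rw [h1, h2, mul_add, Finset.mul_sum]
  rw [add_sub_add_comm, ← Finset.sum_sub_distrib]
  congr 1
  refine Finset.sum_congr rfl fun j _ => ?_
  ring

theorem Lfun_smul (c : ℂ) (K : Mat (n + 2)) (d : ℂ) (Db : Fin (n + 1) → Fin (n + 2) → ℂ)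
    (i : Fin (n + 1)) (w : Fin (n + 2) → ℂ) :
    Lfun (c • K) (c * d) Db i w = c ^ (n + 2) * Lfun K d Db i w := by
  have h : (((i : ℕ) : ℂ) + 1) • c • K - (c * d) • Dmat Db w
      = c • ((((i : ℕ) : ℂ) + 1) • K - d • Dmat Db w) := by
    rw [smul_sub, smul_comm, mul_smul]
  simp only [Lfun]
  rw [h, Matrix.det_smul, Fintype.card_fin, mul_pow]
  ring

/-- CH2 -/
theorem Del_smul (c : ℂ) (K : Mat (n + 2)) (d : ℂ) (Db : Fin (n + 1) → Fin (n + 2) → ℂ) :
    Del (c • K) (c * d) Db = c ^ ((n + 2) * (n + 1)) * Del K d Db := by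
  have h : MMat (c • K) (c * d) Db = c ^ (n + 2) • MMat K d Db := by
    ext i j
    simp only [MMat, mcoef, Lfun_smul, Matrix.of_apply, Matrix.smul_apply, smul_eq_mul]
    ring
  simp only [Del]
  rw [h, Matrix.det_smul, Fintype.card_fin, ← pow_mul]

theorem chart_adjugate_eq_det_smul_inv {A : Mat r} (h : A.det ≠ 0) : A.adjugate = A.det • A⁻¹ := by
  rw [Matrix.inv_def, Ring.inverse_eq_inv', smul_smul, mul_inv_cancel₀ h, one_smul]

theorem khat_eq {σ : Tup g r} (h : Invt σ) : khat σ = dd σ • kap σ := by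
  induction g with
  | zero => simp [khat, dd, kap]
  | succ g ih =>
    have ih' := ih (σ := fun i => σ i.succ) (fun i => h i.succ)
    rw [khat_succ, ih']
    have hk : kap σ = cmm (σ 0) * kap (fun i => σ i.succ) := by
      simp only [kap, List.ofFn_succ, List.prod_cons]
    have hd : dd σ = (σ 0).1.det * (σ 0).2.det * dd (fun i => σ i.succ) := by
      simp only [dd, Fin.prod_univ_succ]
    rw [hk, hd, cmm, chart_adjugate_eq_det_smul_inv (h 0).1, chart_adjugate_eq_det_smul_inv (h 0).2]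
    simp only [Matrix.mul_smul, Matrix.smul_mul, smul_smul]
    congr 1
    ring

end Claimed.Agent.R236.K
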