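/-
Row 236 / S0471, route K (helper18).  Blueprint: `git show origin/helper18:docs/R236_S0471.md`, section 5 (MV1 - MV3).
The polynomial moves: letters `al`, `be`, the twist flow `mz`, the two-handle move `ew1/ew2`, insertion of a handle.
-/
import Claimed.Agent.R236.K.Basic

set_option autoImplicit false

namespace Claimed.Agent.R236.K

open scoped BigOperators

variable {g k r : ℕ}

/-- `α(A,B) = (A, BA)` -/
def al (τ : Pair r) : Pair r := (τ.1, τ.2 * τ.1)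
/-- `β(A,B) = (AB, B)` -/
def be (τ : Pair r) : Pair r := (τ.1 * τ.2, τ.2)
/-- a letter: `false ↦ α`, `true ↦ β` -/
def lt (b : Bool) (τ : Pair r) : Pair r := if b then be τ else al τ
/-- `m_z(A,B) = (A, Bz)` -/
def mz (z : Mat r) (τ : Pair r) : Pair r := (τ.1, τ.2 * z)
/-- `E(τ₁,τ₂) = B₁ adj(A₁) adj(B₁) A₂` -/
def Eadj (τ₁ τ₂ : Pair r) : Mat r := τ₁.2 * τ₁.1.adjugate * τ₁.2.adjugate * τ₂.1
/-- first half of the two-handle move -/
def ew1 (w : Mat r) (τ : Pair r) : Pair r := (τ.1, w.adjugate * τ.2)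
/-- second half of the two-handle move -/
def ew2 (w : Mat r) (τ : Pair r) : Pair r := (w.adjugate * τ.1 * w, τ.2 * w)
/-- apply a map of handles at slot `i` -/
def atS (i : Fin g) (f : Pair r → Pair r) (ρ : Tup g r) : Tup g r := Function.update ρ i (f (ρ i))
/-- twist flow at slot `0` -/
def mflow (w : Mat r) (ρ : Tup (k + 2) r) : Tup (k + 2) r := atS 0 (mz w) ρ
/-- two-handle move at the slots `1,2` -/
def eflow (w : Mat r) (ρ : Tup (k + 3) r) : Tup (k + 3) r := atS 2 (ew2 w) (atS 1 (ew1 w) ρ)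
/-- insertion of the handle `(A,1)` at slot `2` -/
def ins (ρ : Tup (k + 2) r) (A : Mat r) : Tup (k + 3) r :=
  Fin.cons (ρ 0) (Fin.cons (ρ 1) (Fin.cons (A, 1) (fun i => ρ i.succ.succ)))

/-! ### polynomiality -/

section Poly

variable {E : Type*} [AddCommGroup E] [Module ℂ E]

theorem kmv_slot {Φ : E → Tup g r} (hΦ : PolyMap Φ) (i : Fin g) : PolyMap (fun x => Φ x i) :=
  (polyMap_pi (X := fun _ : Fin g => Pair r)).1 hΦ i

theorem kmv_polyMap_lt {Φ : E → Pair r} (hΦ : PolyMap Φ) (b : Bool) :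
    PolyMap (fun x => lt b (Φ x)) := by
  cases b
  · exact hΦ.fst.prodMk (hΦ.snd.matMul hΦ.fst)
  · exact (hΦ.fst.matMul hΦ.snd).prodMk hΦ.snd

end Poly

theorem polyMap_lt (b : Bool) : PolyMap (lt b : Pair r → Pair r) :=
  kmv_polyMap_lt polyMap_id b

theorem polyMap_atS_lt (i : Fin g) (b : Bool) : PolyMap (atS i (lt b) : Tup g r → Tup g r) :=
  PolyMap.update polyMap_id i (kmv_polyMap_lt (kmv_slot polyMap_id i) b)

theorem polyMap_mflow : PolyMap (fun p : Tup (k + 2) r × Mat r => mflow p.2 p.1) := by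
  have h1 : PolyMap (fun p : Tup (k + 2) r × Mat r => p.1) := polyMap_id.fst
  have h2 : PolyMap (fun p : Tup (k + 2) r × Mat r => p.2) := polyMap_id.snd
  exact PolyMap.update h1 0 ((kmv_slot h1 0).fst.prodMk ((kmv_slot h1 0).snd.matMul h2))

theorem polyMap_eflow : PolyMap (fun p : Tup (k + 3) r × Mat r => eflow p.2 p.1) := by
  have h1 : PolyMap (fun p : Tup (k + 3) r × Mat r => p.1) := polyMap_id.fst
  have h2 : PolyMap (fun p : Tup (k + 3) r × Mat r => p.2) := polyMap_id.snd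
  have h3 : PolyMap (fun p : Tup (k + 3) r × Mat r => atS 1 (ew1 p.2) p.1) :=
    PolyMap.update h1 1 ((kmv_slot h1 1).fst.prodMk (h2.adjugate.matMul (kmv_slot h1 1).snd))
  exact PolyMap.update h3 2 (((h2.adjugate.matMul (kmv_slot h3 2).fst).matMul h2).prodMk
    ((kmv_slot h3 2).snd.matMul h2))

theorem polyMap_Eadj : PolyMap (fun ρ : Tup (k + 3) r => Eadj (ρ 1) (ρ 2)) := by
  have h1 : PolyMap (fun ρ : Tup (k + 3) r => ρ 1) := kmv_slot polyMap_id 1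
  have h2 : PolyMap (fun ρ : Tup (k + 3) r => ρ 2) := kmv_slot polyMap_id 2
  exact ((h1.snd.matMul h1.fst.adjugate).matMul h1.snd.adjugate).matMul h2.fst

theorem polyMap_ins : PolyMap (fun p : Tup (k + 2) r × Mat r => ins p.1 p.2) := by
  have h1 : PolyMap (fun p : Tup (k + 2) r × Mat r => p.1) := polyMap_id.fst
  have h2 : PolyMap (fun p : Tup (k + 2) r × Mat r => p.2) := polyMap_id.snd
  rw [polyMap_pi (X := fun _ : Fin (k + 3) => Pair r)]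
  intro j
  refine Fin.cases ?_ (fun j => Fin.cases ?_ (fun j => Fin.cases ?_ (fun j => ?_) j) j) j
  · exact kmv_slot h1 0
  · exact kmv_slot h1 1
  · exact h2.prodMk (polyMap_const 1)
  · exact kmv_slot h1 j.succ.succ

/-! ### MV1: the moves preserve the relation -/

theorem kmv_unit {A : Mat r} (h : A.det ≠ 0) : ∃ u : (Mat r)ˣ, (u : Mat r) = A ∧
    ((u⁻¹ : (Mat r)ˣ) : Mat r) = A⁻¹ := by
  have hu : IsUnit A := (Matrix.isUnit_iff_isUnit_det A).2 (isUnit_iff_ne_zero.2 h)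
  obtain ⟨u, rfl⟩ := hu
  exact ⟨u, rfl, (Matrix.coe_units_inv u)⟩

theorem kmv_cmm_units (a b : (Mat r)ˣ) :
    cmm ((a : Mat r), (b : Mat r)) = ((a * b * a⁻¹ * b⁻¹ : (Mat r)ˣ) : Mat r) := by
  simp only [cmm, Units.val_mul, Matrix.coe_units_inv]

theorem kmv_adjugate {w : Mat r} (hw : w.det ≠ 0) : w.adjugate = w.det • w⁻¹ := by
  rw [Matrix.inv_def, Ring.inverse_eq_inv', smul_smul, mul_inv_cancel₀ hw, one_smul]

theorem cmm_lt (b : Bool) (τ : Pair r) (h1 : τ.1.det ≠ 0) (h2 : τ.2.det ≠ 0) :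
    cmm (lt b τ) = cmm τ := by
  obtain ⟨A, B⟩ := τ
  obtain ⟨a, rfl, -⟩ := kmv_unit h1
  obtain ⟨c, rfl, -⟩ := kmv_unit h2
  cases b
  · show cmm ((a : Mat r), (c : Mat r) * (a : Mat r)) = _
    rw [← Units.val_mul, kmv_cmm_units, kmv_cmm_units]
    congr 1
    group
  · show cmm ((a : Mat r) * (c : Mat r), (c : Mat r)) = _
    rw [← Units.val_mul, kmv_cmm_units, kmv_cmm_units]
    congr 1
    group

theorem cmm_mz (z : Mat r) (τ : Pair r) (h1 : τ.1.det ≠ 0) (h2 : τ.2.det ≠ 0) (hz : z.det ≠ 0)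
    (hc : z * τ.1 = τ.1 * z) : cmm (mz z τ) = cmm τ := by
  obtain ⟨A, B⟩ := τ
  obtain ⟨a, rfl, -⟩ := kmv_unit h1
  obtain ⟨c, rfl, -⟩ := kmv_unit h2
  obtain ⟨y, rfl, -⟩ := kmv_unit hz
  have hc' : y * a = a * y := Units.ext hc
  show cmm ((a : Mat r), (c : Mat r) * (y : Mat r)) = _
  rw [← Units.val_mul, kmv_cmm_units, kmv_cmm_units]
  congr 1
  have : y * a⁻¹ * y⁻¹ = a⁻¹ := by
    rw [mul_inv_eq_iff_eq_mul, ← mul_left_cancel_iff (a := a), ← mul_assoc, ← mul_assoc, ← hc']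
    group
  calc a * (c * y) * a⁻¹ * (c * y)⁻¹ = a * c * (y * a⁻¹ * y⁻¹) * c⁻¹ := by group
    _ = a * c * a⁻¹ * c⁻¹ := by rw [this]

theorem cmm_ew (w : Mat r) (τ₁ τ₂ : Pair r) (h1 : τ₁.1.det ≠ 0) (h2 : τ₁.2.det ≠ 0)
    (h3 : τ₂.1.det ≠ 0) (h4 : τ₂.2.det ≠ 0) (hw : w.det ≠ 0)
    (hc : w * Eadj τ₁ τ₂ = Eadj τ₁ τ₂ * w) :
    cmm (ew1 w τ₁) * cmm (ew2 w τ₂) = cmm τ₁ * cmm τ₂ := by
  obtain ⟨A₁, B₁⟩ := τ₁
  obtain ⟨A₂, B₂⟩ := τ₂
  simp only at h1 h2 h3 h4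
  have hE : Eadj (A₁, B₁) (A₂, B₂) = (A₁.det * B₁.det) • (B₁ * A₁⁻¹ * B₁⁻¹ * A₂) := by
    simp only [Eadj, kmv_adjugate h1, kmv_adjugate h2, mul_smul_comm, smul_mul_assoc, smul_smul]
    rw [mul_comm]
  have hc2 : w * (B₁ * A₁⁻¹ * B₁⁻¹ * A₂) = (B₁ * A₁⁻¹ * B₁⁻¹ * A₂) * w := by
    rw [hE, mul_smul_comm, smul_mul_assoc] at hc
    exact smul_right_injective _ (mul_ne_zero h1 h2) hc
  have e1 : cmm (ew1 w (A₁, B₁)) = cmm (A₁, w⁻¹ * B₁) := by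
    have := cmm_smul (A₁, w⁻¹ * B₁) (one_ne_zero (α := ℂ)) hw
    simp only [one_smul] at this
    rw [← this]
    simp only [ew1, kmv_adjugate hw, smul_mul_assoc]
  have e2 : cmm (ew2 w (A₂, B₂)) = cmm (w⁻¹ * A₂ * w, B₂ * w) := by
    have := cmm_smul (w⁻¹ * A₂ * w, B₂ * w) hw (one_ne_zero (α := ℂ))
    simp only [one_smul] at this
    rw [← this]
    simp only [ew2, kmv_adjugate hw, smul_mul_assoc]
  rw [e1, e2]
  obtain ⟨a₁, rfl, ha₁⟩ := kmv_unit h1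
  obtain ⟨b₁, rfl, hb₁⟩ := kmv_unit h2
  obtain ⟨a₂, rfl, -⟩ := kmv_unit h3
  obtain ⟨b₂, rfl, -⟩ := kmv_unit h4
  obtain ⟨y, rfl, hy⟩ := kmv_unit hw
  rw [← ha₁, ← hb₁] at hc2
  rw [← hy]
  have hc' : y * (b₁ * a₁⁻¹ * b₁⁻¹ * a₂) = (b₁ * a₁⁻¹ * b₁⁻¹ * a₂) * y := Units.ext hc2
  simp only [← Units.val_mul, kmv_cmm_units]
  congr 1
  have h5 : y⁻¹ * (b₁ * a₁⁻¹ * b₁⁻¹ * a₂) * y = b₁ * a₁⁻¹ * b₁⁻¹ * a₂ := by
    rw [mul_assoc, ← hc']
    group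
  calc a₁ * (y⁻¹ * b₁) * a₁⁻¹ * (y⁻¹ * b₁)⁻¹ * (y⁻¹ * a₂ * y * (b₂ * y) * (y⁻¹ * a₂ * y)⁻¹ * (b₂ * y)⁻¹)
      = a₁ * (y⁻¹ * (b₁ * a₁⁻¹ * b₁⁻¹ * a₂) * y) * b₂ * a₂⁻¹ * b₂⁻¹ := by group
    _ = a₁ * b₁ * a₁⁻¹ * b₁⁻¹ * (a₂ * b₂ * a₂⁻¹ * b₂⁻¹) := by rw [h5]; group

theorem kmv_atS_same (i : Fin g) (f : Pair r → Pair r) (ρ : Tup g r) : atS i f ρ i = f (ρ i) := by
  simp [atS]

theorem kmv_atS_ne {i j : Fin g} (h : j ≠ i) (f : Pair r → Pair r) (ρ : Tup g r) :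
    atS i f ρ j = ρ j := by
  simp [atS, Function.update_of_ne h]

theorem atS_lt_mem_VV (i : Fin g) (b : Bool) {ρ : Tup g r} (h : ρ ∈ VV g r) :
    atS i (lt b) ρ ∈ VV g r := by
  obtain ⟨hI, hk⟩ := h
  refine ⟨fun j => ?_, ?_⟩
  · by_cases hj : j = i
    · subst hj
      rw [kmv_atS_same]
      cases b
      · exact ⟨(hI j).1, by
          show ((ρ j).2 * (ρ j).1).det ≠ 0
          rw [Matrix.det_mul]; exact mul_ne_zero (hI j).2 (hI j).1⟩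
      · exact ⟨by
          show ((ρ j).1 * (ρ j).2).det ≠ 0
          rw [Matrix.det_mul]; exact mul_ne_zero (hI j).1 (hI j).2, (hI j).2⟩
    · rw [kmv_atS_ne hj]
      exact hI j
  · rw [← hk]
    refine kap_congr fun j => ?_
    by_cases hj : j = i
    · subst hj
      rw [kmv_atS_same]
      exact cmm_lt b _ (hI j).1 (hI j).2
    · rw [kmv_atS_ne hj]

theorem mflow_mem_VV {w : Mat r} {ρ : Tup (k + 2) r} (h : ρ ∈ VV (k + 2) r) (hw : w.det ≠ 0)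
    (hc : w * (ρ 0).1 = (ρ 0).1 * w) : mflow w ρ ∈ VV (k + 2) r := by
  obtain ⟨hI, hk⟩ := h
  refine ⟨fun j => ?_, ?_⟩
  · by_cases hj : j = 0
    · subst hj
      rw [mflow, kmv_atS_same]
      exact ⟨(hI 0).1, by
        show ((ρ 0).2 * w).det ≠ 0
        rw [Matrix.det_mul]; exact mul_ne_zero (hI 0).2 hw⟩
    · rw [mflow, kmv_atS_ne hj]
      exact hI j
  · rw [← hk]
    refine kap_congr fun j => ?_
    by_cases hj : j = 0
    · subst hj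
      rw [mflow, kmv_atS_same]
      exact cmm_mz w _ (hI 0).1 (hI 0).2 hw hc
    · rw [mflow, kmv_atS_ne hj]

theorem kmv_det_adjugate_ne {w : Mat r} (hw : w.det ≠ 0) : w.adjugate.det ≠ 0 := by
  rw [Matrix.det_adjugate]
  exact pow_ne_zero _ hw

theorem eflow_mem_VV {w : Mat r} {ρ : Tup (k + 3) r} (h : ρ ∈ VV (k + 3) r) (hw : w.det ≠ 0)
    (hc : w * Eadj (ρ 1) (ρ 2) = Eadj (ρ 1) (ρ 2) * w) : eflow w ρ ∈ VV (k + 3) r := by
  obtain ⟨hI, hk⟩ := h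
  have v1 : ((1 : Fin (k + 3)) : ℕ) = 1 := rfl
  have v2 : ((2 : Fin (k + 3)) : ℕ) = 2 := rfl
  have v0 : ((0 : Fin (k + 3)) : ℕ) = 0 := rfl
  have h21 : (2 : Fin (k + 3)) ≠ 1 := fun h => by
    have := congrArg Fin.val h
    omega
  have h02 : (0 : Fin (k + 3)) ≠ 2 := fun h => by
    have := congrArg Fin.val h
    omega
  have h01 : (0 : Fin (k + 3)) ≠ 1 := fun h => by
    have := congrArg Fin.val h
    omega
  have e0 : eflow w ρ 0 = ρ 0 := by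
    rw [eflow, kmv_atS_ne h02, kmv_atS_ne h01]
  have e1 : eflow w ρ 1 = ew1 w (ρ 1) := by
    rw [eflow, kmv_atS_ne h21.symm, kmv_atS_same]
  have e2 : eflow w ρ 2 = ew2 w (ρ 2) := by
    rw [eflow, kmv_atS_same, kmv_atS_ne h21]
  have e3 : ∀ j : Fin k, eflow w ρ j.succ.succ.succ = ρ j.succ.succ.succ := by
    intro j
    have v3 : ((j.succ.succ.succ : Fin (k + 3)) : ℕ) = (j : ℕ) + 3 := rfl
    rw [eflow, kmv_atS_ne (fun h => by have := congrArg Fin.val h; omega),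
      kmv_atS_ne (fun h => by have := congrArg Fin.val h; omega)]
  have s1 : ((0 : Fin (k + 2)).succ : Fin (k + 3)) = 1 := rfl
  have s2 : ((0 : Fin (k + 1)).succ.succ : Fin (k + 3)) = 2 := rfl
  refine ⟨fun j => ?_, ?_⟩
  · refine Fin.cases ?_ (fun j => Fin.cases ?_ (fun j => Fin.cases ?_ (fun j => ?_) j) j) j
    · rw [e0]; exact hI 0
    · rw [s1, e1]
      exact ⟨(hI 1).1, by
        show (w.adjugate * (ρ 1).2).det ≠ 0
        rw [Matrix.det_mul]; exact mul_ne_zero (kmv_det_adjugate_ne hw) (hI 1).2⟩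
    · rw [s2, e2]
      exact ⟨by
        show (w.adjugate * (ρ 2).1 * w).det ≠ 0
        rw [Matrix.det_mul, Matrix.det_mul]
        exact mul_ne_zero (mul_ne_zero (kmv_det_adjugate_ne hw) (hI 2).1) hw, by
        show ((ρ 2).2 * w).det ≠ 0
        rw [Matrix.det_mul]; exact mul_ne_zero (hI 2).2 hw⟩
    · rw [e3]; exact hI _
  · rw [← hk, kap_succ, kap_succ, kap_succ, kap_succ ρ, kap_succ, kap_succ]
    simp only [s1, s2, e0, e1, e2, e3]
    rw [← mul_assoc (cmm (ew1 w (ρ 1))), cmm_ew w _ _ (hI 1).1 (hI 1).2 (hI 2).1 (hI 2).2 hw hc,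
      mul_assoc (cmm (ρ 1))]

theorem ins_mem_VV {ρ : Tup (k + 2) r} (h : ρ ∈ VV (k + 2) r) {A : Mat r} (hA : A.det ≠ 0) :
    ins ρ A ∈ VV (k + 3) r := by
  obtain ⟨hI, hk⟩ := h
  refine ⟨fun j => ?_, ?_⟩
  · refine Fin.cases ?_ (fun j => Fin.cases ?_ (fun j => Fin.cases ?_ (fun j => ?_) j) j) j
    · exact hI 0
    · exact hI 1
    · exact ⟨hA, by show (1 : Mat r).det ≠ 0; simp⟩
    · exact hI j.succ.succ
  · rw [← hk, kap_succ, kap_succ, kap_succ, kap_succ ρ, kap_succ]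
    have hc : cmm ((A, 1) : Pair r) = 1 := by
      simp [cmm, Matrix.mul_nonsing_inv A (isUnit_iff_ne_zero.2 hA)]
    show cmm (ρ 0) * (cmm (ρ 1) * (cmm ((A, 1) : Pair r) * kap fun i : Fin k => ρ i.succ.succ)) = _
    rw [hc, one_mul]
    rfl

theorem mflow_one (ρ : Tup (k + 2) r) : mflow 1 ρ = ρ := by
  simp [mflow, atS, mz]

theorem eflow_one (ρ : Tup (k + 3) r) : eflow 1 ρ = ρ := by
  simp [eflow, atS, ew1, ew2]

end Claimed.Agent.R236.K
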