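/-
Row 236 / S0471, route K (helper18).  Blueprint: `git show origin/helper18:docs/R236_S0471.md`, section 7 (HS1 - HS8).
Clock and shift matrices, H-pairs, words in the letters `al`, `be`.   Matrix size `r = n + 2`.
-/
import Claimed.Agent.R236.K.Moves

set_option autoImplicit false

namespace Claimed.Agent.R236.K

open scoped BigOperators

variable {n r : ℕ}

/-- the primitive `(n+2)`-th root of unity -/
noncomputable def zeta (n : ℕ) : ℂ := Complex.exp (2 * Real.pi * Complex.I / ((n + 2 : ℕ) : ℂ))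

/-- the clock matrix `Q = diag(ζ^i)` -/
noncomputable def Qm (n : ℕ) : Mat (n + 2) := Matrix.diagonal fun i => zeta n ^ (i : ℕ)

/-- the shift matrix `P e_j = e_{j+1}` (cyclically) -/
def Pm (n : ℕ) : Mat (n + 2) := Matrix.of fun i j => if i = j + 1 then 1 else 0

/-! ### HS1, HS2 -/

theorem zeta_isPrimitiveRoot (n : ℕ) : IsPrimitiveRoot (zeta n) (n + 2) :=
  Complex.isPrimitiveRoot_exp (n + 2) (by omega)

theorem zeta_ne_zero (n : ℕ) : zeta n ≠ 0 := Complex.exp_ne_zero _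

theorem zeta_pow_ne_one (n : ℕ) {l : ℕ} (h1 : 1 ≤ l) (h2 : l < n + 2) : zeta n ^ l ≠ 1 :=
  (zeta_isPrimitiveRoot n).pow_ne_one_of_pos_of_lt (by omega) h2

theorem zeta_inv_pow_ne_one (n : ℕ) {l : ℕ} (h1 : 1 ≤ l) (h2 : l < n + 2) : (zeta n)⁻¹ ^ l ≠ 1 := by
  rw [inv_pow, Ne, inv_eq_one]
  exact zeta_pow_ne_one n h1 h2

theorem heis_zeta_pow_card (n : ℕ) : zeta n ^ (n + 2) = 1 := (zeta_isPrimitiveRoot n).pow_eq_one

theorem Qm_mul_Pm (n : ℕ) : Qm n * Pm n = zeta n • (Pm n * Qm n) := by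
  ext i j
  simp only [Qm, Pm, Matrix.diagonal_mul, Matrix.mul_diagonal, Matrix.smul_apply, Matrix.of_apply,
    smul_eq_mul]
  by_cases h : i = j + 1
  · subst h
    simp only [if_true, mul_one, one_mul]
    rw [Fin.val_add, ← pow_eq_pow_mod _ (heis_zeta_pow_card n)]
    simp [pow_succ, mul_comm]
  · simp [h]

theorem Qm_pow (n : ℕ) : Qm n ^ (n + 2) = 1 := by
  rw [Qm, Matrix.diagonal_pow, ← Matrix.diagonal_one]
  congr 1
  funext i
  simp only [Pi.pow_apply]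
  rw [← pow_mul, mul_comm, pow_mul, heis_zeta_pow_card, one_pow]

theorem heis_ofNat_succ (n m : ℕ) :
    Fin.ofNat (n + 2) (m + 1) = Fin.ofNat (n + 2) m + 1 := by
  apply Fin.ext
  simp [Fin.ofNat, Fin.val_add]

theorem heis_Pm_pow_eq (n m : ℕ) :
    Pm n ^ m = Matrix.of fun i j => if i = j + Fin.ofNat (n + 2) m then (1 : ℂ) else 0 := by
  induction m with
  | zero =>
    ext i j
    simp [Matrix.one_apply]
  | succ m ih =>
    rw [pow_succ, ih]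
    ext i j
    simp only [Pm, Matrix.mul_apply, Matrix.of_apply]
    rw [Finset.sum_eq_single (j + 1)]
    · simp only [if_true, mul_one]
      rw [heis_ofNat_succ]
      have : j + 1 + Fin.ofNat (n + 2) m = j + (Fin.ofNat (n + 2) m + 1) := by abel
      rw [this]
    · intro b _ hb
      simp [hb]
    · intro h
      exact absurd (Finset.mem_univ _) h

theorem Pm_pow (n : ℕ) : Pm n ^ (n + 2) = 1 := by
  rw [heis_Pm_pow_eq]
  ext i j
  simp [Matrix.one_apply]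

theorem Pm_mulVec_single (n : ℕ) (j : Fin (n + 2)) :
    (Pm n).mulVec (Pi.single j 1) = Pi.single (j + 1) 1 := by
  rw [Matrix.mulVec_single_one]
  funext i
  simp [Pm, Pi.single_apply, Matrix.col]

theorem Pm_pow_mulVec_single (n : ℕ) (m : ℕ) :
    (Pm n ^ m).mulVec (Pi.single 0 1) = Pi.single (Fin.ofNat (n + 2) m) 1 := by
  rw [Matrix.mulVec_single_one, heis_Pm_pow_eq]
  funext i
  simp [Pi.single_apply, Matrix.col]

theorem heis_det_ne_zero_of_pow {X : Mat (n + 2)} {c : ℂ} (hc : c ≠ 0)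
    (h : X ^ (n + 2) = c • (1 : Mat (n + 2))) : X.det ≠ 0 := by
  intro h0
  have h1 := congrArg Matrix.det h
  rw [Matrix.det_pow, h0, Matrix.det_smul, Matrix.det_one, mul_one, zero_pow (by omega)] at h1
  exact pow_ne_zero _ hc h1.symm

theorem det_Qm_ne_zero (n : ℕ) : (Qm n).det ≠ 0 :=
  heis_det_ne_zero_of_pow one_ne_zero (by rw [Qm_pow, one_smul])

theorem det_Pm_ne_zero (n : ℕ) : (Pm n).det ≠ 0 :=
  heis_det_ne_zero_of_pow one_ne_zero (by rw [Pm_pow, one_smul])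

theorem heis_geom (n : ℕ) (i k : Fin (n + 2)) :
    ∑ a ∈ Finset.range (n + 2), ((zeta n)⁻¹ ^ (i : ℕ)) ^ a * (zeta n ^ (k : ℕ)) ^ a
      = if k = i then ((n + 2 : ℕ) : ℂ) else 0 := by
  have hz := zeta_ne_zero n
  by_cases h : k = i
  · subst h
    simp only [if_true]
    have : ∀ a ∈ Finset.range (n + 2),
        ((zeta n)⁻¹ ^ (k : ℕ)) ^ a * (zeta n ^ (k : ℕ)) ^ a = 1 := by
      intro a _
      rw [← mul_pow, ← mul_pow, inv_mul_cancel₀ hz, one_pow, one_pow]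
    rw [Finset.sum_congr rfl this]
    simp
  · simp only [h, if_false]
    set x : ℂ := (zeta n)⁻¹ ^ (i : ℕ) * zeta n ^ (k : ℕ) with hx
    have hx1 : x ≠ 1 := by
      intro h1
      apply h
      have h2 : zeta n ^ (k : ℕ) = zeta n ^ (i : ℕ) := by
        have := congrArg (fun t => zeta n ^ (i : ℕ) * t) h1
        simp only [hx, mul_one] at this
        rw [← mul_assoc, ← mul_pow, mul_inv_cancel₀ hz, one_pow, one_mul] at this
        exact this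
      exact Fin.ext ((zeta_isPrimitiveRoot n).pow_inj k.2 i.2 h2)
    have hxr : x ^ (n + 2) = 1 := by
      rw [hx, mul_pow, ← pow_mul, ← pow_mul, mul_comm (i : ℕ), mul_comm (k : ℕ), pow_mul, pow_mul,
        inv_pow, heis_zeta_pow_card]
      simp
    have hs : (∑ a ∈ Finset.range (n + 2), x ^ a) * (x - 1) = 0 := by
      rw [geom_sum_mul, hxr, sub_self]
    have hs' : ∑ a ∈ Finset.range (n + 2), x ^ a = 0 := by
      rcases mul_eq_zero.mp hs with h' | h'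
      · exact h'
      · exact absurd (sub_eq_zero.mp h') hx1
    rw [← hs']
    apply Finset.sum_congr rfl
    intro a _
    rw [hx, mul_pow]

theorem heis_proj (n : ℕ) (i : Fin (n + 2)) :
    ∑ a ∈ Finset.range (n + 2), (((zeta n)⁻¹ ^ (i : ℕ)) ^ a) • Qm n ^ a
      = ((n + 2 : ℕ) : ℂ) • Matrix.diagonal (Pi.single i (1 : ℂ)) := by
  ext k l
  rw [Matrix.sum_apply]
  simp only [Qm, Matrix.diagonal_pow, Matrix.smul_apply, smul_eq_mul, Matrix.diagonal_apply]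
  by_cases hkl : k = l
  · subst hkl
    simp only [if_true, Pi.pow_apply]
    rw [heis_geom]
    by_cases h : k = i
    · subst h; simp
    · simp [h]
  · simp [hkl]

theorem heis_single (n : ℕ) (i j : Fin (n + 2)) :
    Matrix.single i j (1 : ℂ) =
      Matrix.diagonal (Pi.single i (1 : ℂ)) * Pm n ^ ((i - j : Fin (n + 2)) : ℕ) := by
  rw [heis_Pm_pow_eq]
  have h0 : Fin.ofNat (n + 2) ((i - j : Fin (n + 2)) : ℕ) = i - j := by
    apply Fin.ext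
    simp [Fin.ofNat, Nat.mod_eq_of_lt (i - j).2]
  rw [h0]
  ext k l
  simp only [Matrix.diagonal_mul, Matrix.of_apply, Matrix.single_apply, Pi.single_apply]
  by_cases hk : k = i
  · subst hk
    by_cases hl : j = l
    · subst hl; simp
    · have : ¬ (k = l + (k - j)) := by
        intro h
        apply hl
        have h2 : l + (k - j) - (k - j) = k - (k - j) := by rw [← h]
        simp at h2
        exact h2.symm
      simp [hl, this]
  · have : ¬ (i = k) := fun h => hk h.symm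
    simp [hk, this]

/-- HS2 -/
theorem span_QP (n : ℕ) :
    Submodule.span ℂ {Y : Mat (n + 2) | ∃ a b : ℕ, Y = Qm n ^ a * Pm n ^ b} = ⊤ := by
  rw [eq_top_iff]
  intro M _
  rw [Matrix.matrix_eq_sum_single M]
  apply Submodule.sum_mem
  intro i _
  apply Submodule.sum_mem
  intro j _
  have hN : ((n + 2 : ℕ) : ℂ) ≠ 0 := by exact_mod_cast (by omega : n + 2 ≠ 0)
  have h1 : Matrix.single i j (M i j) = (M i j * ((n + 2 : ℕ) : ℂ)⁻¹) •
      ∑ a ∈ Finset.range (n + 2), (((zeta n)⁻¹ ^ (i : ℕ)) ^ a) •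
        (Qm n ^ a * Pm n ^ ((i - j : Fin (n + 2)) : ℕ)) := by
    have h2 : ∑ a ∈ Finset.range (n + 2), (((zeta n)⁻¹ ^ (i : ℕ)) ^ a) •
        (Qm n ^ a * Pm n ^ ((i - j : Fin (n + 2)) : ℕ)) =
        (∑ a ∈ Finset.range (n + 2), (((zeta n)⁻¹ ^ (i : ℕ)) ^ a) • Qm n ^ a) *
          Pm n ^ ((i - j : Fin (n + 2)) : ℕ) := by
      rw [Finset.sum_mul]
      apply Finset.sum_congr rfl
      intro a _
      rw [smul_mul_assoc]
    rw [h2, heis_proj, smul_mul_assoc, ← heis_single, smul_smul, mul_assoc, inv_mul_cancel₀ hN,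
      mul_one, Matrix.smul_single, smul_eq_mul, mul_one]
  rw [h1]
  apply Submodule.smul_mem
  apply Submodule.sum_mem
  intro a _
  apply Submodule.smul_mem
  exact Submodule.subset_span ⟨a, _, rfl⟩

/-! ### H-pairs -/

/-- `(A,B)` with `AB = ω BA` and `A^r`, `B^r` non-zero scalars -/
def HPair (ω : ℂ) (τ : Pair r) : Prop :=
  τ.1 * τ.2 = ω • (τ.2 * τ.1) ∧ (∃ c : ℂ, c ≠ 0 ∧ τ.1 ^ r = c • (1 : Mat r)) ∧
    (∃ c : ℂ, c ≠ 0 ∧ τ.2 ^ r = c • (1 : Mat r))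

/-- equality up to non-zero scalars -/
def Sim (τ τ' : Pair r) : Prop :=
  ∃ c c' : ℂ, c ≠ 0 ∧ c' ≠ 0 ∧ τ' = (c • τ.1, c' • τ.2)

theorem Sim.refl (τ : Pair r) : Sim τ τ :=
  ⟨1, 1, one_ne_zero, one_ne_zero, by simp⟩

theorem Sim.symm {τ τ' : Pair r} (h : Sim τ τ') : Sim τ' τ := by
  obtain ⟨c, c', hc, hc', rfl⟩ := h
  refine ⟨c⁻¹, c'⁻¹, inv_ne_zero hc, inv_ne_zero hc', ?_⟩
  simp [smul_smul, inv_mul_cancel₀ hc, inv_mul_cancel₀ hc']

theorem Sim.trans {τ τ' τ'' : Pair r} (h : Sim τ τ') (h' : Sim τ' τ'') : Sim τ τ'' := by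
  obtain ⟨c, c', hc, hc', rfl⟩ := h
  obtain ⟨d, d', hd, hd', rfl⟩ := h'
  exact ⟨d * c, d' * c', mul_ne_zero hd hc, mul_ne_zero hd' hc', by simp [smul_smul]⟩

theorem hpair_QP (n : ℕ) : HPair (zeta n) (Qm n, Pm n) :=
  ⟨Qm_mul_Pm n, ⟨1, one_ne_zero, by simp [Qm_pow]⟩, ⟨1, one_ne_zero, by simp [Pm_pow]⟩⟩

theorem hpair_PQ (n : ℕ) : HPair (zeta n)⁻¹ (Pm n, Qm n) := by
  refine ⟨?_, ⟨1, one_ne_zero, by simp [Pm_pow]⟩, ⟨1, one_ne_zero, by simp [Qm_pow]⟩⟩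
  show Pm n * Qm n = (zeta n)⁻¹ • (Qm n * Pm n)
  rw [Qm_mul_Pm, smul_smul, inv_mul_cancel₀ (zeta_ne_zero n), one_smul]

theorem HPair.det_ne_zero {ω : ℂ} {τ : Pair (n + 2)} (h : HPair ω τ) :
    τ.1.det ≠ 0 ∧ τ.2.det ≠ 0 := by
  obtain ⟨_, ⟨c, hc, h1⟩, ⟨d, hd, h2⟩⟩ := h
  exact ⟨heis_det_ne_zero_of_pow hc h1, heis_det_ne_zero_of_pow hd h2⟩

theorem HPair.sim {ω : ℂ} {τ τ' : Pair r} (h : HPair ω τ) (hs : Sim τ τ') : HPair ω τ' := by
  obtain ⟨c, c', hc, hc', rfl⟩ := hs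
  obtain ⟨h0, ⟨d, hd, h1⟩, ⟨e, he, h2⟩⟩ := h
  refine ⟨?_, ⟨c ^ r * d, mul_ne_zero (pow_ne_zero _ hc) hd, ?_⟩,
    ⟨c' ^ r * e, mul_ne_zero (pow_ne_zero _ hc') he, ?_⟩⟩
  · show (c • τ.1) * (c' • τ.2) = ω • ((c' • τ.2) * (c • τ.1))
    simp only [smul_mul_assoc, mul_smul_comm, h0, smul_smul]
    congr 1
    ring
  · show (c • τ.1) ^ r = _
    rw [smul_pow, h1, smul_smul]
  · show (c' • τ.2) ^ r = _
    rw [smul_pow, h2, smul_smul]

/-- `A^l B = ω^l B A^l` -/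
theorem HPair.pow_mul {ω : ℂ} {τ : Pair r} (h : HPair ω τ) (l : ℕ) :
    τ.1 ^ l * τ.2 = ω ^ l • (τ.2 * τ.1 ^ l) := by
  induction l with
  | zero => simp
  | succ l ih =>
    rw [pow_succ, mul_assoc, h.1, mul_smul_comm, ← mul_assoc, ih, smul_mul_assoc, smul_smul,
      mul_assoc, pow_succ, mul_comm ω]

theorem heis_mul_pow {ω : ℂ} (hω : ω ≠ 0) {τ : Pair r} (h : HPair ω τ) (m : ℕ) :
    ∃ c : ℂ, c ≠ 0 ∧ (τ.2 * τ.1) ^ m = c • (τ.2 ^ m * τ.1 ^ m) := by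
  induction m with
  | zero => exact ⟨1, one_ne_zero, by simp⟩
  | succ m ih =>
    obtain ⟨c, hc, ih⟩ := ih
    refine ⟨c * ω ^ m, mul_ne_zero hc (pow_ne_zero _ hω), ?_⟩
    rw [pow_succ, ih, smul_mul_assoc]
    have : τ.2 ^ m * τ.1 ^ m * (τ.2 * τ.1) = τ.2 ^ m * (τ.1 ^ m * τ.2) * τ.1 := by
      simp only [mul_assoc]
    rw [this, h.pow_mul, mul_smul_comm, smul_mul_assoc, smul_smul, pow_succ, pow_succ]
    simp only [mul_assoc]

theorem heis_BA_pow {ω : ℂ} (hω : ω ≠ 0) {τ : Pair r} (h : HPair ω τ) :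
    ∃ c : ℂ, c ≠ 0 ∧ (τ.2 * τ.1) ^ r = c • (1 : Mat r) := by
  obtain ⟨c, hc, h3⟩ := heis_mul_pow hω h r
  obtain ⟨_, ⟨d, hd, h1⟩, ⟨e, he, h2⟩⟩ := h
  refine ⟨c * (e * d), mul_ne_zero hc (mul_ne_zero he hd), ?_⟩
  rw [h3, h1, h2, smul_mul_smul_comm, mul_one, smul_smul]

/-- HS3 -/
theorem HPair.lt {ω : ℂ} (hω : ω ≠ 0) {τ : Pair r} (h : HPair ω τ) (b : Bool) :
    HPair ω (lt b τ) := by
  obtain ⟨c, hc, h3⟩ := heis_BA_pow hω h
  have h' := h
  obtain ⟨h0, h1, h2⟩ := h'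
  cases b with
  | false =>
    refine ⟨?_, h1, ⟨c, hc, h3⟩⟩
    show τ.1 * (τ.2 * τ.1) = ω • (τ.2 * τ.1 * τ.1)
    rw [← mul_assoc, h0, smul_mul_assoc]
  | true =>
    refine ⟨?_, ⟨ω ^ r * c, mul_ne_zero (pow_ne_zero _ hω) hc, ?_⟩, h2⟩
    · show τ.1 * τ.2 * τ.2 = ω • (τ.2 * (τ.1 * τ.2))
      conv_lhs => rw [h0, smul_mul_assoc, mul_assoc]
    · show (τ.1 * τ.2) ^ r = _
      rw [h0, smul_pow, h3, smul_smul]

theorem Sim.lt {τ τ' : Pair r} (h : Sim τ τ') (b : Bool) : Sim (lt b τ) (lt b τ') := by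
  obtain ⟨c, c', hc, hc', rfl⟩ := h
  cases b with
  | false =>
    refine ⟨c, c' * c, hc, mul_ne_zero hc' hc, ?_⟩
    show (c • τ.1, (c' • τ.2) * (c • τ.1)) = (c • τ.1, (c' * c) • (τ.2 * τ.1))
    rw [smul_mul_smul_comm]
  | true =>
    refine ⟨c * c', c', mul_ne_zero hc hc', hc', ?_⟩
    show ((c • τ.1) * (c' • τ.2), c' • τ.2) = ((c * c') • (τ.1 * τ.2), c' • τ.2)
    rw [smul_mul_smul_comm]

end Claimed.Agent.R236.K
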