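/-
Row 236 / S0471, route K (helper18).  Blueprint: `git show origin/helper18:docs/R236_S0471.md`, section 8 (CH4).
The chart at the clock-and-shift handle `(Q,P)`.
-/
import Claimed.Agent.R236.K.Chart
import Claimed.Agent.R236.K.Heis

set_option autoImplicit false

namespace Claimed.Agent.R236.K

open scoped BigOperators Matrix.Norms.Elementwise

variable {g k n r : ℕ}

/-! ### the base point -/

theorem chb_succ_eq_add_one (i : Fin (n + 1)) (k : Fin (n + 2)) :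
    i.succ = k + 1 ↔ k = i.castSucc := by
  constructor
  · intro h
    rw [← Fin.coeSucc_eq_succ] at h
    exact (add_right_cancel h).symm
  · rintro rfl
    exact Fin.coeSucc_eq_succ.symm

/-- the lower unitriangular matrix `(1 - N/x)⁻¹` -/
noncomputable def chbT (n : ℕ) (x : ℂ) : Mat (n + 2) :=
  Matrix.of fun i j => if j ≤ i then x⁻¹ ^ ((i : ℕ) - (j : ℕ)) else 0

theorem chb_det_T (n : ℕ) (x : ℂ) : (chbT n x).det = 1 := by
  rw [Matrix.det_of_isLowerTriangular]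
  · simp [chbT]
  · intro i j hij
    have : ¬ (j ≤ i) := not_le.mpr hij
    simp [chbT, this]

theorem chb_M_zero (n : ℕ) (w : Fin (n + 2) → ℂ) (x : ℂ) (k : Fin (n + 2)) :
    (x • (1 : Mat (n + 2)) - Dmat (lowRows (Pm n)) w) 0 k = x * (if 0 = k then 1 else 0) - w k := by
  simp [Dmat, Matrix.one_apply]

theorem chb_M_succ (n : ℕ) (w : Fin (n + 2) → ℂ) (x : ℂ) (i : Fin (n + 1)) (k : Fin (n + 2)) :
    (x • (1 : Mat (n + 2)) - Dmat (lowRows (Pm n)) w) i.succ k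
      = x * (if k = i.succ then 1 else 0) - (if k = i.castSucc then 1 else 0) := by
  simp only [Dmat, lowRows, Pm, Matrix.sub_apply, Matrix.smul_apply, Matrix.one_apply,
    Matrix.of_apply, Fin.cons_succ, smul_eq_mul, chb_succ_eq_add_one, eq_comm]

theorem chb_MT_succ (n : ℕ) (w : Fin (n + 2) → ℂ) (x : ℂ) (hx : x ≠ 0) (i : Fin (n + 1))
    (j : Fin (n + 2)) :
    ((x • (1 : Mat (n + 2)) - Dmat (lowRows (Pm n)) w) * chbT n x) i.succ j
      = if j = i.succ then x else 0 := by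
  rw [Matrix.mul_apply]
  simp only [chb_M_succ, sub_mul, Finset.sum_sub_distrib, mul_assoc, ite_mul, one_mul, zero_mul,
    mul_ite, mul_zero, Finset.sum_ite_eq', Finset.mem_univ, if_true]
  simp only [chbT, Matrix.of_apply]
  rcases lt_trichotomy (j : ℕ) ((i : ℕ) + 1) with h | h | h
  · have h1 : j ≤ i.succ := by
      rw [Fin.le_def, Fin.val_succ]; omega
    have h2 : j ≤ i.castSucc := by
      rw [Fin.le_def, Fin.val_castSucc]; omega
    have h3 : j ≠ i.succ := by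
      intro h'
      rw [h', Fin.val_succ] at h
      omega
    rw [if_pos h1, if_pos h2, if_neg h3, Fin.val_succ, Fin.val_castSucc]
    have : (i : ℕ) + 1 - (j : ℕ) = ((i : ℕ) - (j : ℕ)) + 1 := by omega
    rw [this, pow_succ]
    field_simp
    ring
  · have h3 : j = i.succ := Fin.ext (by rw [Fin.val_succ]; exact h)
    have h2 : ¬ (j ≤ i.castSucc) := by
      rw [Fin.le_def, Fin.val_castSucc]; omega
    rw [if_neg h2, if_pos h3, h3]
    simp
  · have h1 : ¬ (j ≤ i.succ) := by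
      rw [Fin.le_def, Fin.val_succ]; omega
    have h2 : ¬ (j ≤ i.castSucc) := by
      rw [Fin.le_def, Fin.val_castSucc]; omega
    have h3 : j ≠ i.succ := by
      intro h'
      rw [h', Fin.val_succ] at h
      omega
    rw [if_neg h1, if_neg h2, if_neg h3]
    simp

theorem chb_MT_zero (n : ℕ) (w : Fin (n + 2) → ℂ) (x : ℂ) :
    ((x • (1 : Mat (n + 2)) - Dmat (lowRows (Pm n)) w) * chbT n x) 0 0
      = x - ∑ j : Fin (n + 2), w j * x⁻¹ ^ (j : ℕ) := by
  rw [Matrix.mul_apply]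
  simp only [chb_M_zero, sub_mul, Finset.sum_sub_distrib, mul_assoc, ite_mul, one_mul, zero_mul,
    mul_ite, mul_zero, Finset.sum_ite_eq, Finset.mem_univ, if_true]
  simp [chbT]

/-- characteristic polynomial of the companion-type matrix `N + e₀ wᵀ` (rows `1..` of the shift matrix) -/
theorem det_sub_Dmat_Pm (n : ℕ) (w : Fin (n + 2) → ℂ) (x : ℂ) (hx : x ≠ 0) :
    (x • (1 : Mat (n + 2)) - Dmat (lowRows (Pm n)) w).det
      = x ^ (n + 2) - ∑ j : Fin (n + 2), w j * x ^ (n + 1 - (j : ℕ)) := by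
  have h1 : ((x • (1 : Mat (n + 2)) - Dmat (lowRows (Pm n)) w) * chbT n x).det
      = (x - ∑ j : Fin (n + 2), w j * x⁻¹ ^ (j : ℕ)) * x ^ (n + 1) := by
    rw [Matrix.det_of_isUpperTriangular]
    · rw [Fin.prod_univ_succ, chb_MT_zero]
      congr 1
      simp [chb_MT_succ n w x hx]
    · intro i j hij
      obtain ⟨i', rfl⟩ := Fin.exists_succ_eq.mpr (Fin.pos_iff_ne_zero.mp (lt_of_le_of_lt (Fin.zero_le j) hij))
      have hne : j ≠ i'.succ := ne_of_lt hij
      rw [chb_MT_succ n w x hx, if_neg hne]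
  rw [Matrix.det_mul, chb_det_T, mul_one] at h1
  rw [h1, sub_mul, Finset.sum_mul, pow_succ x (n + 1), mul_comm x]
  congr 1
  apply Finset.sum_congr rfl
  intro j _
  have hj : (j : ℕ) ≤ n + 1 := by have := j.2; omega
  have : x ^ (n + 1) = x ^ (n + 1 - (j : ℕ)) * x ^ (j : ℕ) := by
    rw [← pow_add]; congr 1; omega
  rw [this, inv_pow]
  field_simp

theorem chb_comm_QP (n : ℕ) :
    Pm n * Qm n * (Pm n).adjugate * (Qm n).adjugate
      = ((Qm n).det * (Pm n).det) • ((zeta n)⁻¹ • (1 : Mat (n + 2))) := by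
  have h : Pm n * Qm n = (zeta n)⁻¹ • (Qm n * Pm n) := by
    rw [Qm_mul_Pm, smul_smul, inv_mul_cancel₀ (zeta_ne_zero n), one_smul]
  rw [h, Matrix.smul_mul, Matrix.smul_mul, Matrix.mul_assoc (Qm n), Matrix.mul_adjugate,
    Matrix.mul_smul, Matrix.mul_one, Matrix.smul_mul, Matrix.mul_adjugate, smul_smul, smul_smul,
    smul_smul]
  congr 1
  ring

theorem chb_Kry (n : ℕ) : Kry 1 (Pm n) (Pi.single 0 1) = 1 := by
  ext i j
  have h0 : Fin.ofNat (n + 2) (j : ℕ) = j := by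
    apply Fin.ext
    simp [Fin.ofNat, Nat.mod_eq_of_lt j.2]
  simp only [Kry, Matrix.of_apply, one_pow, one_mul, Pm_pow_mulVec_single, h0, Matrix.one_apply,
    Pi.single_apply]

theorem chb_xi_ne_zero (i : ℕ) : ((i : ℂ) + 1) ≠ 0 := by
  exact_mod_cast Nat.succ_ne_zero i

theorem chb_Lfun (n : ℕ) (i : Fin (n + 1)) (w : Fin (n + 2) → ℂ) :
    Lfun ((zeta n)⁻¹ • (1 : Mat (n + 2))) 1 (lowRows (Pm n)) i w
      = ((((i : ℕ) : ℂ) + 1) * (zeta n)⁻¹) ^ (n + 2) - (((i : ℕ) : ℂ) + 1) ^ (n + 2)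
        + ∑ j : Fin (n + 2), w j * ((((i : ℕ) : ℂ) + 1) ^ (n + 1 - (j : ℕ))
            * (1 - (zeta n)⁻¹ ^ (n + 1 - (j : ℕ)))) := by
  have hx := chb_xi_ne_zero (i : ℕ)
  have hz : (zeta n)⁻¹ ≠ 0 := inv_ne_zero (zeta_ne_zero n)
  rw [Lfun, smul_smul, one_smul, one_pow, one_mul, det_sub_Dmat_Pm n w _ (mul_ne_zero hx hz),
    det_sub_Dmat_Pm n w _ hx]
  have : ∀ a b c d : ℂ, a - b - (c - d) = a - c + (d - b) := by intros; ring
  rw [this, ← Finset.sum_sub_distrib]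
  congr 1
  apply Finset.sum_congr rfl
  intro j _
  rw [mul_pow]
  ring

theorem chb_mcoef (n : ℕ) (i : Fin (n + 1)) (j : Fin (n + 2)) :
    mcoef ((zeta n)⁻¹ • (1 : Mat (n + 2))) 1 (lowRows (Pm n)) i j
      = (((i : ℕ) : ℂ) + 1) ^ (n + 1 - (j : ℕ)) * (1 - (zeta n)⁻¹ ^ (n + 1 - (j : ℕ))) := by
  rw [mcoef, chb_Lfun, chb_Lfun]
  simp [Pi.single_apply]

theorem chb_MMat (n : ℕ) :
    MMat ((zeta n)⁻¹ • (1 : Mat (n + 2))) 1 (lowRows (Pm n))
      = Matrix.diagonal (fun i : Fin (n + 1) => (((i : ℕ) : ℂ) + 1))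
        * (Matrix.vandermonde (fun i : Fin (n + 1) => (((i : ℕ) : ℂ) + 1))).submatrix id Fin.revPerm
        * Matrix.diagonal (fun j : Fin (n + 1) => 1 - (zeta n)⁻¹ ^ (n + 1 - (j : ℕ))) := by
  ext i j
  rw [Matrix.mul_diagonal, Matrix.diagonal_mul]
  simp only [MMat, Matrix.of_apply, chb_mcoef, Matrix.submatrix_apply, Matrix.vandermonde_apply,
    id, Fin.revPerm_apply, Fin.val_rev, Fin.val_castSucc]
  rw [← pow_succ']
  congr 2
  have := j.2
  omega

theorem chb_Del_ne_zero (n : ℕ) :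
    Del ((zeta n)⁻¹ • (1 : Mat (n + 2))) 1 (lowRows (Pm n)) ≠ 0 := by
  rw [Del, chb_MMat, Matrix.det_mul, Matrix.det_mul, Matrix.det_diagonal, Matrix.det_diagonal,
    Matrix.det_permute']
  refine mul_ne_zero (mul_ne_zero ?_ (mul_ne_zero ?_ ?_)) ?_
  · exact Finset.prod_ne_zero_iff.mpr fun i _ => chb_xi_ne_zero (i : ℕ)
  · exact_mod_cast (Units.ne_zero _)
  · rw [Matrix.det_vandermonde_ne_zero_iff]
    intro a b hab
    have : ((a : ℕ) : ℂ) = ((b : ℕ) : ℂ) := add_right_cancel hab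
    exact Fin.ext (by exact_mod_cast this)
  · refine Finset.prod_ne_zero_iff.mpr fun j _ => ?_
    have := j.2
    exact sub_ne_zero.mpr (zeta_inv_pow_ne_one n (by omega) (by omega)).symm

/-- **CH4.** -/
theorem nd_QP (n : ℕ) : nd (Qm n, Pm n) ≠ 0 := by
  have hc : (Qm n).det * (Pm n).det ≠ 0 := mul_ne_zero (det_Qm_ne_zero n) (det_Pm_ne_zero n)
  have h := Del_smul ((Qm n).det * (Pm n).det) ((zeta n)⁻¹ • (1 : Mat (n + 2))) 1 (lowRows (Pm n))
  rw [mul_one] at h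
  simp only [nd]
  rw [chb_comm_QP, h, chb_Kry, Matrix.det_one, mul_one]
  exact mul_ne_zero (pow_ne_zero _ hc) (chb_Del_ne_zero n)

end Claimed.Agent.R236.K
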