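/-
Row 236 / S0471, route K (helper18).  Blueprint: `git show origin/helper18:docs/R236_S0471.md`, section 8 (CH1, CH3).
The round trip `Psi (PrL ρ) = scal lam ρ` on the chart domain.
-/
import Claimed.Agent.R236.K.Chart

set_option autoImplicit false

namespace Claimed.Agent.R236.K

open scoped BigOperators Matrix.Norms.Elementwise

variable {g k n r : ℕ}

/-! ### auxiliary lemmas -/

theorem Dmat_lowRows (D : Mat (n + 2)) : Dmat (lowRows D) (D 0) = D := by
  ext i j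
  refine Fin.cases ?_ (fun i => ?_) i <;> simp [Dmat, lowRows]

theorem chartRT_invt_tail {ρ : Tup (k + 2) (n + 2)} (h : ρ ∈ VV (k + 2) (n + 2)) :
    Invt (fun i : Fin (k + 1) => ρ i.succ) := fun i => h.1 i.succ

theorem chartRT_rel {ρ : Tup (k + 2) (n + 2)} (h : ρ ∈ VV (k + 2) (n + 2)) :
    cmm (ρ 0) * kap (fun i : Fin (k + 1) => ρ i.succ) = 1 := by
  rw [← kap_succ]; exact h.2

theorem chartRT_dd_ne {σ : Tup g r} (h : Invt σ) : dd σ ≠ 0 := by
  unfold dd
  exact Finset.prod_ne_zero_iff.mpr fun i _ => mul_ne_zero (h i).1 (h i).2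

/-- `K D = C D C⁻¹` -/
theorem chartRT_cmm_mul {C D : Mat r} (hD : D.det ≠ 0) : cmm (C, D) * D = C * D * C⁻¹ := by
  have hD' : IsUnit D.det := isUnit_iff_ne_zero.mpr hD
  unfold cmm
  simp only
  rw [Matrix.mul_assoc (C * D * C⁻¹), Matrix.nonsing_inv_mul D hD', Matrix.mul_one]

/-- `K D C = C D` -/
theorem chartRT_cmm_mul_mul {C D : Mat r} (hC : C.det ≠ 0) (hD : D.det ≠ 0) :
    cmm (C, D) * D * C = C * D := by
  have hC' : IsUnit C.det := isUnit_iff_ne_zero.mpr hC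
  rw [chartRT_cmm_mul hD, Matrix.mul_assoc (C * D), Matrix.nonsing_inv_mul C hC', Matrix.mul_one]

theorem chartRT_det_sub {C D κ : Mat r} (hC : C.det ≠ 0) (hD : D.det ≠ 0)
    (hκ : cmm (C, D) * κ = 1) (x : ℂ) :
    (x • κ - D).det = (x • (1 : Mat r) - D).det := by
  have hC' : IsUnit C.det := isUnit_iff_ne_zero.mpr hC
  have hκ' : κ * cmm (C, D) = 1 := mul_eq_one_comm.mp hκ
  have hdet : κ.det = 1 := by
    have h1 := congrArg Matrix.det hκ
    rw [Matrix.det_mul, det_cmm (C, D) hC hD, one_mul, Matrix.det_one] at h1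
    exact h1
  have key : x • κ - D = κ * (C * (x • (1 : Mat r) - D) * C⁻¹) := by
    have e1 : C * (x • (1 : Mat r) - D) * C⁻¹ = x • (1 : Mat r) - cmm (C, D) * D := by
      rw [chartRT_cmm_mul hD, Matrix.mul_sub, Matrix.sub_mul, Matrix.mul_smul, Matrix.mul_one,
        Matrix.smul_mul, Matrix.mul_nonsing_inv C hC']
    rw [e1, Matrix.mul_sub, Matrix.mul_smul, Matrix.mul_one, ← Matrix.mul_assoc, hκ',
      Matrix.one_mul]
  rw [key, Matrix.det_mul, hdet, one_mul, Matrix.det_mul, Matrix.det_mul,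
    Matrix.det_nonsing_inv, mul_right_comm, Ring.mul_inverse_cancel _ hC', one_mul]

theorem chartRT_adjugate {X : Mat r} (hX : X.det ≠ 0) : X.adjugate = X.det • X⁻¹ := by
  rw [Matrix.inv_def, Ring.inverse_eq_inv', smul_smul, mul_inv_cancel₀ hX, one_smul]

/-- `κ = [D,C]` -/
theorem chartRT_kap_eq {C D κ : Mat r} (hC : C.det ≠ 0) (hD : D.det ≠ 0)
    (hκ : cmm (C, D) * κ = 1) : κ = D * C * D⁻¹ * C⁻¹ := by
  have hC' : IsUnit C.det := isUnit_iff_ne_zero.mpr hC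
  have hD' : IsUnit D.det := isUnit_iff_ne_zero.mpr hD
  rw [← Matrix.inv_eq_right_inv hκ]
  unfold cmm
  simp only [Matrix.mul_inv_rev, Matrix.nonsing_inv_nonsing_inv _ hC',
    Matrix.nonsing_inv_nonsing_inv _ hD', Matrix.mul_assoc]

theorem chartRT_adj_form {C D κ : Mat r} (hC : C.det ≠ 0) (hD : D.det ≠ 0)
    (hκ : cmm (C, D) * κ = 1) :
    D * C * D.adjugate * C.adjugate = (C.det * D.det) • κ := by
  rw [chartRT_kap_eq hC hD hκ, chartRT_adjugate hC, chartRT_adjugate hD]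
  simp only [Matrix.mul_smul, Matrix.smul_mul, smul_smul]

/-- on `V`: the row `0` of `D` solves the system -/
theorem Lfun_eq_zero {ρ : Tup (k + 2) (n + 2)} (h : ρ ∈ VV (k + 2) (n + 2)) (i : Fin (n + 1)) :
    Lfun (khat fun i : Fin (k + 1) => ρ i.succ) (dd fun i : Fin (k + 1) => ρ i.succ)
      (lowRows (ρ 0).2) i ((ρ 0).2 0) = 0 := by
  have hσ := chartRT_invt_tail h
  have hrel := chartRT_rel h
  unfold Lfun
  rw [Dmat_lowRows, khat_eq hσ, smul_comm, ← smul_sub, Matrix.det_smul, Fintype.card_fin,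
    chartRT_det_sub (h.1 0).1 (h.1 0).2 hrel, sub_self]

/-- CH1, first half -/
theorem Dtil_eq {ρ : Tup (k + 2) (n + 2)} (h : ρ ∈ VV (k + 2) (n + 2)) :
    Dtil (khat fun i : Fin (k + 1) => ρ i.succ) (dd fun i : Fin (k + 1) => ρ i.succ)
      (lowRows (ρ 0).2) ((ρ 0).2 0 (Fin.last (n + 1))) = ndel ρ • (ρ 0).2 := by
  set K := khat fun i : Fin (k + 1) => ρ i.succ with hK
  set d := dd fun i : Fin (k + 1) => ρ i.succ with hd
  set D := (ρ 0).2 with hD
  have hnd : ndel ρ = Del K d (lowRows D) := rfl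
  -- the linear system
  have hsys : (MMat K d (lowRows D)).mulVec (fun j : Fin (n + 1) => D 0 j.castSucc)
      = bvec K d (lowRows D) (D 0 (Fin.last (n + 1))) := by
    funext i
    have h0 := Lfun_eq_zero h i
    rw [Lfun_affine, Fin.sum_univ_castSucc] at h0
    simp only [Matrix.mulVec, dotProduct, MMat, Matrix.of_apply, bvec]
    linear_combination h0
  have hw : (MMat K d (lowRows D)).adjugate.mulVec (bvec K d (lowRows D) (D 0 (Fin.last (n + 1))))
      = fun j : Fin (n + 1) => Del K d (lowRows D) * D 0 j.castSucc := by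
    rw [← hsys, Matrix.mulVec_mulVec, Matrix.adjugate_mul, Matrix.smul_mulVec, Matrix.one_mulVec]
    rfl
  rw [hnd]
  ext i j
  refine Fin.cases ?_ (fun i => ?_) i
  · simp only [Dtil, Dmat, Matrix.of_apply, Fin.cons_zero, wtil, Matrix.smul_apply, smul_eq_mul]
    rw [hw]
    refine Fin.lastCases ?_ (fun j => ?_) j
    · simp
    · simp
  · simp [Dtil, Dmat, lowRows]

theorem Kry_smul_self (c : ℂ) (N : Mat r) (v : Fin r → ℂ) :
    Kry c (c • N) v = c ^ (r - 1) • Kry 1 N v := by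
  ext i j
  simp only [Kry, Matrix.of_apply, Matrix.smul_apply, smul_eq_mul, one_pow, one_mul]
  rw [smul_pow, Matrix.smul_mulVec, Pi.smul_apply, smul_eq_mul, ← mul_assoc, ← pow_add]
  congr 2
  have := j.2
  omega

theorem Kry_intertwine {C D N : Mat r} (h : N * C = C * D) (v : Fin r → ℂ) :
    C * Kry 1 D v = Kry 1 N (C.mulVec v) := by
  have hs : SemiconjBy C D N := h.symm
  ext i j
  have hj : C * D ^ (j : ℕ) = N ^ (j : ℕ) * C := hs.pow_right j
  have e1 : (C * Kry 1 D v) i j = (C.mulVec ((D ^ (j : ℕ)).mulVec v)) i := by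
    simp only [Matrix.mul_apply, Kry, Matrix.of_apply, one_pow, one_mul, Matrix.mulVec, dotProduct]
  rw [e1, Matrix.mulVec_mulVec, hj, ← Matrix.mulVec_mulVec]
  simp only [Kry, Matrix.of_apply, one_pow, one_mul]

/-- CH1, second half -/
theorem Ctil_eq {ρ : Tup (k + 2) (n + 2)} (h : ρ ∈ VV (k + 2) (n + 2)) :
    Ctil (khat fun i : Fin (k + 1) => ρ i.succ) (dd fun i : Fin (k + 1) => ρ i.succ)
      (lowRows (ρ 0).2) ((ρ 0).2 0 (Fin.last (n + 1))) (fun i => (ρ 0).1 i 0)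
    = ((((dd fun i : Fin (k + 1) => ρ i.succ) ^ (n + 1) * ndel ρ) ^ (n + 1)
        * (ndel ρ ^ (n + 1)) ^ (n + 1)) * (Kry 1 (ρ 0).2 (Pi.single 0 1)).det) • (ρ 0).1 := by
  have hσ := chartRT_invt_tail h
  have hrel := chartRT_rel h
  have hC := (h.1 0).1
  have hD := (h.1 0).2
  have hadj : (khat fun i : Fin (k + 1) => ρ i.succ).adjugate
      = (dd fun i : Fin (k + 1) => ρ i.succ) ^ (n + 1) • cmm (ρ 0) := by
    have hκdet := det_kap hσ
    rw [khat_eq hσ, Matrix.adjugate_smul, Fintype.card_fin,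
      chartRT_adjugate (by rw [hκdet]; exact one_ne_zero), hκdet, one_smul,
      Matrix.inv_eq_left_inv hrel]
    rfl
  have hx : (fun i => (ρ 0).1 i 0) = (ρ 0).1.mulVec (Pi.single 0 1) := by
    funext i
    simp
  unfold Ctil
  rw [Dtil_eq h]
  change Kry ((dd fun i : Fin (k + 1) => ρ i.succ) ^ (n + 1) * ndel ρ) _ _
    * (Kry (ndel ρ) _ _).adjugate = _
  rw [hadj, Matrix.smul_mul, Matrix.mul_smul, smul_smul, Kry_smul_self, Kry_smul_self, hx,
    ← Kry_intertwine (chartRT_cmm_mul_mul hC hD), Matrix.adjugate_smul, Fintype.card_fin,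
    Matrix.smul_mul, Matrix.mul_smul, Matrix.mul_assoc, Matrix.mul_adjugate, Matrix.mul_smul,
    Matrix.mul_one, smul_smul, smul_smul]
  rfl

/-- **CH1 (round trip).** -/
theorem Psi_PrL {ρ : Tup (k + 2) (n + 2)} (h : ρ ∈ UU k n) :
    ∃ lam : Fin (k + 2) → ℂ × ℂ, NZ lam ∧ Psi (PrL k n ρ) = scal lam ρ := by
  obtain ⟨hV, hΔ, hKry⟩ := h
  have hd := chartRT_dd_ne (chartRT_invt_tail hV)
  refine ⟨Fin.cons (((((dd fun i : Fin (k + 1) => ρ i.succ) ^ (n + 1) * ndel ρ) ^ (n + 1)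
        * (ndel ρ ^ (n + 1)) ^ (n + 1)) * (Kry 1 (ρ 0).2 (Pi.single 0 1)).det), ndel ρ)
        (fun _ => (1, 1)), ?_, ?_⟩
  · intro i
    refine Fin.cases ?_ (fun i => ?_) i
    · simp only [Fin.cons_zero]
      exact ⟨mul_ne_zero (mul_ne_zero (pow_ne_zero _ (mul_ne_zero (pow_ne_zero _ hd) hΔ))
        (pow_ne_zero _ (pow_ne_zero _ hΔ))) hKry, hΔ⟩
    · simp only [Fin.cons_succ]
      exact ⟨one_ne_zero, one_ne_zero⟩
  · funext i
    refine Fin.cases ?_ (fun i => ?_) i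
    · have e1 := Ctil_eq hV
      have e2 := Dtil_eq hV
      simp only [scal, Fin.cons_zero]
      rw [← e1, ← e2]
      rfl
    · simp only [scal, Fin.cons_succ, one_smul]
      rfl

/-- **CH3.** -/
theorem ND_iff_nd {ρ : Tup (k + 2) (n + 2)} (h : ρ ∈ VV (k + 2) (n + 2)) :
    ND ρ ↔ nd (ρ 0) ≠ 0 := by
  have hσ := chartRT_invt_tail h
  have hrel := chartRT_rel h
  have hC := (h.1 0).1
  have hD := (h.1 0).2
  have hd := chartRT_dd_ne hσ
  have he : (ρ 0).1.det * (ρ 0).2.det ≠ 0 := mul_ne_zero hC hD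
  have h1 : ndel ρ = (dd fun i : Fin (k + 1) => ρ i.succ) ^ ((n + 2) * (n + 1))
      * Del (kap fun i : Fin (k + 1) => ρ i.succ) 1 (lowRows (ρ 0).2) := by
    unfold ndel
    rw [khat_eq hσ, ← Del_smul, mul_one]
  have h2 : Del ((ρ 0).2 * (ρ 0).1 * (ρ 0).2.adjugate * (ρ 0).1.adjugate)
      ((ρ 0).1.det * (ρ 0).2.det) (lowRows (ρ 0).2)
      = ((ρ 0).1.det * (ρ 0).2.det) ^ ((n + 2) * (n + 1))
      * Del (kap fun i : Fin (k + 1) => ρ i.succ) 1 (lowRows (ρ 0).2) := by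
    rw [chartRT_adj_form hC hD hrel, ← Del_smul, mul_one]
  unfold ND nd
  rw [h1, h2, mul_ne_zero_iff, mul_ne_zero_iff, mul_ne_zero_iff]
  constructor
  · rintro ⟨⟨_, h3⟩, h4⟩
    exact ⟨⟨pow_ne_zero _ he, h3⟩, h4⟩
  · rintro ⟨⟨_, h3⟩, h4⟩
    exact ⟨⟨pow_ne_zero _ hd, h3⟩, h4⟩

end Claimed.Agent.R236.K
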