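/-
Row 236 / S0471, route K (helper18).  Blueprint: `git show origin/helper18:docs/R236_S0471.md`, sections 4 and 5 (Corollary D', MV2, MV3).
The moves preserve the multi-cone `GG`, hence its polynomial closure `ZZ`.
-/
import Claimed.Agent.R236.K.Moves
import Claimed.Agent.R236.SLZ

set_option autoImplicit false

namespace Claimed.Agent.R236.K

open scoped BigOperators

variable {g k r r' : ℕ}

/-- the cone (non-zero scalars) over `SL_r(O)` is dense. -/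
theorem movesZ_dense_cone (O : Subring ℂ) (r : ℕ) :
    ZCl {A : Mat r | ∃ c : ℂ, c ≠ 0 ∧ ∃ X ∈ SLO O r, A = c • X} = Set.univ := by
  have hsub : coneSLZ r ⊆ ZCl {A : Mat r | ∃ c : ℂ, c ≠ 0 ∧ ∃ X ∈ SLO O r, A = c • X} := by
    rintro _ ⟨l, P, hP, rfl⟩
    have hPO : P.map (Int.cast : ℤ → ℂ) ∈ SLO O r := by
      refine ⟨fun i j => ?_, ?_⟩
      · simp only [Matrix.map_apply]
        exact intCast_mem O _
      · have h1 := (Int.castRingHom ℂ).map_det P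
        rw [hP] at h1
        simpa using h1.symm
    have hγ : PolyMap (fun θ : ℂ => θ • P.map (Int.cast : ℤ → ℂ)) :=
      PolyMap.smul (PolyFun.linear (LinearMap.id : ℂ →ₗ[ℂ] ℂ)) (polyMap_const _)
    refine ZCl_curve hγ ?_ l
    refine Set.Infinite.mono ?_ (Set.finite_singleton (0 : ℂ)).infinite_compl
    intro θ hθ
    exact subset_ZCl _ ⟨θ, hθ, _, hPO, rfl⟩
  have h2 := ZCl_mono hsub
  rw [ZCl_idem] at h2
  have h3 : ZCl (coneSLZ r) = Set.univ := ZCl_cone_SLZ r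
  rw [h3] at h2
  exact Set.eq_univ_of_univ_subset h2

/-- **Corollary D'.**  From `ZCl_cone_SLZ` (Lemma D) and `PolyMap.maps_univ`; `SL_r(ℤ) ⊆ SL_r(O)`; the scalar `0` is handled by
`ZCl_line` (the line `c ↦ c • X`) or by noting that the cone with `c ≠ 0` is still dense. -/
theorem density_ZZ (O : Subring ℂ) {Φ : Mat r → Tup g r'} (hΦ : PolyMap Φ)
    (h : ∀ c : ℂ, c ≠ 0 → ∀ X ∈ SLO O r, Φ (c • X) ∈ ZZ O g r') (X : Mat r) :
    Φ X ∈ ZZ O g r' := by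
  refine PolyMap.maps_univ hΦ (movesZ_dense_cone O r) (B := GG O g r') ?_ X
  rintro _ ⟨c, hc, Y, hY, rfl⟩
  exact h c hc Y hY

/-! ### MV2: the twists preserve the multi-cone, hence `ZZ` -/

theorem atS_lt_mem_GG (O : Subring ℂ) (i : Fin g) (b : Bool) {ρ : Tup g r} (h : ρ ∈ GG O g r) :
    atS i (lt b) ρ ∈ GG O g r := by
  obtain ⟨ρ0, hρ0, lam, hlam, rfl⟩ := h
  refine ⟨atS i (lt b) ρ0, ⟨atS_lt_mem_VV i b hρ0.1, ?_⟩,
    Function.update lam i (if b then ((lam i).1 * (lam i).2, (lam i).2)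
      else ((lam i).1, (lam i).2 * (lam i).1)), ?_, ?_⟩
  · intro j
    by_cases hj : j = i
    · subst hj
      cases b
      · simpa [atS, lt, al] using
          (⟨(hρ0.2 j).1, SLO_mul (hρ0.2 j).2 (hρ0.2 j).1⟩ :
            (ρ0 j).1 ∈ SLO O r ∧ (ρ0 j).2 * (ρ0 j).1 ∈ SLO O r)
      · simpa [atS, lt, be] using
          (⟨SLO_mul (hρ0.2 j).1 (hρ0.2 j).2, (hρ0.2 j).2⟩ :
            (ρ0 j).1 * (ρ0 j).2 ∈ SLO O r ∧ (ρ0 j).2 ∈ SLO O r)
    · simpa [atS, Function.update_of_ne hj] using hρ0.2 j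
  · intro j
    by_cases hj : j = i
    · subst hj
      cases b
      · simpa using (⟨(hlam j).1, (hlam j).2, (hlam j).1⟩ :
          (lam j).1 ≠ 0 ∧ (lam j).2 ≠ 0 ∧ (lam j).1 ≠ 0)
      · simpa using (⟨⟨(hlam j).1, (hlam j).2⟩, (hlam j).2⟩ :
          ((lam j).1 ≠ 0 ∧ (lam j).2 ≠ 0) ∧ (lam j).2 ≠ 0)
    · simpa [Function.update_of_ne hj] using hlam j
  · funext j
    by_cases hj : j = i
    · subst hj
      cases b
      · simp [atS, lt, al, scal, smul_smul, mul_comm]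
      · simp [atS, lt, be, scal, smul_smul, mul_comm]
    · simp [atS, scal, Function.update_of_ne hj]

theorem movesZ_det_ne {O : Subring ℂ} {X : Mat r} (hX : X ∈ SLO O r) : X.det ≠ 0 := by
  rw [hX.2]; exact one_ne_zero

theorem mflow_pow_mem_GG (O : Subring ℂ) (m : ℕ) {l : ℂ} (hl : l ≠ 0) {ρ : Tup (k + 2) r}
    (h : ρ ∈ GG O (k + 2) r) : mflow (l • (ρ 0).1 ^ m) ρ ∈ GG O (k + 2) r := by
  obtain ⟨ρ0, hρ0, lam, hlam, rfl⟩ := h
  have hA : (ρ0 0).1 ^ m ∈ SLO O r := SLO_pow (hρ0.2 0).1 m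
  refine ⟨mflow ((ρ0 0).1 ^ m) ρ0,
    ⟨mflow_mem_VV hρ0.1 (movesZ_det_ne hA) ((Commute.refl (ρ0 0).1).pow_left m).eq, ?_⟩,
    Function.update lam 0 ((lam 0).1, (lam 0).2 * (l * (lam 0).1 ^ m)), ?_, ?_⟩
  · intro j
    by_cases hj : j = 0
    · subst hj
      simpa [mflow, atS, mz] using
        (⟨(hρ0.2 0).1, SLO_mul (hρ0.2 0).2 hA⟩ :
          (ρ0 0).1 ∈ SLO O r ∧ (ρ0 0).2 * (ρ0 0).1 ^ m ∈ SLO O r)
    · simpa [mflow, atS, Function.update_of_ne hj] using hρ0.2 j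
  · intro j
    by_cases hj : j = 0
    · subst hj
      have h1 := (hlam 0).1
      have h2 := (hlam 0).2
      simp only [Function.update_self]
      exact ⟨h1, mul_ne_zero h2 (mul_ne_zero hl (pow_ne_zero m h1))⟩
    · simpa [Function.update_of_ne hj] using hlam j
  · funext j
    by_cases hj : j = 0
    · subst hj
      simp [mflow, atS, mz, scal, smul_smul, smul_pow]
      congr 1
      ring
    · simp [mflow, atS, scal, Function.update_of_ne hj]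

theorem movesZ_Eadj_smul (a1 b1 a2 b2 : ℂ) (τ₁ τ₂ : Pair r) :
    Eadj (a1 • τ₁.1, b1 • τ₁.2) (a2 • τ₂.1, b2 • τ₂.2)
      = (b1 * a1 ^ (r - 1) * b1 ^ (r - 1) * a2) • Eadj τ₁ τ₂ := by
  simp only [Eadj, Matrix.adjugate_smul, Fintype.card_fin, smul_mul_assoc, mul_smul_comm, smul_smul]
  congr 1
  ring

theorem movesZ_Eadj_mem {O : Subring ℂ} {τ₁ τ₂ : Pair r} (h1 : τ₁.1 ∈ SLO O r) (h2 : τ₁.2 ∈ SLO O r)
    (h3 : τ₂.1 ∈ SLO O r) : Eadj τ₁ τ₂ ∈ SLO O r :=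
  SLO_mul (SLO_mul (SLO_mul h2 (SLO_adjugate h1)) (SLO_adjugate h2)) h3

theorem eflow_pow_mem_GG (O : Subring ℂ) (m : ℕ) {l : ℂ} (hl : l ≠ 0) {ρ : Tup (k + 3) r}
    (h : ρ ∈ GG O (k + 3) r) : eflow (l • Eadj (ρ 1) (ρ 2) ^ m) ρ ∈ GG O (k + 3) r := by
  obtain ⟨ρ0, hρ0, lam, hlam, rfl⟩ := h
  have hE : Eadj (ρ0 1) (ρ0 2) ∈ SLO O r :=
    movesZ_Eadj_mem (hρ0.2 1).1 (hρ0.2 1).2 (hρ0.2 2).1
  have hW : Eadj (ρ0 1) (ρ0 2) ^ m ∈ SLO O r := SLO_pow hE m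
  set W0 := Eadj (ρ0 1) (ρ0 2) ^ m with hW0
  set e : ℂ := (lam 1).2 * (lam 1).1 ^ (r - 1) * (lam 1).2 ^ (r - 1) * (lam 2).1 with he
  have he0 : e ≠ 0 :=
    mul_ne_zero (mul_ne_zero (mul_ne_zero (hlam 1).2 (pow_ne_zero _ (hlam 1).1))
      (pow_ne_zero _ (hlam 1).2)) (hlam 2).1
  set c : ℂ := l * e ^ m with hc
  have hc0 : c ≠ 0 := mul_ne_zero hl (pow_ne_zero _ he0)
  have hw : l • Eadj (scal lam ρ0 1) (scal lam ρ0 2) ^ m = c • W0 := by
    have : Eadj (scal lam ρ0 1) (scal lam ρ0 2) = e • Eadj (ρ0 1) (ρ0 2) :=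
      movesZ_Eadj_smul _ _ _ _ _ _
    rw [this, smul_pow, smul_smul]
  rw [hw]
  have h12 : (1 : Fin (k + 3)) ≠ 2 := by
    intro h
    have := congrArg Fin.val h
    rw [Fin.val_one, Fin.val_two] at this
    omega
  refine ⟨eflow W0 ρ0,
    ⟨eflow_mem_VV hρ0.1 (movesZ_det_ne hW) ((Commute.refl (Eadj (ρ0 1) (ρ0 2))).pow_left m).eq, ?_⟩,
    Function.update (Function.update lam 1 ((lam 1).1, c ^ (r - 1) * (lam 1).2)) 2
      (c ^ (r - 1) * (lam 2).1 * c, (lam 2).2 * c), ?_, ?_⟩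
  · intro j
    by_cases hj2 : j = 2
    · subst hj2
      simpa [eflow, atS, ew2, Function.update_of_ne h12.symm] using
        (⟨SLO_mul (SLO_mul (SLO_adjugate hW) (hρ0.2 2).1) hW, SLO_mul (hρ0.2 2).2 hW⟩ :
          W0.adjugate * (ρ0 2).1 * W0 ∈ SLO O r ∧ (ρ0 2).2 * W0 ∈ SLO O r)
    · by_cases hj1 : j = 1
      · subst hj1
        simpa [eflow, atS, ew1, Function.update_of_ne hj2] using
          (⟨(hρ0.2 1).1, SLO_mul (SLO_adjugate hW) (hρ0.2 1).2⟩ :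
            (ρ0 1).1 ∈ SLO O r ∧ W0.adjugate * (ρ0 1).2 ∈ SLO O r)
      · simpa [eflow, atS, Function.update_of_ne hj2, Function.update_of_ne hj1] using hρ0.2 j
  · intro j
    by_cases hj2 : j = 2
    · subst hj2
      simp only [Function.update_self]
      exact ⟨mul_ne_zero (mul_ne_zero (pow_ne_zero _ hc0) (hlam 2).1) hc0,
        mul_ne_zero (hlam 2).2 hc0⟩
    · by_cases hj1 : j = 1
      · subst hj1
        simp only [Function.update_of_ne hj2, Function.update_self]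
        exact ⟨(hlam 1).1, mul_ne_zero (pow_ne_zero _ hc0) (hlam 1).2⟩
      · simpa [Function.update_of_ne hj2, Function.update_of_ne hj1] using hlam j
  · funext j
    by_cases hj2 : j = 2
    · subst hj2
      simp only [eflow, atS, ew2, scal, Function.update_self, Function.update_of_ne h12.symm,
        Matrix.adjugate_smul, Fintype.card_fin, smul_mul_assoc, mul_smul_comm, smul_smul]
      refine Prod.ext ?_ ?_
      · simp only
        congr 1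
        ring
      · simp only
        congr 1
        ring
    · by_cases hj1 : j = 1
      · subst hj1
        simp only [eflow, atS, ew1, scal, Function.update_self, Function.update_of_ne hj2,
          Matrix.adjugate_smul, Fintype.card_fin, smul_mul_assoc, mul_smul_comm, smul_smul]
        refine Prod.ext rfl ?_
        simp only
        congr 1
        ring
      · simp [eflow, atS, scal, Function.update_of_ne hj2, Function.update_of_ne hj1]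

/-- a property of all slots of an inserted tuple -/
theorem movesZ_forall_ins {α : Type*} {Q : α → Prop} (f : Fin (k + 2) → α) (a : α)
    (hf : ∀ i, Q (f i)) (ha : Q a) (j : Fin (k + 3)) :
    Q ((Fin.cons (f 0) (Fin.cons (f 1) (Fin.cons a (fun i => f i.succ.succ))) :
      Fin (k + 3) → α) j) := by
  refine Fin.cases ?_ (fun j => ?_) j
  · exact hf 0
  refine Fin.cases ?_ (fun j => ?_) j
  · exact hf 1
  refine Fin.cases ?_ (fun j => ?_) j
  · exact ha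
  · exact hf _

theorem ins_mem_GG (O : Subring ℂ) {ρ : Tup (k + 2) r} (h : ρ ∈ GG O (k + 2) r) {c : ℂ} (hc : c ≠ 0)
    {X : Mat r} (hX : X ∈ SLO O r) : ins ρ (c • X) ∈ GG O (k + 3) r := by
  obtain ⟨ρ0, hρ0, lam, hlam, rfl⟩ := h
  refine ⟨ins ρ0 X, ⟨ins_mem_VV hρ0.1 (movesZ_det_ne hX), ?_⟩,
    (Fin.cons (lam 0) (Fin.cons (lam 1) (Fin.cons (c, 1) (fun i => lam i.succ.succ))) :
      Fin (k + 3) → ℂ × ℂ), ?_, ?_⟩
  · exact movesZ_forall_ins (Q := fun τ : Pair r => τ.1 ∈ SLO O r ∧ τ.2 ∈ SLO O r) ρ0 (X, 1)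
      hρ0.2 ⟨hX, SLO_one O⟩
  · exact movesZ_forall_ins (Q := fun τ : ℂ × ℂ => τ.1 ≠ 0 ∧ τ.2 ≠ 0) lam (c, 1)
      hlam ⟨hc, one_ne_zero⟩
  · funext j
    refine Fin.cases ?_ (fun j => ?_) j
    · rfl
    refine Fin.cases ?_ (fun j => ?_) j
    · rfl
    refine Fin.cases ?_ (fun j => ?_) j
    · show ((c • X, (1 : Mat r)) : Pair r) = (c • X, (1 : ℂ) • (1 : Mat r))
      rw [one_smul]
    · rfl

theorem atS_lt_mem_ZZ (O : Subring ℂ) (i : Fin g) (b : Bool) {ρ : Tup g r} (h : ρ ∈ ZZ O g r) :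
    atS i (lt b) ρ ∈ ZZ O g r :=
  ZZ_transport O (polyMap_atS_lt i b) (fun _ hρ => GG_subset_ZZ O (atS_lt_mem_GG O i b hρ)) ρ h

theorem movesZ_infinite_ne_zero : {l : ℂ | l ≠ 0}.Infinite :=
  (Set.finite_singleton (0 : ℂ)).infinite_compl

/-- all scalars `l` are allowed (`l = 0` by `ZCl_curve`) -/
theorem mflow_pow_mem_ZZ (O : Subring ℂ) (m : ℕ) (l : ℂ) {ρ : Tup (k + 2) r}
    (h : ρ ∈ ZZ O (k + 2) r) : mflow (l • (ρ 0).1 ^ m) ρ ∈ ZZ O (k + 2) r := by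
  have h0 : ∀ l : ℂ, l ≠ 0 → mflow (l • (ρ 0).1 ^ m) ρ ∈ ZZ O (k + 2) r := by
    intro l hl
    have hA : PolyMap (fun ρ : Tup (k + 2) r => (ρ 0).1) :=
      PolyMap.fst ((polyMap_pi.mp polyMap_id) 0)
    have hA2 : PolyMap (fun ρ : Tup (k + 2) r => (ρ 0).1 ^ m) := hA.matPow m
    have hA3 : PolyMap (fun ρ : Tup (k + 2) r => l • (ρ 0).1 ^ m) :=
      PolyMap.smul (PolyFun.const l) hA2
    have hA4 : PolyMap (fun ρ : Tup (k + 2) r => (ρ, l • (ρ 0).1 ^ m)) :=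
      polyMap_id.prodMk hA3
    have hΦ := PolyMap.comp (polyMap_mflow (k := k) (r := r)) hA4
    exact ZZ_transport O hΦ (fun _ hρ => GG_subset_ZZ O (mflow_pow_mem_GG O m hl hρ)) ρ h
  have hγ1 : PolyMap (fun l : ℂ => l • (ρ 0).1 ^ m) :=
    PolyMap.smul (PolyFun.linear (LinearMap.id : ℂ →ₗ[ℂ] ℂ)) (polyMap_const ((ρ 0).1 ^ m))
  have hγ2 : PolyMap (fun l : ℂ => (ρ, l • (ρ 0).1 ^ m)) := (polyMap_const ρ).prodMk hγ1
  have hγ := PolyMap.comp (polyMap_mflow (k := k) (r := r)) hγ2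
  exact ZCl_curve hγ (movesZ_infinite_ne_zero.mono fun l hl => h0 l hl) l

/-- all scalars `l` are allowed (`l = 0` by `ZCl_curve`) -/
theorem eflow_pow_mem_ZZ (O : Subring ℂ) (m : ℕ) (l : ℂ) {ρ : Tup (k + 3) r}
    (h : ρ ∈ ZZ O (k + 3) r) : eflow (l • Eadj (ρ 1) (ρ 2) ^ m) ρ ∈ ZZ O (k + 3) r := by
  have h0 : ∀ l : ℂ, l ≠ 0 → eflow (l • Eadj (ρ 1) (ρ 2) ^ m) ρ ∈ ZZ O (k + 3) r := by
    intro l hl
    have hA2 : PolyMap (fun ρ : Tup (k + 3) r => Eadj (ρ 1) (ρ 2) ^ m) := polyMap_Eadj.matPow m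
    have hA3 : PolyMap (fun ρ : Tup (k + 3) r => l • Eadj (ρ 1) (ρ 2) ^ m) :=
      PolyMap.smul (PolyFun.const l) hA2
    have hA4 : PolyMap (fun ρ : Tup (k + 3) r => (ρ, l • Eadj (ρ 1) (ρ 2) ^ m)) :=
      polyMap_id.prodMk hA3
    have hΦ := PolyMap.comp (polyMap_eflow (k := k) (r := r)) hA4
    exact ZZ_transport O hΦ (fun _ hρ => GG_subset_ZZ O (eflow_pow_mem_GG O m hl hρ)) ρ h
  have hγ1 : PolyMap (fun l : ℂ => l • Eadj (ρ 1) (ρ 2) ^ m) :=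
    PolyMap.smul (PolyFun.linear (LinearMap.id : ℂ →ₗ[ℂ] ℂ)) (polyMap_const (Eadj (ρ 1) (ρ 2) ^ m))
  have hγ2 : PolyMap (fun l : ℂ => (ρ, l • Eadj (ρ 1) (ρ 2) ^ m)) := (polyMap_const ρ).prodMk hγ1
  have hγ := PolyMap.comp (polyMap_eflow (k := k) (r := r)) hγ2
  exact ZCl_curve hγ (movesZ_infinite_ne_zero.mono fun l hl => h0 l hl) l

/-- MV3 -/
theorem ins_mem_ZZ (O : Subring ℂ) {ρ : Tup (k + 2) r} (h : ρ ∈ ZZ O (k + 2) r) (A : Mat r) :
    ins ρ A ∈ ZZ O (k + 3) r := by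
  have hΦ : PolyMap (fun ρ : Tup (k + 2) r => ins ρ A) :=
    polyMap_ins.comp (polyMap_id.prodMk (polyMap_const A))
  refine ZZ_transport O hΦ (fun ρ hρ => ?_) ρ h
  have hΨ : PolyMap (fun A : Mat r => ins ρ A) :=
    polyMap_ins.comp ((polyMap_const ρ).prodMk polyMap_id)
  exact density_ZZ O hΨ (fun c hc X hX => GG_subset_ZZ O (ins_mem_GG O hρ hc hX)) A

theorem movesZ_swap_mem_VO (O : Subring ℂ) {X Y : Mat r} (hX : X ∈ SLO O r) (hY : Y ∈ SLO O r) :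
    (![(X, Y), (Y, X)] : Tup 2 r) ∈ VO O 2 r := by
  have hXd : IsUnit X.det := by rw [hX.2]; exact isUnit_one
  have hYd : IsUnit Y.det := by rw [hY.2]; exact isUnit_one
  refine ⟨⟨?_, ?_⟩, ?_⟩
  · intro i
    fin_cases i
    · exact ⟨movesZ_det_ne hX, movesZ_det_ne hY⟩
    · exact ⟨movesZ_det_ne hY, movesZ_det_ne hX⟩
  · rw [kap_succ, kap_succ, kap_zero, mul_one]
    show cmm (X, Y) * cmm (Y, X) = 1
    simp only [cmm]
    calc X * Y * X⁻¹ * Y⁻¹ * (Y * X * Y⁻¹ * X⁻¹)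
        = X * Y * X⁻¹ * (Y⁻¹ * Y) * X * Y⁻¹ * X⁻¹ := by simp only [mul_assoc]
      _ = X * Y * (X⁻¹ * X) * Y⁻¹ * X⁻¹ := by
          rw [Matrix.nonsing_inv_mul _ hYd, mul_one]; simp only [mul_assoc]
      _ = X * (Y * Y⁻¹) * X⁻¹ := by
          rw [Matrix.nonsing_inv_mul _ hXd, mul_one]; simp only [mul_assoc]
      _ = 1 := by
          rw [Matrix.mul_nonsing_inv _ hYd, mul_one, Matrix.mul_nonsing_inv _ hXd]
  · intro i
    fin_cases i
    · exact ⟨hX, hY⟩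
    · exact ⟨hY, hX⟩

/-- the start of all families (GF0): `((A,B),(B,A)) ∈ Z_2` for all `A, B`. -/
theorem swap_mem_ZZ (O : Subring ℂ) (A B : Mat r) :
    (![(A, B), (B, A)] : Tup 2 r) ∈ ZZ O 2 r := by
  have hpoly : PolyMap (fun p : Mat r × Mat r => (![(p.1, p.2), (p.2, p.1)] : Tup 2 r)) := by
    rw [polyMap_pi]
    intro i
    fin_cases i
    · exact (PolyMap.fst polyMap_id).prodMk (PolyMap.snd polyMap_id)
    · exact (PolyMap.snd polyMap_id).prodMk (PolyMap.fst polyMap_id)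
  have h1 : ∀ a : ℂ, a ≠ 0 → ∀ X ∈ SLO O r, ∀ B : Mat r,
      (![(a • X, B), (B, a • X)] : Tup 2 r) ∈ ZZ O 2 r := by
    intro a ha X hX B
    have hΨ : PolyMap (fun B : Mat r => (![(a • X, B), (B, a • X)] : Tup 2 r)) :=
      hpoly.comp ((polyMap_const (a • X)).prodMk polyMap_id)
    refine density_ZZ O hΨ (fun b hb Y hY => GG_subset_ZZ O ?_) B
    refine ⟨_, movesZ_swap_mem_VO O hX hY, ![(a, b), (b, a)], ?_, ?_⟩
    · intro i
      fin_cases i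
      · exact ⟨ha, hb⟩
      · exact ⟨hb, ha⟩
    · funext i
      fin_cases i
      · rfl
      · rfl
  have hΨ : PolyMap (fun A : Mat r => (![(A, B), (B, A)] : Tup 2 r)) :=
    hpoly.comp (polyMap_id.prodMk (polyMap_const B))
  exact density_ZZ O hΨ (fun a ha X hX => h1 a ha X hX B) A

end Claimed.Agent.R236.K
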