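/-
Row 236 / S0471, route K (helper18).  Blueprint: `git show origin/helper18:docs/R236_S0471.md`, section 9 (good families, GF0 - GF5).
-/
import Claimed.Agent.R236.K.MovesZ

set_option autoImplicit false

namespace Claimed.Agent.R236.K

open scoped BigOperators Matrix.Norms.Elementwise

variable {g k n r : ℕ}

/-- `Good O ρs R S`: there is a *good family* `(E, Θ, u₀)` at `ρs` (a polynomial family inside `ZZ`, inside `VV` near `u₀`,
with `Θ u₀ = ρs`) whose tangent range at `u₀` contains `R` and whose image contains `S`. -/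
def Good (O : Subring ℂ) (ρs : Tup g r) (R : Submodule ℂ (Tup g r)) (S : Set (Tup g r)) : Prop :=
  ∃ (E : Type) (_ : NormedAddCommGroup E) (_ : NormedSpace ℂ E) (_ : FiniteDimensional ℂ E)
    (Θ : E → Tup g r) (u₀ : E),
    PolyMap Θ ∧ (∀ u, Θ u ∈ ZZ O g r) ∧ (∀ᶠ u in nhds u₀, Θ u ∈ VV g r) ∧ Θ u₀ = ρs ∧
      (∀ v ∈ R, ∃ δ : E, fderiv ℂ Θ u₀ δ = v) ∧ S ⊆ Set.range Θ

/-- derivative of a letter at `τ`: `α : (a,b) ↦ (a, bA + Ba)`, `β : (a,b) ↦ (aB + Ab, b)` -/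
def dlt (b : Bool) (τ : Pair r) : Pair r →ₗ[ℂ] Pair r :=
  if b then
    { toFun := fun v => (v.1 * τ.2 + τ.1 * v.2, v.2)
      map_add' := fun x y => by
        ext <;> simp [add_mul, mul_add, add_add_add_comm]
      map_smul' := fun c x => by
        ext <;> simp }
  else
    { toFun := fun v => (v.1, v.2 * τ.1 + τ.2 * v.1)
      map_add' := fun x y => by
        ext <;> simp [add_mul, mul_add, add_add_add_comm]
      map_smul' := fun c x => by
        ext <;> simp }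

/-- the tuple with `τ` at slot `i` and `0` elsewhere -/
def sgl (i : Fin g) (τ : Pair r) : Tup g r := Pi.single (M := fun _ => Pair r) i τ

/-- apply a linear map at slot `i`, the identity at the other slots -/
def dAt (i : Fin g) (L : Pair r →ₗ[ℂ] Pair r) : Tup g r →ₗ[ℂ] Tup g r :=
  LinearMap.pi fun j => if j = i then L ∘ₗ LinearMap.proj j else LinearMap.proj j

/-- `(a,b) ↦ ((a,b),(b,a))` -/
def swapL (r : ℕ) : Mat r × Mat r →ₗ[ℂ] Tup 2 r :=
  LinearMap.pi ![LinearMap.id, (LinearMap.snd ℂ (Mat r) (Mat r)).prod (LinearMap.fst ℂ (Mat r) (Mat r))]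

/-- the derivative of the insertion -/
def insL (k r : ℕ) : Tup (k + 2) r × Mat r →ₗ[ℂ] Tup (k + 3) r :=
  LinearMap.pi (Fin.cons (LinearMap.proj 0 ∘ₗ LinearMap.fst ℂ _ _)
    (Fin.cons (LinearMap.proj 1 ∘ₗ LinearMap.fst ℂ _ _)
      (Fin.cons (LinearMap.inl ℂ (Mat r) (Mat r) ∘ₗ LinearMap.snd ℂ _ _)
        (fun i : Fin k => LinearMap.proj i.succ.succ ∘ₗ LinearMap.fst ℂ _ _))))

/-- scaling as a linear map -/
def scalL (lam : Fin g → ℂ × ℂ) : Tup g r →ₗ[ℂ] Tup g r :=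
  LinearMap.pi fun i =>
    (((lam i).1 • LinearMap.fst ℂ (Mat r) (Mat r)).prod ((lam i).2 • LinearMap.snd ℂ (Mat r) (Mat r)))
      ∘ₗ LinearMap.proj i

theorem Good.mono {O : Subring ℂ} {ρ : Tup g r} {R R' : Submodule ℂ (Tup g r)} {S S' : Set (Tup g r)}
    (h : Good O ρ R S) (hR : R' ≤ R) (hS : S' ⊆ S) : Good O ρ R' S' := by
  obtain ⟨E, i1, i2, i3, Θ, u₀, hP, hZ, hV, h0, hT, hI⟩ := h
  exact ⟨E, i1, i2, i3, Θ, u₀, hP, hZ, hV, h0, fun v hv => hT v (hR hv), hS.trans hI⟩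

theorem Good.insert_base {O : Subring ℂ} {ρ : Tup g r} {R : Submodule ℂ (Tup g r)} {S : Set (Tup g r)}
    (h : Good O ρ R S) : Good O ρ R (insert ρ S) := by
  obtain ⟨E, i1, i2, i3, Θ, u₀, hP, hZ, hV, h0, hT, hI⟩ := h
  exact ⟨E, i1, i2, i3, Θ, u₀, hP, hZ, hV, h0, hT, Set.insert_subset ⟨u₀, h0⟩ hI⟩

theorem Good.base_mem_VV {O : Subring ℂ} {ρ : Tup g r} {R : Submodule ℂ (Tup g r)} {S : Set (Tup g r)}
    (h : Good O ρ R S) : ρ ∈ VV g r := by
  obtain ⟨E, i1, i2, i3, Θ, u₀, hP, hZ, hV, h0, hT, hI⟩ := h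
  rw [← h0]
  exact hV.self_of_nhds

/-- the derivative of a polynomial map which is quadratic along a line -/
theorem good_fderiv_of_line {E F : Type*} [NormedAddCommGroup E] [NormedSpace ℂ E]
    [FiniteDimensional ℂ E] [NormedAddCommGroup F] [NormedSpace ℂ F] [FiniteDimensional ℂ F]
    {Φ : E → F} (hΦ : PolyMap Φ) (x v : E) (w c : F)
    (h : ∀ s : ℂ, Φ (x + s • v) = Φ x + s • w + s ^ 2 • c) : fderiv ℂ Φ x v = w := by
  have h1 := PolyMap.hasDerivAt_line hΦ x v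
  have h2 : HasDerivAt (fun s : ℂ => Φ x + s • w + s ^ 2 • c) w 0 := by
    have a1 : HasDerivAt (fun s : ℂ => s • w) ((1 : ℂ) • w) 0 := (hasDerivAt_id (0 : ℂ)).smul_const w
    have a2 : HasDerivAt (fun s : ℂ => s ^ 2 • c) (((2 : ℕ) * (0 : ℂ) ^ (2 - 1)) • c) 0 :=
      (hasDerivAt_pow 2 (0 : ℂ)).smul_const c
    have a3 := (a1.const_add (Φ x)).add a2
    have e1 : (1 : ℂ) • w + ((2 : ℕ) * (0 : ℂ) ^ (2 - 1)) • c = w := by simp
    rw [e1] at a3
    exact a3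
  have h3 : (fun s : ℂ => Φ (x + s • v)) = fun s : ℂ => Φ x + s • w + s ^ 2 • c := funext h
  rw [h3] at h1
  exact h1.unique h2

/-- the general principle behind GF1, GF3, GF4 -/
theorem Good.param {g' : ℕ} {O : Subring ℂ} {ρ : Tup g r} {R : Submodule ℂ (Tup g r)}
    {S : Set (Tup g r)} (h : Good O ρ R S)
    {P : Type} [NormedAddCommGroup P] [NormedSpace ℂ P] [FiniteDimensional ℂ P]
    {Ψ : Tup g r × P → Tup g' r} (hΨ : PolyMap Ψ) (p₀ : P)
    (hZ' : ∀ σ ∈ ZZ O g r, ∀ p, Ψ (σ, p) ∈ ZZ O g' r)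
    (hV' : ∀ᶠ p in nhds p₀, ∀ σ ∈ VV g r, Ψ (σ, p) ∈ VV g' r)
    (L : Tup g r × P →ₗ[ℂ] Tup g' r)
    (hL : ∀ v, ∃ c, ∀ s : ℂ, Ψ ((ρ, p₀) + s • v) = Ψ (ρ, p₀) + s • L v + s ^ 2 • c) :
    Good O (Ψ (ρ, p₀)) ((R.prod ⊤).map L) (Ψ '' (S ×ˢ Set.univ)) := by
  obtain ⟨E, i1, i2, i3, Θ, u₀, hP, hZ, hV, h0, hT, hI⟩ := h
  have hpair : PolyMap (fun q : E × P => (Θ q.1, q.2)) :=
    PolyMap.prodMk (hP.comp (polyMap_linear (LinearMap.fst ℂ E P)))
      (polyMap_linear (LinearMap.snd ℂ E P))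
  have hΘ' : PolyMap (fun q : E × P => Ψ (Θ q.1, q.2)) := hΨ.comp hpair
  refine ⟨E × P, Prod.normedAddCommGroup, Prod.normedSpace, inferInstance, fun q => Ψ (Θ q.1, q.2), (u₀, p₀),
    hΘ', fun q => hZ' _ (hZ q.1) q.2, ?_, by simp only [h0], ?_, ?_⟩
  · have e1 : ∀ᶠ q : E × P in nhds (u₀, p₀), Θ q.1 ∈ VV g r :=
      (continuous_fst.tendsto (u₀, p₀)).eventually hV
    have e2 : ∀ᶠ q : E × P in nhds (u₀, p₀), ∀ σ ∈ VV g r, Ψ (σ, q.2) ∈ VV g' r :=
      (continuous_snd.tendsto (u₀, p₀)).eventually hV'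
    filter_upwards [e1, e2] with q h1 h2 using h2 _ h1
  · rintro v hv
    obtain ⟨⟨w, p⟩, hw, rfl⟩ := hv
    obtain ⟨δ, hδ⟩ := hT w hw.1
    refine ⟨(δ, p), ?_⟩
    have hd1 : HasFDerivAt (fun q : E × P => (Θ q.1, q.2))
        (((fderiv ℂ Θ u₀).comp (ContinuousLinearMap.fst ℂ E P)).prod
          (ContinuousLinearMap.snd ℂ E P)) (u₀, p₀) := by
      have b1 : HasFDerivAt (fun q : E × P => Θ q.1)
          ((fderiv ℂ Θ u₀).comp (ContinuousLinearMap.fst ℂ E P)) (u₀, p₀) :=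
        HasFDerivAt.comp (u₀, p₀) (PolyMap.differentiable hP u₀).hasFDerivAt hasFDerivAt_fst
      exact b1.prodMk hasFDerivAt_snd
    have hd2 : HasFDerivAt Ψ (fderiv ℂ Ψ (ρ, p₀)) (Θ u₀, p₀) := by
      rw [h0]; exact (PolyMap.differentiable hΨ (ρ, p₀)).hasFDerivAt
    have hd3 := (HasFDerivAt.comp (u₀, p₀) hd2 hd1).fderiv
    have hd4 : fderiv ℂ (fun q : E × P => Ψ (Θ q.1, q.2)) (u₀, p₀) (δ, p) =
        fderiv ℂ Ψ (ρ, p₀) (fderiv ℂ Θ u₀ δ, p) := by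
      exact DFunLike.congr_fun hd3 (δ, p)
    rw [hd4, hδ]
    obtain ⟨c, hc⟩ := hL (w, p)
    exact good_fderiv_of_line hΨ (ρ, p₀) (w, p) _ c hc
  · rintro _ ⟨⟨σ, p⟩, ⟨hσ, -⟩, rfl⟩
    obtain ⟨u, hu⟩ := hI hσ
    exact ⟨(u, p), by simp only [hu]⟩

theorem good_swapL_apply (q : Mat r × Mat r) :
    swapL r q = (![(q.1, q.2), (q.2, q.1)] : Tup 2 r) := by
  funext i
  fin_cases i <;> rfl

theorem good_swap_mem_VV {A B : Mat r} (hA : A.det ≠ 0) (hB : B.det ≠ 0) :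
    (![(A, B), (B, A)] : Tup 2 r) ∈ VV 2 r := by
  have hA' : IsUnit A.det := isUnit_iff_ne_zero.2 hA
  have hB' : IsUnit B.det := isUnit_iff_ne_zero.2 hB
  refine ⟨?_, ?_⟩
  · intro i
    fin_cases i
    · exact ⟨hA, hB⟩
    · exact ⟨hB, hA⟩
  · rw [kap_succ, kap_succ, kap_zero, mul_one]
    show A * B * A⁻¹ * B⁻¹ * (B * A * B⁻¹ * A⁻¹) = 1
    simp only [← mul_assoc]
    rw [Matrix.nonsing_inv_mul_cancel_right _ _ hB', Matrix.nonsing_inv_mul_cancel_right _ _ hA',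
      Matrix.mul_nonsing_inv_cancel_right _ _ hB', Matrix.mul_nonsing_inv _ hA']

/-- **GF0.** -/
theorem good_start (O : Subring ℂ) {A B : Mat r} (hA : A.det ≠ 0) (hB : B.det ≠ 0) :
    Good O (![(A, B), (B, A)] : Tup 2 r) (LinearMap.range (swapL r))
      {ρ | ∃ A' B' : Mat r, ρ = ![(A', B'), (B', A')]} := by
  have hP : PolyMap (fun q : Mat r × Mat r => swapL r q) := polyMap_linear (swapL r)
  refine ⟨Mat r × Mat r, Prod.normedAddCommGroup, Prod.normedSpace, inferInstance,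
    fun q => swapL r q, (A, B), hP, ?_, ?_, good_swapL_apply _, ?_, ?_⟩
  · intro q
    show swapL r q ∈ ZZ O 2 r
    rw [good_swapL_apply]
    exact swap_mem_ZZ O _ _
  · have e1 : ∀ᶠ q : Mat r × Mat r in nhds (A, B), q.1.det ≠ 0 :=
      (continuous_fst.matrix_det.continuousAt (x := (A, B))).eventually_ne hA
    have e2 : ∀ᶠ q : Mat r × Mat r in nhds (A, B), q.2.det ≠ 0 :=
      (continuous_snd.matrix_det.continuousAt (x := (A, B))).eventually_ne hB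
    filter_upwards [e1, e2] with q h1 h2
    show swapL r q ∈ VV 2 r
    rw [good_swapL_apply]
    exact good_swap_mem_VV h1 h2
  · rintro _ ⟨δ, rfl⟩
    refine ⟨δ, good_fderiv_of_line hP (A, B) δ _ 0 ?_⟩
    intro s
    simp only [map_add, map_smul, smul_zero, add_zero]
  · rintro _ ⟨A', B', rfl⟩
    exact ⟨(A', B'), good_swapL_apply _⟩

/-- the second order term of a letter -/
def good_lt2 (b : Bool) (v : Pair r) : Pair r := if b then (v.1 * v.2, 0) else (0, v.2 * v.1)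

theorem good_mul_line (A B a b : Mat r) (s : ℂ) :
    (A + s • a) * (B + s • b) = A * B + s • (a * B + A * b) + s ^ 2 • (a * b) := by
  simp only [add_mul, mul_add, smul_mul_assoc, mul_smul_comm, smul_add, smul_smul, sq]
  abel

theorem good_lt_line (b : Bool) (τ v : Pair r) (s : ℂ) :
    lt b (τ + s • v) = lt b τ + s • dlt b τ v + s ^ 2 • good_lt2 b v := by
  cases b
  · refine Prod.ext ?_ ?_
    · simp [lt, al, dlt, good_lt2]
    · simp only [lt, al, dlt, good_lt2]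
      exact good_mul_line τ.2 τ.1 v.2 v.1 s
  · refine Prod.ext ?_ ?_
    · simp only [lt, be, dlt, good_lt2]
      exact good_mul_line τ.1 τ.2 v.1 v.2 s
    · simp [lt, be, dlt, good_lt2]

/-- **GF1 (letter).** -/
theorem Good.letter {O : Subring ℂ} {ρ : Tup g r} {R : Submodule ℂ (Tup g r)} {S : Set (Tup g r)}
    (h : Good O ρ R S) (i : Fin g) (b : Bool) :
    Good O (atS i (lt b) ρ) (R.map (dAt i (dlt b (ρ i)))) (atS i (lt b) '' S) := by
  have hΨ : PolyMap (fun q : Tup g r × ℂ => atS i (lt b) q.1) :=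
    (polyMap_atS_lt i b).comp (polyMap_linear (LinearMap.fst ℂ (Tup g r) ℂ))
  have key := h.param hΨ (0 : ℂ) (fun σ hσ _ => atS_lt_mem_ZZ O i b hσ)
    (Filter.Eventually.of_forall fun _ σ hσ => atS_lt_mem_VV i b hσ)
    ((dAt i (dlt b (ρ i))) ∘ₗ LinearMap.fst ℂ (Tup g r) ℂ) ?_
  · refine key.mono ?_ ?_
    · rintro _ ⟨v, hv, rfl⟩
      exact ⟨(v, 0), ⟨hv, trivial⟩, rfl⟩
    · rintro _ ⟨σ, hσ, rfl⟩
      exact ⟨(σ, 0), ⟨hσ, trivial⟩, rfl⟩
  · rintro ⟨v, p⟩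
    refine ⟨sgl i (good_lt2 b (v i)), fun s => ?_⟩
    funext j
    by_cases hj : j = i
    · subst hj
      simp only [atS, sgl, dAt, Prod.fst_add, Prod.smul_fst, Function.update_self, Pi.add_apply,
        Pi.smul_apply, LinearMap.comp_apply, LinearMap.fst_apply, LinearMap.pi_apply, if_true,
        LinearMap.proj_apply, Pi.single_eq_same]
      exact good_lt_line b (ρ j) (v j) s
    · simp only [atS, sgl, dAt, Prod.fst_add, Prod.smul_fst, Function.update_of_ne hj, Pi.add_apply,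
        Pi.smul_apply, LinearMap.comp_apply, LinearMap.fst_apply, LinearMap.pi_apply, if_neg hj,
        LinearMap.proj_apply, Pi.single_eq_of_ne hj, smul_zero, add_zero]

theorem good_ins_line (ρ v : Tup (k + 2) r) (a : Mat r) (s : ℂ) :
    ins (ρ + s • v) (1 + s • a) = ins ρ 1 + s • insL k r (v, a) := by
  funext j
  refine Fin.cases ?_ (fun j => Fin.cases ?_ (fun j => Fin.cases ?_ (fun j => ?_) j) j) j
  · simp [ins, insL]
  · simp [ins, insL]
  · show ((1 + s • a, 1) : Pair r) = ((1, 1) : Pair r) + s • ((a, 0) : Pair r)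
    simp
  · simp [ins, insL]

/-- **GF3 (insertion).** -/
theorem Good.ins {O : Subring ℂ} {ρ : Tup (k + 2) r} {R : Submodule ℂ (Tup (k + 2) r)}
    {S : Set (Tup (k + 2) r)} (h : Good O ρ R S) :
    Good O (ins ρ 1) ((R.prod ⊤).map (insL k r)) {ρ' | ∃ σ ∈ S, ∃ A : Mat r, ρ' = ins σ A} := by
  have key := h.param (polyMap_ins (k := k) (r := r)) (1 : Mat r)
    (fun σ hσ A => ins_mem_ZZ O hσ A) ?_ (insL k r) ?_
  · refine key.mono le_rfl ?_
    rintro _ ⟨σ, hσ, A, rfl⟩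
    exact ⟨(σ, A), ⟨hσ, trivial⟩, rfl⟩
  · have e1 : ∀ᶠ A : Mat r in nhds (1 : Mat r), A.det ≠ 0 :=
      (continuous_id.matrix_det.continuousAt (x := (1 : Mat r))).eventually_ne (by simp)
    filter_upwards [e1] with A hA σ hσ using ins_mem_VV hσ hA
  · rintro ⟨v, a⟩
    refine ⟨0, fun s => ?_⟩
    rw [smul_zero, add_zero]
    exact good_ins_line ρ v a s

/-- `μ ↦ μ · ρ` as a linear map -/
def good_scalR (ρ : Tup g r) : (Fin g → ℂ × ℂ) →ₗ[ℂ] Tup g r where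
  toFun := fun mu => scal mu ρ
  map_add' := fun x y => by
    funext i
    simp [scal, add_smul]
  map_smul' := fun c x => by
    funext i
    simp [scal, smul_smul]

theorem good_polyMap_scal2 :
    PolyMap (fun q : Tup g r × (Fin g → ℂ × ℂ) => scal q.2 q.1) := by
  rw [polyMap_pi (X := fun _ : Fin g => Pair r)]
  intro i
  refine PolyMap.prodMk (PolyMap.smul ?_ ?_) (PolyMap.smul ?_ ?_)
  · exact PolyFun.linear ((LinearMap.fst ℂ ℂ ℂ) ∘ₗ (LinearMap.proj i) ∘ₗ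
      (LinearMap.snd ℂ (Tup g r) (Fin g → ℂ × ℂ)))
  · exact polyMap_linear ((LinearMap.fst ℂ (Mat r) (Mat r)) ∘ₗ (LinearMap.proj i) ∘ₗ
      (LinearMap.fst ℂ (Tup g r) (Fin g → ℂ × ℂ)))
  · exact PolyFun.linear ((LinearMap.snd ℂ ℂ ℂ) ∘ₗ (LinearMap.proj i) ∘ₗ
      (LinearMap.snd ℂ (Tup g r) (Fin g → ℂ × ℂ)))
  · exact polyMap_linear ((LinearMap.snd ℂ (Mat r) (Mat r)) ∘ₗ (LinearMap.proj i) ∘ₗ
      (LinearMap.fst ℂ (Tup g r) (Fin g → ℂ × ℂ)))

theorem good_isOpen_NZ : IsOpen {lam : Fin g → ℂ × ℂ | NZ lam} := by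
  have : {lam : Fin g → ℂ × ℂ | NZ lam} =
      ⋂ i, ({lam | (lam i).1 ≠ 0} ∩ {lam | (lam i).2 ≠ 0}) := by
    ext lam
    simp [NZ]
  rw [this]
  refine isOpen_iInter_of_finite fun i => IsOpen.inter ?_ ?_
  · exact isOpen_ne_fun (continuous_fst.comp (continuous_apply i)) continuous_const
  · exact isOpen_ne_fun (continuous_snd.comp (continuous_apply i)) continuous_const

/-- Z3 for all scalars -/
theorem good_scal_mem_ZZ (O : Subring ℂ) {σ : Tup g r} (hσ : σ ∈ ZZ O g r)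
    (mu : Fin g → ℂ × ℂ) : scal mu σ ∈ ZZ O g r := by
  have hN : {lam : Fin g → ℂ × ℂ | NZ lam} ∈ nhds (fun _ : Fin g => ((1 : ℂ), (1 : ℂ))) :=
    good_isOpen_NZ.mem_nhds (fun _ => ⟨one_ne_zero, one_ne_zero⟩)
  exact PolyMap.maps_univ (polyMap_linear (good_scalR σ)) (ZCl_eq_univ_of_mem_nhds hN)
    (B := GG O g r) (fun lam hl => (scal_mem_ZZ O hl).2 hσ) mu

theorem good_scalL_apply (lam : Fin g → ℂ × ℂ) (v : Tup g r) (i : Fin g) :
    scalL lam v i = ((lam i).1 • (v i).1, (lam i).2 • (v i).2) := rfl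

theorem good_scalR_apply (ρ : Tup g r) (mu : Fin g → ℂ × ℂ) (i : Fin g) :
    good_scalR ρ mu i = ((mu i).1 • (ρ i).1, (mu i).2 • (ρ i).2) := rfl

theorem good_smul_line (l m s : ℂ) (A a : Mat r) :
    (l + s * m) • (A + s • a) = l • A + s • (l • a + m • A) + s ^ 2 • (m • a) := by
  simp only [add_smul, smul_add, smul_smul, sq]
  have e1 : (l + s * m) * s = s * l + s * s * m := by ring
  rw [e1, add_smul]
  abel

theorem good_scal_line (lam mu : Fin g → ℂ × ℂ) (ρ v : Tup g r) (s : ℂ) :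
    scal (lam + s • mu) (ρ + s • v) =
      scal lam ρ + s • (scalL lam v + good_scalR ρ mu) + s ^ 2 • scal mu v := by
  funext i
  simp only [Pi.add_apply, Pi.smul_apply, good_scalL_apply, good_scalR_apply]
  refine Prod.ext ?_ ?_
  · exact good_smul_line (lam i).1 (mu i).1 s (ρ i).1 (v i).1
  · exact good_smul_line (lam i).2 (mu i).2 s (ρ i).2 (v i).2

/-- **GF4 (scaling).** -/
theorem Good.scal {O : Subring ℂ} {ρ : Tup g r} {R : Submodule ℂ (Tup g r)} {S : Set (Tup g r)}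
    (h : Good O ρ R S) {lam : Fin g → ℂ × ℂ} (hl : NZ lam) :
    Good O (scal lam ρ) (R.map (scalL lam) ⊔ Submodule.span ℂ
      ({v | ∃ i, v = sgl i ((ρ i).1, (0 : Mat r))} ∪ {v | ∃ i, v = sgl i ((0 : Mat r), (ρ i).2)}))
      (scal lam '' S) := by
  have key := h.param (good_polyMap_scal2 (g := g) (r := r)) lam
    (fun σ hσ mu => good_scal_mem_ZZ O hσ mu) ?_
    (scalL lam ∘ₗ LinearMap.fst ℂ (Tup g r) (Fin g → ℂ × ℂ) +
      good_scalR ρ ∘ₗ LinearMap.snd ℂ (Tup g r) (Fin g → ℂ × ℂ)) ?_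
  · refine key.mono (sup_le ?_ (Submodule.span_le.2 ?_)) ?_
    · rintro _ ⟨v, hv, rfl⟩
      exact ⟨(v, 0), ⟨hv, trivial⟩, by simp⟩
    · rintro _ (⟨i, rfl⟩ | ⟨i, rfl⟩)
      · refine ⟨(0, Pi.single i ((1 : ℂ), (0 : ℂ))), ⟨R.zero_mem, trivial⟩, ?_⟩
        funext j
        by_cases hj : j = i
        · subst hj
          simp [good_scalR, K.scal, sgl]
        · simp [good_scalR, K.scal, sgl, Pi.single_eq_of_ne hj]
      · refine ⟨(0, Pi.single i ((0 : ℂ), (1 : ℂ))), ⟨R.zero_mem, trivial⟩, ?_⟩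
        funext j
        by_cases hj : j = i
        · subst hj
          simp [good_scalR, K.scal, sgl]
        · simp [good_scalR, K.scal, sgl, Pi.single_eq_of_ne hj]
    · rintro _ ⟨σ, hσ, rfl⟩
      exact ⟨(σ, lam), ⟨hσ, trivial⟩, rfl⟩
  · filter_upwards [good_isOpen_NZ.mem_nhds hl] with mu hmu σ hσ using (scal_mem_VV hmu).2 hσ
  · rintro ⟨v, mu⟩
    exact ⟨K.scal mu v, fun s => good_scal_line lam mu ρ v s⟩

end Claimed.Agent.R236.K
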