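/-
Row 236 / S0471, route K (helper18).  Blueprint: `git show origin/helper18:docs/R236_S0471.md`, section 9 (GF5).
A good family with full tangent range in the chart forces the whole chart domain into `ZZ`.
-/
import Claimed.Agent.R236.K.Good
import Claimed.Agent.R236.K.ChartRT

set_option autoImplicit false

namespace Claimed.Agent.R236.K

open scoped BigOperators Matrix.Norms.Elementwise

variable {g k n r : ℕ}

/-- **GF5 (conclusion).** -/
theorem Good.conclusion {O : Subring ℂ} {ρ : Tup (k + 2) (n + 2)}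
    {R : Submodule ℂ (Tup (k + 2) (n + 2))} {S : Set (Tup (k + 2) (n + 2))} (h : Good O ρ R S)
    (hND : ND ρ) (hR : R.map (PrL k n) = ⊤) : UU k n ⊆ ZZ O (k + 2) (n + 2) := by
  obtain ⟨E, iN, iS, iF, Θ, u₀, hΘ, hZ, hV, hu₀, hT, -⟩ := h
  -- the projection as a continuous linear map
  let P : Tup (k + 2) (n + 2) →L[ℂ] Ych k n := LinearMap.toContinuousLinearMap (PrL k n)
  have hPapp : ∀ x, P x = PrL k n x := fun x => rfl
  have hcE : CompleteSpace E := FiniteDimensional.complete ℂ E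
  have hcY : CompleteSpace (Ych k n) := FiniteDimensional.complete ℂ (Ych k n)
  -- strict derivative of the composition
  have hd : HasStrictFDerivAt (fun u => P (Θ u)) (P.comp (fderiv ℂ Θ u₀)) u₀ :=
    P.hasStrictFDerivAt.comp u₀ (PolyMap.hasStrictFDerivAt hΘ u₀)
  have hsurj : Function.Surjective (P.comp (fderiv ℂ Θ u₀)) := by
    intro y
    have hy : y ∈ R.map (PrL k n) := by rw [hR]; trivial
    obtain ⟨v, hv, rfl⟩ := hy
    obtain ⟨δ, hδ⟩ := hT v hv
    exact ⟨δ, by simp [hδ, hPapp]⟩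
  have hmap : Filter.map (fun u => P (Θ u)) (nhds u₀) = nhds (P (Θ u₀)) :=
    hd.map_nhds_eq_of_surj (LinearMap.range_eq_top.2 hsurj)
  -- near `u₀` the chart inverse lands in `ZZ`
  have hNDev : ∀ᶠ u in nhds u₀, ND (Θ u) := by
    have hc : Filter.Tendsto Θ (nhds u₀) (nhds (Θ u₀)) := (PolyMap.continuous hΘ).continuousAt
    rw [hu₀] at hc
    exact hc.eventually (ND_eventually hND)
  have hev : ∀ᶠ u in nhds u₀, Psi (P (Θ u)) ∈ ZZ O (k + 2) (n + 2) := by
    filter_upwards [hV, hNDev] with u h1 h2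
    obtain ⟨lam, hl, he⟩ := Psi_PrL (ρ := Θ u) ⟨h1, h2⟩
    rw [hPapp, he]
    exact (scal_mem_ZZ O hl).2 (hZ u)
  have hnhds : (Psi : Ych k n → Tup (k + 2) (n + 2)) ⁻¹' (ZZ O (k + 2) (n + 2)) ∈ nhds (P (Θ u₀)) := by
    rw [← hmap]
    exact hev
  have hall : ∀ y : Ych k n, Psi y ∈ ZZ O (k + 2) (n + 2) :=
    fun y => PolyMap.maps_univ polyMap_Psi (ZCl_eq_univ_of_mem_nhds hnhds) (fun a ha => ha) y
  intro ρ' hρ'
  obtain ⟨lam, hl, he⟩ := Psi_PrL hρ'
  exact (scal_mem_ZZ O hl).1 (he ▸ hall _)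

end Claimed.Agent.R236.K
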