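/-
Row 236 / S0471, route K (helper18).  Blueprint: `git show origin/helper18:docs/R236_S0471.md`, section 8 (CH5).
The Λ-lemma: infinitesimal conjugations and scalings of `(Q,P)` fill the chart coordinates of the handle.
-/
import Claimed.Agent.R236.K.Chart
import Claimed.Agent.R236.K.Heis

set_option autoImplicit false

namespace Claimed.Agent.R236.K

open scoped BigOperators Matrix.Norms.Elementwise

variable {g k n r : ℕ}

theorem lam_mul_Pm_apply (η : Mat (n + 2)) (i j : Fin (n + 2)) :
    (η * Pm n) i j = η i (j + 1) := by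
  rw [Matrix.mul_apply, Finset.sum_eq_single (j + 1)]
  · simp [Pm]
  · intro b _ hb
    simp [Pm, hb]
  · intro h
    exact absurd (Finset.mem_univ _) h

theorem lam_Pm_mul_apply (η : Mat (n + 2)) (i j : Fin (n + 2)) :
    (Pm n * η) i j = η (i - 1) j := by
  rw [Matrix.mul_apply, Finset.sum_eq_single (i - 1)]
  · simp [Pm]
  · intro b _ hb
    have : ¬ (i = b + 1) := by
      intro h
      apply hb
      rw [h, add_sub_cancel_right]
    simp [Pm, this]
  · intro h
    exact absurd (Finset.mem_univ _) h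

/-- the linear map of the Λ-lemma -/
noncomputable def LamL (n : ℕ) : (Mat (n + 2) × ℂ × ℂ) →ₗ[ℂ] Ytau n where
  toFun p := PrtauL n (p.1 * Qm n - Qm n * p.1 + p.2.1 • Qm n, p.1 * Pm n - Pm n * p.1 + p.2.2 • Pm n)
  map_add' p q := by
    rw [← map_add]
    congr 1
    ext i j <;> simp [add_mul, mul_add, add_smul] <;> ring
  map_smul' c p := by
    rw [RingHom.id_apply, ← map_smul]
    congr 1
    ext i j <;> simp [mul_smul] <;> ring

theorem lam_diag (η : Mat (n + 2)) (c₂ : ℂ)
    (h1 : ∀ (i : Fin (n + 1)) (j : Fin (n + 2)),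
      (η * Pm n - Pm n * η + c₂ • Pm n) i.succ j = 0) (i d : Fin (n + 2)) :
    η i (i + d) = η 0 d - ((i : ℕ) : ℂ) * (if d = 0 then c₂ else 0) := by
  induction i using Fin.induction with
  | zero => simp
  | succ i ih =>
    have h := h1 i (i.castSucc + d)
    rw [Matrix.add_apply, Matrix.sub_apply, lam_mul_Pm_apply, lam_Pm_mul_apply, Matrix.smul_apply] at h
    have e1 : i.succ - 1 = i.castSucc := by
      rw [← Fin.coeSucc_eq_succ, add_sub_cancel_right]
    have e2 : i.castSucc + d + 1 = i.succ + d := by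
      rw [← Fin.coeSucc_eq_succ]; abel
    rw [e1, e2, ih] at h
    have e3 : Pm n i.succ (i.castSucc + d) = if d = 0 then 1 else 0 := by
      simp only [Pm, Matrix.of_apply, e2]
      by_cases hd : d = 0
      · simp [hd]
      · have : ¬ (i.succ = i.succ + d) := by
          intro h'
          exact hd (by simpa using h'.symm)
        simp [hd, this]
    rw [e3] at h
    by_cases hd : d = 0
    · simp only [hd, if_true, smul_eq_mul, mul_one] at h ⊢
      simp only [Fin.val_succ, Fin.val_castSucc] at h ⊢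
      push_cast
      linear_combination h
    · simp only [hd, if_false, smul_eq_mul, mul_zero, sub_zero, add_zero] at h ⊢
      linear_combination h

theorem lam_ker (η : Mat (n + 2)) (c₁ c₂ : ℂ)
    (h : Prtau (η * Qm n - Qm n * η + c₁ • Qm n, η * Pm n - Pm n * η + c₂ • Pm n) = 0) :
    c₁ = 0 ∧ c₂ = 0 ∧ η = η 0 0 • (1 : Mat (n + 2)) := by
  have h1 : ∀ (i : Fin (n + 1)) (j : Fin (n + 2)),
      (η * Pm n - Pm n * η + c₂ • Pm n) i.succ j = 0 := by
    intro i j
    exact congrFun (congrFun (congrArg Prod.fst h) i) j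
  have h2 : (η * Pm n - Pm n * η + c₂ • Pm n) 0 (Fin.last (n + 1)) = 0 :=
    congrArg (fun y : Ytau n => y.2.1) h
  have h3 : ∀ i : Fin (n + 2), (η * Qm n - Qm n * η + c₁ • Qm n) i 0 = 0 := by
    intro i
    exact congrFun (congrArg (fun y : Ytau n => y.2.2) h) i
  have hd := lam_diag η c₂ h1
  -- `c₂ = 0`
  have hc2 : c₂ = 0 := by
    rw [Matrix.add_apply, Matrix.sub_apply, lam_mul_Pm_apply, lam_Pm_mul_apply, Matrix.smul_apply] at h2
    have e1 : Fin.last (n + 1) + 1 = 0 := Fin.last_add_one _
    have e2 : (0 : Fin (n + 2)) - 1 = Fin.last (n + 1) := by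
      rw [← e1, add_sub_cancel_right]
    have e3 : Pm n 0 (Fin.last (n + 1)) = 1 := by
      simp [Pm, e1]
    have e4 := hd (Fin.last (n + 1)) 0
    rw [add_zero] at e4
    rw [e1, e2, e3, e4] at h2
    simp only [if_true, Fin.val_last, smul_eq_mul, mul_one] at h2
    have h5 : ((n : ℂ) + 2) * c₂ = 0 := by
      push_cast at h2
      linear_combination h2
    rcases mul_eq_zero.mp h5 with h6 | h6
    · exfalso
      have : ((n + 2 : ℕ) : ℂ) = 0 := by push_cast; exact h6
      exact absurd (Nat.cast_eq_zero.mp this) (by omega)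
    · exact h6
  subst hc2
  have hd' : ∀ i d : Fin (n + 2), η i (i + d) = η 0 d := by
    intro i d
    rw [hd]; simp
  have hQ : ∀ i : Fin (n + 2), η i 0 * (1 - zeta n ^ (i : ℕ)) + c₁ * (if i = 0 then 1 else 0) = 0 := by
    intro i
    have := h3 i
    rw [Matrix.add_apply, Matrix.sub_apply, Matrix.smul_apply] at this
    simp only [Qm, Matrix.mul_diagonal, Matrix.diagonal_mul, Matrix.diagonal_apply, smul_eq_mul] at this
    by_cases hi : i = 0
    · subst hi
      simp at this ⊢
      exact this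
    · simp only [hi, if_false, mul_zero, add_zero] at this ⊢
      simp only [Fin.val_zero, pow_zero, mul_one] at this
      linear_combination this
  have hc1 : c₁ = 0 := by
    have := hQ 0
    simpa using this
  have hcol : ∀ i : Fin (n + 2), i ≠ 0 → η i 0 = 0 := by
    intro i hi
    have := hQ i
    simp only [hi, if_false, mul_zero, add_zero] at this
    rcases mul_eq_zero.mp this with h6 | h6
    · exact h6
    · exfalso
      have hi' : 1 ≤ (i : ℕ) := by
        rcases Nat.eq_zero_or_pos (i : ℕ) with h0 | h0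
        · exact absurd (Fin.ext h0) hi
        · exact h0
      exact zeta_pow_ne_one n hi' i.2 (sub_eq_zero.mp h6).symm
  have hrow : ∀ d : Fin (n + 2), d ≠ 0 → η 0 d = 0 := by
    intro d hd0
    have := hd' (-d) d
    rw [neg_add_cancel] at this
    rw [← this]
    exact hcol (-d) (neg_ne_zero.mpr hd0)
  refine ⟨hc1, rfl, ?_⟩
  ext i j
  have := hd' i (j - i)
  rw [add_sub_cancel] at this
  rw [this, Matrix.smul_apply, Matrix.one_apply, smul_eq_mul]
  by_cases hij : i = j
  · subst hij; simp
  · have : j - i ≠ 0 := by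
      intro h0
      exact hij (sub_eq_zero.mp h0).symm
    simp [hij, hrow _ this]

theorem lam_finrank_ker_le (n : ℕ) : Module.finrank ℂ (LinearMap.ker (LamL n)) ≤ 1 := by
  have hle : LinearMap.ker (LamL n) ≤ Submodule.span ℂ {((1 : Mat (n + 2)), (0 : ℂ), (0 : ℂ))} := by
    intro p hp
    obtain ⟨η, c₁, c₂⟩ := p
    have h0 : Prtau (η * Qm n - Qm n * η + c₁ • Qm n, η * Pm n - Pm n * η + c₂ • Pm n) = 0 :=
      LinearMap.mem_ker.mp hp
    obtain ⟨h1, h2, h3⟩ := lam_ker η c₁ c₂ h0
    rw [Submodule.mem_span_singleton]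
    refine ⟨η 0 0, ?_⟩
    rw [h1, h2]
    conv_rhs => rw [h3]
    simp
  calc Module.finrank ℂ (LinearMap.ker (LamL n))
      ≤ Module.finrank ℂ (Submodule.span ℂ {((1 : Mat (n + 2)), (0 : ℂ), (0 : ℂ))}) :=
        Submodule.finrank_mono hle
    _ ≤ 1 := by
        have := finrank_span_le_card (R := ℂ) ({((1 : Mat (n + 2)), (0 : ℂ), (0 : ℂ))} : Set _)
        simpa using this

/-- **CH5 (Λ-lemma).** -/
theorem Lam_surjective (n : ℕ) (y : Ytau n) :
    ∃ (η : Mat (n + 2)) (c₁ c₂ : ℂ),
      Prtau (η * Qm n - Qm n * η + c₁ • Qm n, η * Pm n - Pm n * η + c₂ • Pm n) = y := by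
  have hdom : Module.finrank ℂ (Mat (n + 2) × ℂ × ℂ) = (n + 2) * (n + 2) + 2 := by
    simp [Module.finrank_prod, Module.finrank_matrix]
  have hcod : Module.finrank ℂ (Ytau n) = (n + 1) * (n + 2) + (1 + (n + 2)) := by
    simp [Module.finrank_prod, Module.finrank_pi_fintype]
  have hrk := LinearMap.finrank_range_add_finrank_ker (LamL n)
  have hk := lam_finrank_ker_le n
  have htop : LinearMap.range (LamL n) = ⊤ := by
    apply Submodule.eq_top_of_finrank_eq
    have hle : Module.finrank ℂ (LinearMap.range (LamL n)) ≤ Module.finrank ℂ (Ytau n) :=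
      Submodule.finrank_le _
    rw [hdom] at hrk
    rw [hcod] at hle ⊢
    nlinarith
  have hy : y ∈ LinearMap.range (LamL n) := by rw [htop]; trivial
  obtain ⟨⟨η, c₁, c₂⟩, hp⟩ := hy
  exact ⟨η, c₁, c₂, hp⟩

end Claimed.Agent.R236.K
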