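/-
Row 236 / S0471, route K (helper18).  Blueprint: `git show origin/helper18:docs/R236_S0471.md`, section 9 (GF2) and section 6.
Enlarging a good family by an abstract flow `(X, μ)` (uses `flow_lemma` of `R236/FlowLemma.lean`).
-/
import Claimed.Agent.R236.K.Good
import Claimed.Agent.R236.FlowLemma

set_option autoImplicit false

namespace Claimed.Agent.R236.K

open scoped BigOperators Matrix.Norms.Elementwise

variable {g k n r : ℕ}

/-! ### auxiliary facts on `pS` -/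

/-- the coefficient vector of the constant polynomial `1` -/
def gfgE0 (r : ℕ) : Fin r → ℂ := fun k => if (k : ℕ) = 0 then 1 else 0

theorem gfg_pS_e0 (M : Mat r) : pS (gfgE0 r) M = 1 := by
  have h := pS_rvec M 0
  rw [pow_zero] at h
  exact h

theorem gfg_pS_add (a b : Fin r → ℂ) (M : Mat r) : pS (a + b) M = pS a M + pS b M := by
  unfold pS
  rw [← Finset.sum_add_distrib]
  exact Finset.sum_congr rfl fun k _ => by rw [Pi.add_apply, add_smul]

theorem gfg_pS_single (s : ℂ) (l : Fin r) (M : Mat r) :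
    pS (s • (Pi.single l (1 : ℂ) : Fin r → ℂ)) M = s • M ^ (l : ℕ) := by
  unfold pS
  rw [Finset.sum_eq_single l]
  · simp
  · intro k _ hk
    simp [Pi.single_eq_of_ne hk]
  · intro h
    exact absurd (Finset.mem_univ l) h

theorem gfg_pS_comm (t : Fin r → ℂ) (M : Mat r) : pS t M * M = M * pS t M := by
  unfold pS
  rw [Finset.sum_mul, Finset.mul_sum]
  refine Finset.sum_congr rfl fun k _ => ?_
  rw [smul_mul_assoc, mul_smul_comm, ← pow_succ, ← pow_succ']

/-- **GF2, abstract form.**  `X` is the matrix generating the flow, `μ (σ, w)` the move with parameter `w`.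
New family: `E' = E × (Fin r → ℂ)`, `Θ' (u, t) = μ (Θ u, pS t (X (Θ u)))`, `u₀' = (u₀, e₀)` with `e₀ k = if k = 0 then 1 else 0`
(so `pS e₀ M = 1`; for `r = 0` all matrices are equal).
* `Θ'` is a polynomial map (`polyMap_pS`).
* `Θ' (u,t) ∈ ZZ`: `flow_lemma` with `A := GG O g r`, `P := E`, `Mx := X ∘ Θ`, `Fam (u, w) := μ (Θ u, w)`; its hypothesis is `hZ`; the point `θ₀` comes from
  `hgen` and `S ⊆ range Θ`.
* `Θ' (u,t) ∈ VV` near `u₀'`: `hV`; `pS t M` commutes with `M`; `det (pS t (X (Θ u)))` is continuous and equals `1` at `u₀'`.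
* `Θ' (u, e₀) = Θ u` (`hone`), which gives `S ⊆ range Θ'` and `fderiv Θ' u₀' (δ, 0) = fderiv Θ u₀ δ`
  (compute derivatives along lines: `PolyMap.hasDerivAt_line` and uniqueness of derivatives).
* `Θ' (u₀, e₀ + s • single l 1) = μ (ρ, 1 + s • X ρ ^ l)`, which gives `fderiv Θ' u₀' (0, single l 1) = fderiv (fun w => μ (ρ, w)) 1 (X ρ ^ l)`. -/
theorem Good.flow_gen {O : Subring ℂ} {ρ : Tup g r} {R : Submodule ℂ (Tup g r)} {S : Set (Tup g r)}
    (h : Good O ρ R S) {X : Tup g r → Mat r} (hX : PolyMap X) {μ : Tup g r × Mat r → Tup g r}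
    (hμ : PolyMap μ) (hone : ∀ σ, μ (σ, 1) = σ)
    (hZ : ∀ σ ∈ ZZ O g r, ∀ (m : ℕ) (l : ℂ), μ (σ, l • X σ ^ m) ∈ ZZ O g r)
    (hV : ∀ σ ∈ VV g r, ∀ w : Mat r, w.det ≠ 0 → w * X σ = X σ * w → μ (σ, w) ∈ VV g r)
    (hgen : ∃ ρ' ∈ S, ∃ c : ℂ, c ≠ 0 ∧ X ρ' = c • primeDiag r) :
    Good O ρ (R ⊔ Submodule.span ℂ
      {v | ∃ l : Fin r, v = fderiv ℂ (fun w : Mat r => μ (ρ, w)) 1 (X ρ ^ (l : ℕ))}) S := by
  obtain ⟨E, i1, i2, i3, Θ, u₀, hΘ, hZZ, hVV, hbase, hR, hS⟩ := h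
  set Θ' : E × (Fin r → ℂ) → Tup g r := fun x => μ (Θ x.1, pS x.2 (X (Θ x.1))) with hΘ'def
  have hfst : PolyMap (fun x : E × (Fin r → ℂ) => x.1) := PolyMap.fst polyMap_id
  have hsnd : PolyMap (fun x : E × (Fin r → ℂ) => x.2) := PolyMap.snd polyMap_id
  have hpS : PolyMap (fun x : E × (Fin r → ℂ) => pS x.2 (X (Θ x.1))) :=
    polyMap_pS ((hX.comp hΘ).comp hfst) hsnd
  have hΘ' : PolyMap Θ' := hμ.comp (PolyMap.prodMk (hΘ.comp hfst) hpS)
  have hval : ∀ u, Θ' (u, gfgE0 r) = Θ u := fun u => by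
    simp only [hΘ'def, gfg_pS_e0, hone]
  refine ⟨E × (Fin r → ℂ), inferInstance, inferInstance, inferInstance, Θ', (u₀, gfgE0 r),
    hΘ', ?_, ?_, ?_, ?_, ?_⟩
  · -- inside `ZZ`
    obtain ⟨ρ', hρ'S, c, hc, hXρ'⟩ := hgen
    obtain ⟨θ₀, hθ₀⟩ := hS hρ'S
    intro x
    exact flow_lemma (GG O g r) (fun u => X (Θ u)) (hX.comp hΘ)
      (fun y : E × Mat r => μ (Θ y.1, y.2))
      (hμ.comp (PolyMap.prodMk (hΘ.comp (PolyMap.fst polyMap_id)) (PolyMap.snd polyMap_id)))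
      (fun θ m l => hZ (Θ θ) (hZZ θ) m l) θ₀ c hc (by rw [hθ₀, hXρ']) x.1 x.2
  · -- inside `VV` near the base point
    have h1 : ∀ᶠ x : E × (Fin r → ℂ) in nhds (u₀, gfgE0 r), Θ x.1 ∈ VV g r :=
      (continuous_fst.tendsto (u₀, gfgE0 r)).eventually hVV
    have hdet : Continuous fun x : E × (Fin r → ℂ) => (pS x.2 (X (Θ x.1))).det :=
      PolyFun.continuous hpS.det
    have h2 : ∀ᶠ x : E × (Fin r → ℂ) in nhds (u₀, gfgE0 r), (pS x.2 (X (Θ x.1))).det ≠ 0 := by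
      refine hdet.continuousAt.eventually_ne ?_
      simp only [gfg_pS_e0, Matrix.det_one]
      exact one_ne_zero
    filter_upwards [h1, h2] with x hx1 hx2
    exact hV _ hx1 _ hx2 (gfg_pS_comm _ _)
  · rw [hval, hbase]
  · -- tangent range
    have hle : R ⊔ Submodule.span ℂ
        {v | ∃ l : Fin r, v = fderiv ℂ (fun w : Mat r => μ (ρ, w)) 1 (X ρ ^ (l : ℕ))}
        ≤ LinearMap.range (fderiv ℂ Θ' (u₀, gfgE0 r) : E × (Fin r → ℂ) →ₗ[ℂ] Tup g r) := by
      refine sup_le ?_ (Submodule.span_le.2 ?_)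
      · intro v hv
        obtain ⟨δ, hδ⟩ := hR v hv
        refine ⟨(δ, 0), ?_⟩
        have d1 := PolyMap.hasDerivAt_line hΘ' (u₀, gfgE0 r) (δ, 0)
        have d2 := PolyMap.hasDerivAt_line hΘ u₀ δ
        have e : (fun s : ℂ => Θ' ((u₀, gfgE0 r) + s • ((δ, 0) : E × (Fin r → ℂ))))
            = fun s : ℂ => Θ (u₀ + s • δ) := by
          funext s
          have : (u₀, gfgE0 r) + s • ((δ, 0) : E × (Fin r → ℂ)) = (u₀ + s • δ, gfgE0 r) := by
            ext <;> simp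
          rw [this, hval]
        rw [e] at d1
        rw [← hδ]
        exact d1.unique d2
      · rintro v ⟨l, rfl⟩
        refine ⟨(0, Pi.single l 1), ?_⟩
        have hμρ : PolyMap (fun w : Mat r => μ (ρ, w)) :=
          hμ.comp (PolyMap.prodMk (polyMap_const ρ) polyMap_id)
        have d1 := PolyMap.hasDerivAt_line hΘ' (u₀, gfgE0 r) (0, Pi.single l 1)
        have d2 := PolyMap.hasDerivAt_line hμρ 1 (X ρ ^ (l : ℕ))
        have e : (fun s : ℂ => Θ' ((u₀, gfgE0 r) +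
            s • ((0, Pi.single l 1) : E × (Fin r → ℂ))))
            = fun s : ℂ => μ (ρ, 1 + s • X ρ ^ (l : ℕ)) := by
          funext s
          have : (u₀, gfgE0 r) + s • ((0, Pi.single l 1) : E × (Fin r → ℂ))
              = (u₀, gfgE0 r + s • (Pi.single l (1 : ℂ) : Fin r → ℂ)) := by
            ext <;> simp
          rw [this]
          simp only [hΘ'def, hbase, gfg_pS_add, gfg_pS_e0, gfg_pS_single]
        rw [e] at d1
        exact d1.unique d2
    intro v hv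
    obtain ⟨δ, hδ⟩ := hle hv
    exact ⟨δ, hδ⟩
  · intro ρ' hρ'
    obtain ⟨u, hu⟩ := hS hρ'
    exact ⟨(u, gfgE0 r), by rw [hval, hu]⟩

end Claimed.Agent.R236.K
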