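/-
Row 236 / S0471, route K (helper18).  Blueprint: `git show origin/helper18:docs/R236_S0471.md`, section 9 (GF2) and section 6.
The two concrete flows, from `Good.flow_gen`.
-/
import Claimed.Agent.R236.K.GoodFlowGen

set_option autoImplicit false

namespace Claimed.Agent.R236.K

open scoped BigOperators Matrix.Norms.Elementwise

variable {g k n r : ℕ}

/-- a linear image of the derivative of a polynomial map, computed along a line on which the image is affine -/
theorem goodflow_fderiv_of_line {E F G : Type*} [NormedAddCommGroup E] [NormedSpace ℂ E]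
    [FiniteDimensional ℂ E] [NormedAddCommGroup F] [NormedSpace ℂ F] [FiniteDimensional ℂ F]
    [NormedAddCommGroup G] [NormedSpace ℂ G] {Φ : E → F} (hΦ : PolyMap Φ) (L : F →ₗ[ℂ] G)
    (u v : E) (c d : G) (h : ∀ s : ℂ, L (Φ (u + s • v)) = c + s • d) :
    L (fderiv ℂ Φ u v) = d := by
  have h1 := PolyMap.hasDerivAt_line hΦ u v
  have h1' := ((LinearMap.toContinuousLinearMap L).hasFDerivAt
    (x := Φ (u + (0 : ℂ) • v))).comp_hasDerivAt 0 h1
  have h2 : HasDerivAt (fun s : ℂ => c + s • d) d 0 := by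
    have h3 := ((hasDerivAt_id (0 : ℂ)).smul_const d).const_add c
    simpa only [id, one_smul] using h3
  have h4 : (⇑(LinearMap.toContinuousLinearMap L) ∘ fun s : ℂ => Φ (u + s • v))
      = fun s : ℂ => c + s • d := by
    funext s
    exact h s
  rw [h4] at h1'
  exact h1'.unique h2

/-- the twist flow along a line through `1` -/
theorem goodflow_mflow_line (ρ : Tup (k + 2) r) (η : Mat r) (s : ℂ) :
    mflow (1 + s • η) ρ = ρ + s • sgl 0 ((0 : Mat r), (ρ 0).2 * η) := by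
  funext i
  by_cases hi : i = 0
  · subst hi
    ext a b
    · simp [mflow, atS, mz, sgl]
    · simp [mflow, atS, mz, sgl, mul_add]
  · simp [mflow, atS, mz, sgl, Function.update_of_ne hi, Pi.single_eq_of_ne hi]

/-- the derivative of the twist flow at `w = 1` -/
theorem goodflow_fderiv_mflow (ρ : Tup (k + 2) r) (η : Mat r) :
    fderiv ℂ (fun w : Mat r => mflow w ρ) 1 η = sgl 0 ((0 : Mat r), (ρ 0).2 * η) :=
  goodflow_fderiv_of_line (Φ := fun w : Mat r => mflow w ρ)
    (PolyMap.comp (Ψ := fun p : Tup (k + 2) r × Mat r => mflow p.2 p.1) polyMap_mflow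
      (Φ := fun w : Mat r => (ρ, w)) ((polyMap_const ρ).prodMk polyMap_id)) LinearMap.id 1 η ρ _
    (goodflow_mflow_line ρ η)

/-- the `B`-component of slot `2` of the two-handle flow -/
theorem goodflow_eflow_snd (ρ : Tup (k + 3) r) (w : Mat r) : (eflow w ρ 2).2 = (ρ 2).2 * w := by
  have h21 : (2 : Fin (k + 3)) ≠ 1 := by
    intro h
    have h' := congrArg Fin.val h
    have e2 : ((2 : Fin (k + 3)) : ℕ) = 2 := Nat.mod_eq_of_lt (show 2 < k + 3 by omega)
    have e1 : ((1 : Fin (k + 3)) : ℕ) = 1 := Nat.mod_eq_of_lt (show 1 < k + 3 by omega)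
    omega
  simp [eflow, atS, ew2, Function.update_of_ne h21]

/-- the `B`-component of slot `2` of the derivative of the two-handle flow at `w = 1` -/
theorem goodflow_fderiv_eflow (ρ : Tup (k + 3) r) (η : Mat r) :
    (fderiv ℂ (fun w : Mat r => eflow w ρ) 1 η 2).2 = (ρ 2).2 * η := by
  have hΦ : PolyMap (fun w : Mat r => eflow w ρ) :=
    PolyMap.comp (Ψ := fun p : Tup (k + 3) r × Mat r => eflow p.2 p.1) polyMap_eflow
      (Φ := fun w : Mat r => (ρ, w)) ((polyMap_const ρ).prodMk polyMap_id)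
  have h := goodflow_fderiv_of_line hΦ
    ((LinearMap.snd ℂ (Mat r) (Mat r)) ∘ₗ
      (LinearMap.proj (R := ℂ) (φ := fun _ : Fin (k + 3) => Pair r) 2)) 1 η (ρ 2).2
    ((ρ 2).2 * η) fun s => by
      simp only [LinearMap.comp_apply, LinearMap.proj_apply, LinearMap.snd_apply,
        goodflow_eflow_snd, mul_add, mul_one, Matrix.mul_smul]
  simp only [LinearMap.comp_apply, LinearMap.proj_apply, LinearMap.snd_apply] at h
  exact h

/-- **GF2 (m): twist flow at slot 0.**  `Good.flow_gen` with `X σ = (σ 0).1`, `μ (σ, w) = mflow w σ` (`polyMap_mflow`, `mflow_one`,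
`mflow_pow_mem_ZZ`, `mflow_mem_VV`); `w ↦ mflow w ρ` is affine, its derivative in the direction `η` is `sgl 0 (0, (ρ 0).2 * η)`. -/
theorem Good.mflow {O : Subring ℂ} {ρ : Tup (k + 2) r} {R : Submodule ℂ (Tup (k + 2) r)}
    {S : Set (Tup (k + 2) r)} (h : Good O ρ R S)
    (hgen : ∃ ρ' ∈ S, ∃ c : ℂ, c ≠ 0 ∧ (ρ' 0).1 = c • primeDiag r) :
    Good O ρ (R ⊔ Submodule.span ℂ
      {v | ∃ l : Fin r, v = sgl 0 ((0 : Mat r), (ρ 0).2 * (ρ 0).1 ^ (l : ℕ))}) S := by
  have hX : PolyMap (fun σ : Tup (k + 2) r => (σ 0).1) :=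
    PolyMap.fst ((polyMap_pi (X := fun _ : Fin (k + 2) => Pair r)).1 polyMap_id 0)
  have h1 := Good.flow_gen h (X := fun σ => (σ 0).1) hX (μ := fun p => K.mflow p.2 p.1)
    polyMap_mflow (fun σ => mflow_one σ) (fun σ hσ m l => mflow_pow_mem_ZZ O m l hσ)
    (fun σ hσ w hw hc => mflow_mem_VV hσ hw hc) hgen
  simp only [goodflow_fderiv_mflow] at h1
  exact h1

/-- **GF2 (e): two-handle flow at the slots 1, 2.**  `Good.flow_gen` with `X σ = Eadj (σ 1) (σ 2)`, `μ (σ, w) = eflow w σ` (`polyMap_eflow`,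
`polyMap_Eadj`, `eflow_one`, `eflow_pow_mem_ZZ`, `eflow_mem_VV`).  Only the `B`-component of slot `2` of the new tangent vectors is needed: it is the
derivative of the linear map `w ↦ (ρ 2).2 * w` (compose with the continuous linear projection `v ↦ (v 2).2`). -/
theorem Good.eflow {O : Subring ℂ} {ρ : Tup (k + 3) r} {R : Submodule ℂ (Tup (k + 3) r)}
    {S : Set (Tup (k + 3) r)} (h : Good O ρ R S)
    (hgen : ∃ ρ' ∈ S, ∃ c : ℂ, c ≠ 0 ∧ Eadj (ρ' 1) (ρ' 2) = c • primeDiag r) :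
    ∃ R' : Submodule ℂ (Tup (k + 3) r), R ≤ R' ∧ Good O ρ R' S ∧
      ∀ l : Fin r, ∃ v ∈ R', (v 2).2 = (ρ 2).2 * Eadj (ρ 1) (ρ 2) ^ (l : ℕ) := by
  have h1 := Good.flow_gen h (X := fun σ => Eadj (σ 1) (σ 2)) polyMap_Eadj
    (μ := fun p => K.eflow p.2 p.1)
    polyMap_eflow (fun σ => eflow_one σ) (fun σ hσ m l => eflow_pow_mem_ZZ O m l hσ)
    (fun σ hσ w hw hc => eflow_mem_VV hσ hw hc) hgen
  refine ⟨_, le_sup_left, h1, fun l => ⟨_, ?_, goodflow_fderiv_eflow ρ _⟩⟩
  exact (le_sup_right : _ ≤ R ⊔ _) (Submodule.subset_span ⟨l, rfl⟩)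

end Claimed.Agent.R236.K
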