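/-
Row 236 / S0471, route K (helper18).  Blueprint: `git show origin/helper18:docs/R236_S0471.md`, section 7 (HS4 - HS8).
Words in the letters `al`, `be` (Euclid), return words, the list of slopes.   Matrix size `r = n + 2`.
-/
import Claimed.Agent.R236.K.Heis

set_option autoImplicit false

namespace Claimed.Agent.R236.K

open scoped BigOperators

variable {n r : ℕ}

/-! ### words -/

/-- apply the letters of a word from left to right -/
def app : List Bool → Pair r → Pair r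
  | [], τ => τ
  | b :: w, τ => app w (lt b τ)

/-- Euclid's algorithm with fuel -/
def wordF : ℕ → ℕ → ℕ → List Bool
  | 0, _, _ => []
  | f + 1, p, q =>
    if q = 0 then [] else if q < p then false :: wordF f (p - q) q else true :: wordF f p (q - p)

/-- the word of slope `(p,q)` -/
def word (p q : ℕ) : List Bool := wordF (p + q) p q

/-- the return word: every letter is replaced by its `(r-1)`-th power, in reversed order -/
def back (r : ℕ) : List Bool → List Bool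
  | [] => []
  | b :: w => back r w ++ List.replicate (r - 1) b

/-- the list of slopes -/
def slopes (r : ℕ) : List (ℕ × ℕ) :=
  ((List.range (r + 1)) ×ˢ (List.range r)).filter fun pq => decide (1 ≤ pq.1) && decide (Nat.Coprime pq.1 pq.2)

theorem app_append (w w' : List Bool) (τ : Pair r) : app (w ++ w') τ = app w' (app w τ) := by
  induction w generalizing τ with
  | nil => rfl
  | cons b w ih => exact ih (lt b τ)

theorem HPair.app {ω : ℂ} (hω : ω ≠ 0) {τ : Pair r} (h : HPair ω τ) (w : List Bool) :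
    HPair ω (app w τ) := by
  induction w generalizing τ with
  | nil => exact h
  | cons b w ih => exact ih (h.lt hω b)

theorem Sim.app {τ τ' : Pair r} (h : Sim τ τ') (w : List Bool) : Sim (app w τ) (app w τ') := by
  induction w generalizing τ τ' with
  | nil => exact h
  | cons b w ih => exact ih (h.lt b)

/-- `A^l B^m = ω^(lm) B^m A^l` -/
theorem words_pow_mul_pow {ω : ℂ} {τ : Pair r} (h : HPair ω τ) (l m : ℕ) :
    τ.1 ^ l * τ.2 ^ m = ω ^ (l * m) • (τ.2 ^ m * τ.1 ^ l) := by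
  induction m with
  | zero => simp
  | succ m ih =>
    rw [pow_succ, ← mul_assoc, ih, smul_mul_assoc, mul_assoc, h.pow_mul, mul_smul_comm, smul_smul,
      ← mul_assoc, ← pow_add, Nat.mul_succ]

theorem words_hpair_pow {ω : ℂ} {τ : Pair r} (h : HPair ω τ) (l m : ℕ) :
    HPair (ω ^ (l * m)) (τ.1 ^ l, τ.2 ^ m) := by
  refine ⟨words_pow_mul_pow h l m, ?_, ?_⟩
  · obtain ⟨c, hc, h1⟩ := h.2.1
    refine ⟨c ^ l, pow_ne_zero _ hc, ?_⟩
    show (τ.1 ^ l) ^ r = _
    rw [← pow_mul, mul_comm, pow_mul, h1, smul_pow, one_pow]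
  · obtain ⟨c, hc, h1⟩ := h.2.2
    refine ⟨c ^ m, pow_ne_zero _ hc, ?_⟩
    show (τ.2 ^ m) ^ r = _
    rw [← pow_mul, mul_comm, pow_mul, h1, smul_pow, one_pow]

/-- `(BA)^m = c A^m B^m` -/
theorem words_BA_pow {ω : ℂ} (hω : ω ≠ 0) {τ : Pair r} (h : HPair ω τ) (m : ℕ) :
    ∃ c : ℂ, c ≠ 0 ∧ (τ.2 * τ.1) ^ m = c • (τ.1 ^ m * τ.2 ^ m) := by
  obtain ⟨c, hc, h1⟩ := heis_mul_pow hω h m
  refine ⟨c * (ω ^ (m * m))⁻¹, mul_ne_zero hc (inv_ne_zero (pow_ne_zero _ hω)), ?_⟩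
  rw [h1, words_pow_mul_pow h m m, smul_smul, mul_assoc, inv_mul_cancel₀ (pow_ne_zero _ hω), mul_one]

/-- `(AB)^m = c A^m B^m` -/
theorem words_AB_pow {ω : ℂ} (hω : ω ≠ 0) {τ : Pair r} (h : HPair ω τ) (m : ℕ) :
    ∃ c : ℂ, c ≠ 0 ∧ (τ.1 * τ.2) ^ m = c • (τ.1 ^ m * τ.2 ^ m) := by
  obtain ⟨c, hc, h1⟩ := words_BA_pow hω h m
  refine ⟨ω ^ m * c, mul_ne_zero (pow_ne_zero _ hω) hc, ?_⟩
  rw [h.1, smul_pow, h1, smul_smul]

theorem words_app_wordF {ω : ℂ} (hω : ω ≠ 0) (f : ℕ) :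
    ∀ (p q : ℕ) (τ : Pair r), HPair ω τ → 1 ≤ p → Nat.Coprime p q → p + q ≤ f →
      ∃ c : ℂ, c ≠ 0 ∧ (app (wordF f p q) τ).1 = c • (τ.1 ^ p * τ.2 ^ q) := by
  induction f with
  | zero => intro p q τ _ hp _ hf; omega
  | succ f ih =>
    intro p q τ h hp hpq hf
    by_cases hq : q = 0
    · subst hq
      have hp1 : p = 1 := by simpa using hpq
      subst hp1
      refine ⟨1, one_ne_zero, ?_⟩
      simp [wordF, app]
    · by_cases hlt : q < p
      · have hw : wordF (f + 1) p q = false :: wordF f (p - q) q := by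
          simp [wordF, hq, hlt]
        rw [hw]
        have hcop : Nat.Coprime (p - q) q := by
          rw [Nat.coprime_sub_self_left hlt.le]
          exact hpq
        obtain ⟨c, hc, h1⟩ := ih (p - q) q (lt false τ) (h.lt hω false) (by omega) hcop (by omega)
        obtain ⟨d, hd, h2⟩ := words_BA_pow hω h q
        refine ⟨c * d, mul_ne_zero hc hd, ?_⟩
        show (app (wordF f (p - q) q) (lt false τ)).1 = _
        rw [h1]
        show c • (τ.1 ^ (p - q) * (τ.2 * τ.1) ^ q) = _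
        rw [h2, mul_smul_comm, smul_smul, ← mul_assoc, ← pow_add, Nat.sub_add_cancel hlt.le]
      · have hw : wordF (f + 1) p q = true :: wordF f p (q - p) := by
          simp [wordF, hq, hlt]
        rw [hw]
        have hle : p ≤ q := by omega
        have hcop : Nat.Coprime p (q - p) := by
          rw [Nat.coprime_sub_self_right hle]
          exact hpq
        obtain ⟨c, hc, h1⟩ := ih p (q - p) (lt true τ) (h.lt hω true) hp hcop (by omega)
        obtain ⟨d, hd, h2⟩ := words_AB_pow hω h p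
        refine ⟨c * d, mul_ne_zero hc hd, ?_⟩
        show (app (wordF f p (q - p)) (lt true τ)).1 = _
        rw [h1]
        show c • ((τ.1 * τ.2) ^ p * τ.2 ^ (q - p)) = _
        rw [h2, smul_mul_assoc, smul_smul, mul_assoc, ← pow_add, Nat.add_sub_cancel' hle]

/-- HS4 -/
theorem app_word_fst {ω : ℂ} (hω : ω ≠ 0) {τ : Pair r} (h : HPair ω τ) {p q : ℕ} (hp : 1 ≤ p)
    (hpq : Nat.Coprime p q) :
    ∃ c : ℂ, c ≠ 0 ∧ (app (word p q) τ).1 = c • (τ.1 ^ p * τ.2 ^ q) :=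
  words_app_wordF hω (p + q) p q τ h hp hpq le_rfl

theorem words_app_replicate_false (m : ℕ) (τ : Pair r) :
    app (List.replicate m false) τ = (τ.1, τ.2 * τ.1 ^ m) := by
  induction m generalizing τ with
  | zero => simp [app]
  | succ m ih =>
    rw [List.replicate_succ]
    show app (List.replicate m false) (lt false τ) = _
    rw [ih]
    show (τ.1, τ.2 * τ.1 * τ.1 ^ m) = _
    rw [mul_assoc, ← pow_succ']

theorem words_app_replicate_true (m : ℕ) (τ : Pair r) :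
    app (List.replicate m true) τ = (τ.1 * τ.2 ^ m, τ.2) := by
  induction m generalizing τ with
  | zero => simp [app]
  | succ m ih =>
    rw [List.replicate_succ]
    show app (List.replicate m true) (lt true τ) = _
    rw [ih]
    show (τ.1 * τ.2 * τ.2 ^ m, τ.2) = _
    rw [mul_assoc, ← pow_succ']

theorem words_sim_replicate {ω : ℂ} {τ : Pair r} (h : HPair ω τ) (b : Bool) :
    Sim τ (app (List.replicate r b) τ) := by
  obtain ⟨_, ⟨c, hc, h1⟩, ⟨d, hd, h2⟩⟩ := h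
  cases b with
  | false =>
    rw [words_app_replicate_false, h1]
    exact ⟨1, c, one_ne_zero, hc, by simp⟩
  | true =>
    rw [words_app_replicate_true, h2]
    exact ⟨d, 1, hd, one_ne_zero, by simp⟩

/-- HS5 -/
theorem app_back_app {ω : ℂ} (hω : ω ≠ 0) {τ : Pair (n + 2)} (h : HPair ω τ) (w : List Bool) :
    Sim τ (app (back (n + 2) w) (app w τ)) := by
  induction w generalizing τ with
  | nil => exact Sim.refl τ
  | cons b w ih =>
    show Sim τ (app (back (n + 2) w ++ List.replicate (n + 2 - 1) b) (app w (lt b τ)))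
    rw [app_append]
    have h1 := (ih (h.lt hω b)).app (List.replicate (n + 2 - 1) b)
    have h2 : app (List.replicate (n + 2 - 1) b) (lt b τ) = app (List.replicate (n + 2) b) τ := by
      have : n + 2 - 1 = n + 1 := by omega
      rw [this, List.replicate_succ (n := n + 1)]
      rfl
    rw [h2] at h1
    exact (words_sim_replicate h b).trans h1

theorem mem_slopes {r p q : ℕ} : (p, q) ∈ slopes r ↔ (1 ≤ p ∧ p ≤ r ∧ q < r ∧ Nat.Coprime p q) := by
  have hprod : (p, q) ∈ (List.range (r + 1)) ×ˢ (List.range r) ↔ p < r + 1 ∧ q < r := by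
    have := @List.pair_mem_product _ _ (List.range (r + 1)) (List.range r) p q
    simp only [List.mem_range] at this
    exact this
  simp only [slopes, List.mem_filter, hprod, Bool.and_eq_true, decide_eq_true_eq]
  constructor
  · rintro ⟨⟨h1, h2⟩, h3, h4⟩
    exact ⟨h3, by omega, h2, h4⟩
  · rintro ⟨h1, h2, h3, h4⟩
    exact ⟨⟨by omega, h3⟩, h1, h4⟩

/-- HS6 -/
theorem exists_slope (n : ℕ) {a b : ℕ} (ha : a < n + 2) (hb : b < n + 2) (hab : ¬ (a = 0 ∧ b = 0)) :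
    ∃ pq ∈ slopes (n + 2), ∃ l : ℕ, 1 ≤ l ∧ l < n + 2 ∧
      (l * pq.1) % (n + 2) = a ∧ (l * pq.2) % (n + 2) = b := by
  by_cases ha0 : a = 0
  · subst ha0
    have hb0 : 1 ≤ b := by omega
    refine ⟨(n + 2, 1), mem_slopes.mpr ⟨by omega, le_rfl, by omega, by simp⟩, b, hb0, hb, ?_, ?_⟩
    · simp
    · simpa using Nat.mod_eq_of_lt hb
  · have hapos : 0 < a := Nat.pos_of_ne_zero ha0
    have hd : 0 < Nat.gcd a b := Nat.gcd_pos_of_pos_left b hapos
    have hda : Nat.gcd a b ∣ a := Nat.gcd_dvd_left a b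
    have hdb : Nat.gcd a b ∣ b := Nat.gcd_dvd_right a b
    have hdle : Nat.gcd a b ≤ a := Nat.le_of_dvd hapos hda
    refine ⟨(a / Nat.gcd a b, b / Nat.gcd a b), mem_slopes.mpr ⟨?_, ?_, ?_, ?_⟩, Nat.gcd a b, hd,
      by omega, ?_, ?_⟩
    · exact Nat.div_pos hdle hd
    · exact (Nat.div_le_self _ _).trans (by omega)
    · exact lt_of_le_of_lt (Nat.div_le_self _ _) hb
    · exact Nat.coprime_div_gcd_div_gcd hd
    · show Nat.gcd a b * (a / Nat.gcd a b) % (n + 2) = a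
      rw [Nat.mul_div_cancel' hda, Nat.mod_eq_of_lt ha]
    · show Nat.gcd a b * (b / Nat.gcd a b) % (n + 2) = b
      rw [Nat.mul_div_cancel' hdb, Nat.mod_eq_of_lt hb]

theorem words_mem_of_slopes {ω : ℂ} (hω : ω ≠ 0) {τ : Pair (n + 2)} (hτ : HPair ω τ)
    (hA : τ.1 ^ (n + 2) = 1) (hB : τ.2 ^ (n + 2) = 1)
    (hh : Submodule ℂ (Mat (n + 2))) (h1 : (1 : Mat (n + 2)) ∈ hh)
    (h : ∀ pq ∈ slopes (n + 2), ∃ c : ℂ, c ≠ 0 ∧ ∀ l : ℕ, 1 ≤ l → l < n + 2 →
      (c • (τ.1 ^ pq.1 * τ.2 ^ pq.2)) ^ l ∈ hh) (a b : ℕ) : τ.1 ^ a * τ.2 ^ b ∈ hh := by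
  rw [pow_eq_pow_mod a hA, pow_eq_pow_mod b hB]
  by_cases hab : a % (n + 2) = 0 ∧ b % (n + 2) = 0
  · rw [hab.1, hab.2]
    simpa using h1
  · obtain ⟨pq, hpq, l, hl1, hl2, e1, e2⟩ :=
      exists_slope n (Nat.mod_lt a (by omega)) (Nat.mod_lt b (by omega)) hab
    obtain ⟨c, hc, hmem⟩ := h pq hpq
    have h2 := hmem l hl1 hl2
    obtain ⟨d, hd, h3⟩ := words_AB_pow (pow_ne_zero (pq.1 * pq.2) hω) (words_hpair_pow hτ pq.1 pq.2) l
    have h4 : (τ.1 ^ pq.1 * τ.2 ^ pq.2) ^ l = d • (τ.1 ^ (a % (n + 2)) * τ.2 ^ (b % (n + 2))) := by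
      rw [h3]
      show d • ((τ.1 ^ pq.1) ^ l * (τ.2 ^ pq.2) ^ l) = _
      rw [← pow_mul, ← pow_mul, mul_comm pq.1, mul_comm pq.2, pow_eq_pow_mod (l * pq.1) hA,
        pow_eq_pow_mod (l * pq.2) hB, e1, e2]
    rw [smul_pow, h4, smul_smul] at h2
    have h5 := hh.smul_mem (c ^ l * d)⁻¹ h2
    rwa [smul_smul, inv_mul_cancel₀ (mul_ne_zero (pow_ne_zero _ hc) hd), one_smul] at h5

/-- HS7 for `(Q,P)` -/
theorem eq_top_of_slopes_QP (n : ℕ) (hh : Submodule ℂ (Mat (n + 2))) (h1 : (1 : Mat (n + 2)) ∈ hh)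
    (h : ∀ pq ∈ slopes (n + 2), ∃ c : ℂ, c ≠ 0 ∧ ∀ l : ℕ, 1 ≤ l → l < n + 2 →
      (c • (Qm n ^ pq.1 * Pm n ^ pq.2)) ^ l ∈ hh) : hh = ⊤ := by
  rw [eq_top_iff, ← span_QP n, Submodule.span_le]
  rintro Y ⟨a, b, rfl⟩
  exact words_mem_of_slopes (zeta_ne_zero n) (hpair_QP n) (Qm_pow n) (Pm_pow n) hh h1 h a b

/-- HS7 for `(P,Q)` -/
theorem eq_top_of_slopes_PQ (n : ℕ) (hh : Submodule ℂ (Mat (n + 2))) (h1 : (1 : Mat (n + 2)) ∈ hh)
    (h : ∀ pq ∈ slopes (n + 2), ∃ c : ℂ, c ≠ 0 ∧ ∀ l : ℕ, 1 ≤ l → l < n + 2 →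
      (c • (Pm n ^ pq.1 * Qm n ^ pq.2)) ^ l ∈ hh) : hh = ⊤ := by
  rw [eq_top_iff, ← span_QP n, Submodule.span_le]
  rintro Y ⟨a, b, rfl⟩
  have h2 := words_mem_of_slopes (inv_ne_zero (zeta_ne_zero n)) (hpair_PQ n) (Pm_pow n) (Qm_pow n)
    hh h1 h b a
  have h3 := words_pow_mul_pow (hpair_QP n) a b
  show Qm n ^ a * Pm n ^ b ∈ hh
  have h3' : Qm n ^ a * Pm n ^ b = zeta n ^ (a * b) • (Pm n ^ b * Qm n ^ a) := h3
  rw [h3']
  exact hh.smul_mem _ h2

/-- HS7, last sentence: `B adj(A) adj(B)` is a non-zero multiple of `A⁻¹`, so its powers are multiples of powers of `A`. -/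
theorem HPair.Hadj_pow {ω : ℂ} (hω : ω ≠ 0) {τ : Pair (n + 2)} (h : HPair ω τ) {l : ℕ} (h1 : 1 ≤ l)
    (h2 : l < n + 2) :
    ∃ c : ℂ, c ≠ 0 ∧ (τ.2 * τ.1.adjugate * τ.2.adjugate) ^ l = c • τ.1 ^ (n + 2 - l) := by
  obtain ⟨hdA, hdB⟩ := h.det_ne_zero
  obtain ⟨h0, ⟨c0, hc0, hA⟩, _⟩ := h
  set A := τ.1 with hAdef
  set B := τ.2 with hBdef
  -- adj B * A = ω • A * adj B
  have e1 : B.adjugate * A = ω • (A * B.adjugate) := by
    have e2 : B.adjugate * (A * B) * B.adjugate = B.adjugate * (ω • (B * A)) * B.adjugate := by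
      rw [h0]
    have e3 : B.adjugate * (A * B) * B.adjugate = B.det • (B.adjugate * A) := by
      rw [mul_assoc, mul_assoc, Matrix.mul_adjugate, mul_smul_comm, mul_smul_comm, mul_one]
    have e4 : B.adjugate * (ω • (B * A)) * B.adjugate = B.det • (ω • (A * B.adjugate)) := by
      rw [mul_smul_comm, ← mul_assoc, Matrix.adjugate_mul, smul_mul_assoc, smul_mul_assoc,
        smul_mul_assoc, one_mul, smul_comm]
    rw [e3, e4] at e2
    exact smul_right_injective _ hdB e2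
  have e5 : B * A.adjugate * B.adjugate * A = (ω * A.det * B.det) • (1 : Mat (n + 2)) := by
    rw [mul_assoc, e1, mul_smul_comm, mul_assoc, ← mul_assoc A.adjugate, Matrix.adjugate_mul,
      smul_mul_assoc, one_mul, mul_smul_comm, Matrix.mul_adjugate, smul_smul, smul_smul]
  have hk : ω * A.det * B.det ≠ 0 := mul_ne_zero (mul_ne_zero hω hdA) hdB
  have e6 : B * A.adjugate * B.adjugate = ((ω * A.det * B.det) * c0⁻¹) • A ^ (n + 1) := by
    have e7 : B * A.adjugate * B.adjugate * A ^ (n + 2) = c0 • (B * A.adjugate * B.adjugate) := by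
      rw [hA, mul_smul_comm, mul_one]
    have e8 : B * A.adjugate * B.adjugate * A ^ (n + 2) = (ω * A.det * B.det) • A ^ (n + 1) := by
      rw [pow_succ' A (n + 1), ← mul_assoc, e5, smul_mul_assoc, one_mul]
    rw [e7] at e8
    have := congrArg (fun M => c0⁻¹ • M) e8
    simp only [smul_smul, inv_mul_cancel₀ hc0, one_smul] at this
    rw [this, mul_comm]
  refine ⟨((ω * A.det * B.det) * c0⁻¹) ^ l * c0 ^ (l - 1),
    mul_ne_zero (pow_ne_zero _ (mul_ne_zero hk (inv_ne_zero hc0))) (pow_ne_zero _ hc0), ?_⟩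
  rw [e6, smul_pow, ← _root_.pow_mul]
  have e9 : (n + 1) * l = (n + 2) * (l - 1) + (n + 2 - l) := by
    obtain ⟨m, rfl⟩ : ∃ m, l = m + 1 := ⟨l - 1, by omega⟩
    have : n + 2 - (m + 1) = n + 1 - m := by omega
    rw [this, Nat.add_sub_cancel]
    have h3 : m ≤ n + 1 := by omega
    zify [h3]
    ring
  rw [e9, pow_add, _root_.pow_mul, hA, smul_pow, one_pow, smul_mul_assoc, one_mul, smul_smul]

/-- HS8 -/
theorem app_pow_pow (w : List Bool) (a b : ℕ) (ha : 1 ≤ a) :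
    ∃ a' b' : ℕ, 1 ≤ a' ∧ ∀ L : Mat r, app w (L ^ a, L ^ b) = (L ^ a', L ^ b') := by
  induction w generalizing a b with
  | nil => exact ⟨a, b, ha, fun L => rfl⟩
  | cons c w ih =>
    cases c with
    | false =>
      obtain ⟨a', b', ha', h⟩ := ih a (b + a) ha
      refine ⟨a', b', ha', fun L => ?_⟩
      rw [← h L, pow_add]
      rfl
    | true =>
      obtain ⟨a', b', ha', h⟩ := ih (a + b) b (by omega)
      refine ⟨a', b', ha', fun L => ?_⟩
      rw [← h L, pow_add]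
      rfl

end Claimed.Agent.R236.K
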