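/-
Row 236 / S0471, route K (helper18).  Blueprint: `git show origin/helper18:docs/R236_S0471.md`, section 9 (Prop T(2)).
-/
import Claimed.Agent.R236.K.GoodFlow
import Claimed.Agent.R236.K.Words
import Claimed.Agent.R236.K.ChartLam

set_option autoImplicit false

namespace Claimed.Agent.R236.K

open scoped BigOperators Matrix.Norms.Elementwise

variable {k n r : ℕ}

/-- infinitesimal conjugation of slot `0` only -/
def c0 (η : Mat r) (ρ : Tup (k + 2) r) : Tup (k + 2) r :=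
  sgl 0 (η * (ρ 0).1 - (ρ 0).1 * η, η * (ρ 0).2 - (ρ 0).2 * η)

/-- the base points `((Q,P),(c₁P,c₂Q),(1,1),...,(1,1))` -/
noncomputable def baseT (k n : ℕ) (c₁ c₂ : ℂ) : Tup (k + 2) (n + 2) :=
  Fin.cons (Qm n, Pm n) (Fin.cons (c₁ • Pm n, c₂ • Qm n) (fun _ => (1, 1)))

/-! ### auxiliary lemmas -/

theorem t2_atS_same {g : ℕ} (i : Fin g) (f : Pair r → Pair r) (ρ : Tup g r) :
    atS i f ρ i = f (ρ i) := by
  simp [atS]

theorem t2_atS_ne {g : ℕ} {i j : Fin g} (h : j ≠ i) (f : Pair r → Pair r) (ρ : Tup g r) :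
    atS i f ρ j = ρ j := by
  simp [atS, Function.update_of_ne h]

theorem t2_dAt_same {g : ℕ} (i : Fin g) (L : Pair r →ₗ[ℂ] Pair r) (v : Tup g r) :
    dAt i L v i = L (v i) := by
  simp [dAt]

theorem t2_dAt_ne {g : ℕ} {i j : Fin g} (h : j ≠ i) (L : Pair r →ₗ[ℂ] Pair r) (v : Tup g r) :
    dAt i L v j = v j := by
  simp [dAt, h]

theorem t2_sgl_same {g : ℕ} (i : Fin g) (τ : Pair r) : sgl i τ i = τ := by
  simp [sgl]

theorem t2_sgl_ne {g : ℕ} {i j : Fin g} (h : j ≠ i) (τ : Pair r) : sgl i τ j = 0 := by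
  simp [sgl, Pi.single_eq_of_ne h]

theorem t2_sgl_smul {g : ℕ} (i : Fin g) (c : ℂ) (τ : Pair r) : sgl i (c • τ) = c • sgl i τ := by
  simp [sgl, Pi.single_smul]

theorem t2_sgl_add {g : ℕ} (i : Fin g) (τ τ' : Pair r) :
    sgl i (τ + τ') = sgl i τ + sgl i τ' := by
  simp [sgl, Pi.single_add]

theorem t2_sgl_zero {g : ℕ} (i : Fin g) : sgl i (0 : Pair r) = 0 := by
  simp [sgl]

/-- `c0` as a linear map in `η` -/
def c0L (ρ : Tup (k + 2) r) : Mat r →ₗ[ℂ] Tup (k + 2) r where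
  toFun η := c0 η ρ
  map_add' x y := by
    simp only [c0, ← t2_sgl_add]
    congr 1
    ext <;> simp [add_mul, mul_add] <;> ring
  map_smul' c x := by
    simp only [c0, ← t2_sgl_smul, RingHom.id_apply]
    congr 1
    ext <;> simp [mul_sub]

theorem c0L_apply (ρ : Tup (k + 2) r) (η : Mat r) : c0L ρ η = c0 η ρ := rfl

/-! ### Prop T(2) -/

/-- the invariants (a)-(d) in the proof of T(2); `hh` is (a subspace of) `𝔥` -/
structure Inv2 (O : Subring ℂ) (n : ℕ) (ρ : Tup 2 (n + 2)) (R : Submodule ℂ (Tup 2 (n + 2)))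
    (S : Set (Tup 2 (n + 2))) (hh : Submodule ℂ (Mat (n + 2))) : Prop where
  good : Good O ρ R S
  hp : HPair (zeta n) (ρ 0)
  s1 : ρ 1 = (Pm n, Qm n)
  surj : ∀ z : Pair (n + 2), ∃ v ∈ R, v 1 = z
  conj : ∀ η ∈ hh, c0 η ρ ∈ R
  diag : ∃ a b : ℕ, 1 ≤ a ∧ ∀ L : Mat (n + 2), (![(L ^ a, L ^ b), (1, L)] : Tup 2 (n + 2)) ∈ S

theorem Inv2.start (O : Subring ℂ) (n : ℕ) :
    ∃ R S, Inv2 O n ![(Qm n, Pm n), (Pm n, Qm n)] R S (Submodule.span ℂ {1}) := by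
  refine ⟨_, _, ⟨good_start O (det_Qm_ne_zero n) (det_Pm_ne_zero n), hpair_QP n, rfl, ?_, ?_, ?_⟩⟩
  · intro z
    refine ⟨swapL (n + 2) (z.2, z.1), ⟨_, rfl⟩, ?_⟩
    simp [swapL]
  · intro η hη
    obtain ⟨c, rfl⟩ := Submodule.mem_span_singleton.mp hη
    have : c0 (c • (1 : Mat (n + 2))) (![(Qm n, Pm n), (Pm n, Qm n)] : Tup 2 (n + 2)) = 0 := by
      have h0 : ((0 : Mat (n + 2)), (0 : Mat (n + 2))) = (0 : Pair (n + 2)) := rfl
      simp [c0, h0, t2_sgl_zero]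
    rw [this]
    exact Submodule.zero_mem _
  · exact ⟨1, 0, le_refl _, fun L => ⟨L, 1, by simp⟩⟩

/-- `Dψ(ρ) c₀(η,ρ) = c₀(η,ψρ)` -/
theorem dAt_dlt_c0 (b : Bool) (η : Mat r) (ρ : Tup (k + 2) r) :
    dAt 0 (dlt b (ρ 0)) (c0 η ρ) = c0 η (atS 0 (lt b) ρ) := by
  funext j
  by_cases hj : j = 0
  · subst hj
    rw [t2_dAt_same, c0, c0, t2_sgl_same, t2_sgl_same, t2_atS_same]
    cases b
    · simp only [dlt, lt, al, Bool.false_eq_true, if_false, LinearMap.coe_mk, AddHom.coe_mk]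
      congr 1
      noncomm_ring
    · simp only [dlt, lt, be, if_true, LinearMap.coe_mk, AddHom.coe_mk]
      congr 1
      noncomm_ring
  · rw [t2_dAt_ne hj, c0, c0, t2_sgl_ne hj, t2_sgl_ne hj]

theorem Inv2.letter {O : Subring ℂ} {ρ : Tup 2 (n + 2)} {R S hh} (h : Inv2 O n ρ R S hh) (b : Bool) :
    ∃ R' S', Inv2 O n (atS 0 (lt b) ρ) R' S' hh := by
  refine ⟨_, _, ⟨h.good.letter 0 b, ?_, ?_, ?_, ?_, ?_⟩⟩
  · rw [t2_atS_same]
    exact h.hp.lt (zeta_ne_zero n) b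
  · rw [t2_atS_ne (by decide)]
    exact h.s1
  · intro z
    obtain ⟨v, hv, hz⟩ := h.surj z
    refine ⟨_, Submodule.mem_map_of_mem hv, ?_⟩
    rw [t2_dAt_ne (by decide)]
    exact hz
  · intro η hη
    rw [← dAt_dlt_c0]
    exact Submodule.mem_map_of_mem (h.conj η hη)
  · obtain ⟨a, b', ha, hd⟩ := h.diag
    obtain ⟨a', b'', ha', hab⟩ := app_pow_pow (r := n + 2) [b] a b' ha
    refine ⟨a', b'', ha', fun L => ⟨_, hd L, ?_⟩⟩
    have h1 : lt b (L ^ a, L ^ b') = (L ^ a', L ^ b'') := hab L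
    funext j
    fin_cases j
    · show atS 0 (lt b) _ 0 = _
      rw [t2_atS_same]
      exact h1
    · show atS 0 (lt b) _ 1 = _
      rw [t2_atS_ne (by decide)]
      rfl

theorem Inv2.word {O : Subring ℂ} {ρ : Tup 2 (n + 2)} {R S hh} (h : Inv2 O n ρ R S hh)
    (w : List Bool) : ∃ R' S', Inv2 O n (atS 0 (app w) ρ) R' S' hh := by
  induction w generalizing ρ R S with
  | nil =>
    have : atS 0 (app []) ρ = ρ := by
      simp [atS, app]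
    rw [this]
    exact ⟨R, S, h⟩
  | cons b w ih =>
    obtain ⟨R1, S1, h1⟩ := h.letter b
    obtain ⟨R2, S2, h2⟩ := ih h1
    have : atS 0 (app (b :: w)) ρ = atS 0 (app w) (atS 0 (lt b) ρ) := by
      simp [atS, app]
    rw [this]
    exact ⟨R2, S2, h2⟩

theorem t2_exists_root (r a : ℕ) (ha : 1 ≤ a) : ∃ L : Mat r, L ^ a = primeDiag r := by
  refine ⟨Matrix.diagonal fun i => (((Nat.nth Nat.Prime (i : ℕ) : ℕ) : ℂ)) ^ ((a : ℂ)⁻¹), ?_⟩
  rw [Matrix.diagonal_pow, primeDiag]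
  congr 1
  funext i
  simp only [Pi.pow_apply]
  exact Complex.cpow_nat_inv_pow _ (by omega)

theorem Inv2.flow {O : Subring ℂ} {ρ : Tup 2 (n + 2)} {R S hh} (h : Inv2 O n ρ R S hh) :
    ∃ R' S', Inv2 O n ρ R' S'
      (hh ⊔ Submodule.span ℂ {Y | ∃ l : ℕ, 1 ≤ l ∧ l < n + 2 ∧ Y = (ρ 0).1 ^ l}) := by
  have hgen : ∃ ρ' ∈ S, ∃ c : ℂ, c ≠ 0 ∧ (ρ' 0).1 = c • primeDiag (n + 2) := by
    obtain ⟨a, b, ha, hd⟩ := h.diag
    obtain ⟨L, hL⟩ := t2_exists_root (n + 2) a ha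
    refine ⟨_, hd L, 1, one_ne_zero, ?_⟩
    simp [hL]
  refine ⟨_, _, ⟨Good.mflow (k := 0) h.good hgen, h.hp, h.s1, ?_, ?_, h.diag⟩⟩
  · intro z
    obtain ⟨v, hv, hz⟩ := h.surj z
    exact ⟨v, Submodule.mem_sup_left hv, hz⟩
  · intro η hη
    rw [← c0L_apply]
    rw [← Submodule.mem_comap]
    revert η
    rw [← SetLike.le_def]
    refine sup_le ?_ ?_
    · intro η hη
      exact Submodule.mem_sup_left (h.conj η hη)
    · rw [Submodule.span_le]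
      rintro Y ⟨l, hl1, hl2, rfl⟩
      refine Submodule.mem_sup_right ?_
      have h1 : c0 ((ρ 0).1 ^ l) ρ
          = (zeta n ^ l - 1) • sgl 0 ((0 : Mat (n + 2)), (ρ 0).2 * (ρ 0).1 ^ l) := by
        rw [c0, ← t2_sgl_smul]
        congr 1
        rw [h.hp.pow_mul l, ← pow_succ, ← pow_succ', sub_self]
        ext <;> simp [sub_smul]
      show c0 ((ρ 0).1 ^ l) ρ ∈ _
      rw [h1]
      exact Submodule.smul_mem _ _ (Submodule.subset_span ⟨⟨l, hl2⟩, rfl⟩)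

/-- one block of the programme: `word(p,q)`, flow, `back(word(p,q))` -/
theorem Inv2.block {O : Subring ℂ} {ρ : Tup 2 (n + 2)} {R S hh} (h : Inv2 O n ρ R S hh)
    (hs : Sim (Qm n, Pm n) (ρ 0)) {pq : ℕ × ℕ} (hpq : pq ∈ slopes (n + 2)) :
    ∃ ρ' R' S', ∃ c : ℂ, c ≠ 0 ∧ Sim (Qm n, Pm n) (ρ' 0) ∧ Inv2 O n ρ' R' S'
      (hh ⊔ Submodule.span ℂ
        {Y | ∃ l : ℕ, 1 ≤ l ∧ l < n + 2 ∧ Y = (c • (Qm n ^ pq.1 * Pm n ^ pq.2)) ^ l}) := by
  obtain ⟨p, q⟩ := pq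
  obtain ⟨hp1, -, -, hcop⟩ := mem_slopes.mp hpq
  obtain ⟨R1, S1, h1⟩ := h.word (K.word p q)
  obtain ⟨R2, S2, h2⟩ := h1.flow
  obtain ⟨R3, S3, h3⟩ := h2.word (back (n + 2) (K.word p q))
  obtain ⟨c, hc, hw⟩ := app_word_fst (zeta_ne_zero n) h.hp hp1 hcop
  obtain ⟨d, d', hd, hd', hρ⟩ := hs
  have hA : (atS 0 (app (K.word p q)) ρ 0).1 = (c * (d ^ p * d' ^ q)) • (Qm n ^ p * Pm n ^ q) := by
    rw [t2_atS_same, hw, hρ]
    simp only [smul_pow, smul_mul_smul_comm, smul_smul]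
  rw [hA] at h3
  refine ⟨_, R3, S3, c * (d ^ p * d' ^ q),
    mul_ne_zero hc (mul_ne_zero (pow_ne_zero _ hd) (pow_ne_zero _ hd')), ?_, h3⟩
  rw [t2_atS_same, t2_atS_same]
  exact Sim.trans ⟨d, d', hd, hd', hρ⟩ (app_back_app (zeta_ne_zero n) h.hp _)

theorem t2_all_aux (O : Subring ℂ) (n : ℕ) (l : List (ℕ × ℕ)) (hl : ∀ pq ∈ l, pq ∈ slopes (n + 2)) :
    ∃ ρ R S hh, Sim (Qm n, Pm n) (ρ 0) ∧ Inv2 O n ρ R S hh ∧ (1 : Mat (n + 2)) ∈ hh ∧
      ∀ pq ∈ l, ∃ c : ℂ, c ≠ 0 ∧ ∀ m : ℕ, 1 ≤ m → m < n + 2 →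
        (c • (Qm n ^ pq.1 * Pm n ^ pq.2)) ^ m ∈ hh := by
  induction l with
  | nil =>
    obtain ⟨R, S, h⟩ := Inv2.start O n
    exact ⟨_, R, S, _, Sim.refl _, h, Submodule.subset_span rfl, by simp⟩
  | cons pq l ih =>
    obtain ⟨ρ, R, S, hh, hs, h, h1, hall⟩ := ih (fun x hx => hl x (List.mem_cons_of_mem _ hx))
    obtain ⟨ρ', R', S', c, hc, hs', h'⟩ := h.block hs (hl pq List.mem_cons_self)
    refine ⟨ρ', R', S', _, hs', h', Submodule.mem_sup_left h1, ?_⟩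
    intro x hx
    rcases List.mem_cons.mp hx with rfl | hx
    · exact ⟨c, hc, fun m hm1 hm2 =>
        Submodule.mem_sup_right (Submodule.subset_span ⟨m, hm1, hm2, rfl⟩)⟩
    · obtain ⟨c', hc', hm⟩ := hall x hx
      exact ⟨c', hc', fun m hm1 hm2 => Submodule.mem_sup_left (hm m hm1 hm2)⟩

theorem Inv2.all (O : Subring ℂ) (n : ℕ) :
    ∃ ρ R S, Sim (Qm n, Pm n) (ρ 0) ∧ Inv2 O n ρ R S ⊤ := by
  obtain ⟨ρ, R, S, hh, hs, h, h1, hall⟩ := t2_all_aux O n (slopes (n + 2)) (fun _ h => h)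
  have htop : hh = ⊤ := eq_top_of_slopes_QP n hh h1 hall
  subst htop
  exact ⟨ρ, R, S, hs, h⟩

/-- **Prop T(2).** -/
theorem propT2 (O : Subring ℂ) (n : ℕ) :
    ∃ R S, Good O (baseT 0 n 1 1) R S ∧ R.map (PrL 0 n) = ⊤ := by
  obtain ⟨ρ, R, S, ⟨c, c', hc, hc', hρ⟩, h⟩ := Inv2.all O n
  set lam : Fin 2 → ℂ × ℂ := ![(c⁻¹, c'⁻¹), (1, 1)] with hlam
  have hNZ : NZ lam := by
    intro i
    fin_cases i
    · exact ⟨inv_ne_zero hc, inv_ne_zero hc'⟩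
    · exact ⟨one_ne_zero, one_ne_zero⟩
  have hbase : scal lam ρ = baseT 0 n 1 1 := by
    funext i
    fin_cases i
    · show ((lam 0).1 • (ρ 0).1, (lam 0).2 • (ρ 0).2) = (Qm n, Pm n)
      rw [hρ]
      simp [hlam, smul_smul, inv_mul_cancel₀ hc, inv_mul_cancel₀ hc']
    · show ((lam 1).1 • (ρ 1).1, (lam 1).2 • (ρ 1).2) = ((1 : ℂ) • Pm n, (1 : ℂ) • Qm n)
      rw [h.s1]
      simp [hlam]
  have hg := h.good.scal hNZ
  rw [hbase] at hg
  refine ⟨_, _, hg, ?_⟩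
  rw [eq_top_iff]
  rintro ⟨y, z⟩ -
  obtain ⟨v, hv, hvz⟩ := h.surj (z 0)
  obtain ⟨η, c₁, c₂, hL⟩ := Lam_surjective n (y - Prtau (scalL lam v 0))
  refine ⟨scalL lam v + (scalL lam (c0 η ρ) + ((c₁ * c⁻¹) • sgl 0 ((ρ 0).1, (0 : Mat (n + 2)))
    + (c₂ * c'⁻¹) • sgl 0 ((0 : Mat (n + 2)), (ρ 0).2))), ?_, ?_⟩
  · refine Submodule.add_mem _ (Submodule.mem_sup_left (Submodule.mem_map_of_mem hv))
      (Submodule.add_mem _ (Submodule.mem_sup_left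
        (Submodule.mem_map_of_mem (h.conj η Submodule.mem_top))) (Submodule.add_mem _ ?_ ?_))
    · exact Submodule.smul_mem _ _ (Submodule.mem_sup_right
        (Submodule.subset_span (Or.inl ⟨0, rfl⟩)))
    · exact Submodule.smul_mem _ _ (Submodule.mem_sup_right
        (Submodule.subset_span (Or.inr ⟨0, rfl⟩)))
  · have hs : ∀ (w : Tup 2 (n + 2)) (i : Fin 2),
        scalL lam w i = ((lam i).1 • (w i).1, (lam i).2 • (w i).2) := fun w i => rfl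
    have hu0 : (scalL lam (c0 η ρ) + ((c₁ * c⁻¹) • sgl 0 ((ρ 0).1, (0 : Mat (n + 2)))
        + (c₂ * c'⁻¹) • sgl 0 ((0 : Mat (n + 2)), (ρ 0).2)) : Tup 2 (n + 2)) 0
        = (η * Qm n - Qm n * η + c₁ • Qm n, η * Pm n - Pm n * η + c₂ • Pm n) := by
      simp only [Pi.add_apply, Pi.smul_apply, hs, c0, t2_sgl_same, hρ]
      have e1 : (lam 0).1 = c⁻¹ := rfl
      have e2 : (lam 0).2 = c'⁻¹ := rfl
      rw [e1, e2]
      ext i j
      · simp only [Prod.fst_add, Prod.smul_fst, Matrix.add_apply, Matrix.smul_apply,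
          Matrix.sub_apply, mul_smul_comm, smul_mul_assoc, smul_eq_mul, Matrix.zero_apply]
        field_simp
        ring
      · simp only [Prod.snd_add, Prod.smul_snd, Matrix.add_apply, Matrix.smul_apply,
          Matrix.sub_apply, mul_smul_comm, smul_mul_assoc, smul_eq_mul, Matrix.zero_apply]
        field_simp
        ring
    have hu1 : (scalL lam (c0 η ρ) + ((c₁ * c⁻¹) • sgl 0 ((ρ 0).1, (0 : Mat (n + 2)))
        + (c₂ * c'⁻¹) • sgl 0 ((0 : Mat (n + 2)), (ρ 0).2)) : Tup 2 (n + 2)) 1 = 0 := by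
      have h10 : (1 : Fin 2) ≠ 0 := by decide
      simp only [Pi.add_apply, Pi.smul_apply, hs, c0, t2_sgl_ne h10]
      simp
    generalize (scalL lam (c0 η ρ) + ((c₁ * c⁻¹) • sgl 0 ((ρ 0).1, (0 : Mat (n + 2)))
        + (c₂ * c'⁻¹) • sgl 0 ((0 : Mat (n + 2)), (ρ 0).2))) = u at hu0 hu1 ⊢
    show (Prtau ((scalL lam v + u) 0), fun i : Fin 1 => (scalL lam v + u) i.succ) = (y, z)
    congr 1
    · rw [Pi.add_apply, hu0]
      have := (PrtauL n).map_add (scalL lam v 0)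
        (η * Qm n - Qm n * η + c₁ • Qm n, η * Pm n - Pm n * η + c₂ • Pm n)
      change Prtau _ = Prtau _ + Prtau _ at this
      rw [this, hL]
      abel
    · funext i
      have hi : i = 0 := Subsingleton.elim _ _
      subst hi
      show (scalL lam v + u) 1 = z 0
      rw [Pi.add_apply, hu1, add_zero, hs, ← hvz]
      simp [hlam]

end Claimed.Agent.R236.K
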