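/-
Row 236 / S0471, route K (helper18).  Blueprint: `git show origin/helper18:docs/R236_S0471.md`, section 9 (Prop T(g), Theorem I).
-/
import Claimed.Agent.R236.K.T2
import Claimed.Agent.R236.K.GoodEnd
import Claimed.Agent.R236.K.ChartBase

set_option autoImplicit false

namespace Claimed.Agent.R236.K

open scoped BigOperators Matrix.Norms.Elementwise

variable {k n r : ℕ}

/-! ### Prop T(g) -/

/-- the invariants (a)-(d) in the induction step of T(g); `bb` is (a subspace of) `𝔟` -/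
structure Inv3 (O : Subring ℂ) (k n : ℕ) (ρ : Tup (k + 3) (n + 2))
    (R : Submodule ℂ (Tup (k + 3) (n + 2))) (S : Set (Tup (k + 3) (n + 2)))
    (bb : Submodule ℂ (Mat (n + 2))) : Prop where
  good : Good O ρ R S
  s0 : ρ 0 = (Qm n, Pm n)
  hp : HPair (zeta n)⁻¹ (ρ 1)
  s2 : ∀ i : Fin (k + 1), ρ i.succ.succ = (1, 1)
  surj : ∀ z : Ych (k + 1) n, (z.2 1).2 = 0 → ∃ v ∈ R, PrL (k + 1) n v = z
  bcomp : ∀ η ∈ bb, ∃ v ∈ R, (v 2).2 = η
  free : ∀ Y : Mat (n + 2), Function.update ρ 2 (Y, 1) ∈ S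

/-! #### auxiliary computations -/

theorem tg_dAt_apply {g : ℕ} (i : Fin g) (L : Pair r →ₗ[ℂ] Pair r) (v : Tup g r) (j : Fin g) :
    dAt i L v j = if j = i then L (v j) else v j := by
  unfold dAt
  rw [LinearMap.pi_apply]
  split_ifs <;> rfl

theorem tg_insL_apply (v : Tup (k + 2) r) (a : Mat r) :
    insL k r (v, a) = Fin.cons (v 0) (Fin.cons (v 1) (Fin.cons (a, 0) (fun i => v i.succ.succ))) := by
  funext j
  unfold insL
  rw [LinearMap.pi_apply]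
  refine Fin.cases ?_ (fun j => ?_) j
  · rfl
  refine Fin.cases ?_ (fun j => ?_) j
  · rfl
  refine Fin.cases ?_ (fun j => ?_) j
  · rfl
  · rfl

theorem tg_ins_baseT (c₁ c₂ : ℂ) (Y : Mat (n + 2)) :
    ins (baseT k n c₁ c₂) Y = Function.update (baseT (k + 1) n c₁ c₂) 2 (Y, 1) := by
  funext j
  refine Fin.cases ?_ (fun j => ?_) j
  · rfl
  refine Fin.cases ?_ (fun j => ?_) j
  · rfl
  refine Fin.cases ?_ (fun j => ?_) j
  · exact (Function.update_self (2 : Fin (k + 3)) _ (baseT (k + 1) n c₁ c₂)).symm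
  · have hne : j.succ.succ.succ ≠ (2 : Fin (k + 3)) := by
      intro h
      have h3 : j.succ.succ.succ = (0 : Fin (k + 1)).succ.succ := h
      exact Fin.succ_ne_zero _ (Fin.succ_injective _ (Fin.succ_injective _ h3))
    rw [Function.update_of_ne hne]
    rfl

theorem tg_ins_baseT_one (c₁ c₂ : ℂ) :
    ins (baseT k n c₁ c₂) 1 = baseT (k + 1) n c₁ c₂ := by
  rw [tg_ins_baseT]
  exact Function.update_eq_self _ _

theorem Inv3.start {O : Subring ℂ} {c₁ c₂ : ℂ} (h1 : c₁ ≠ 0) (h2 : c₂ ≠ 0) {R S}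
    (h : Good O (baseT k n c₁ c₂) R S) (hR : R.map (PrL k n) = ⊤) :
    ∃ R' S', Inv3 O k n (baseT (k + 1) n c₁ c₂) R' S' ⊥ := by
  have h' := h.insert_base.ins
  rw [tg_ins_baseT_one] at h'
  refine ⟨_, _, ⟨h', rfl, ?_, fun _ => rfl, ?_, ?_, ?_⟩⟩
  · exact (hpair_PQ n).sim ⟨c₁, c₂, h1, h2, rfl⟩
  · intro z hz
    have hz' : ((z.1, Fin.cons (z.2 0) (fun i => z.2 i.succ.succ)) : Ych k n) ∈
        R.map (PrL k n) := by rw [hR]; trivial
    obtain ⟨v, hv, hvz⟩ := hz'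
    refine ⟨insL k (n + 2) (v, (z.2 1).1), ⟨(v, (z.2 1).1), ⟨hv, trivial⟩, rfl⟩, ?_⟩
    rw [tg_insL_apply]
    have e1 : Prtau (v 0) = z.1 := congrArg Prod.fst hvz
    have e2 : (fun i : Fin (k + 1) => v i.succ) = Fin.cons (z.2 0) (fun i => z.2 i.succ.succ) :=
      congrArg Prod.snd hvz
    refine Prod.ext e1 ?_
    funext j
    refine Fin.cases ?_ (fun j => ?_) j
    · exact congrFun e2 0
    refine Fin.cases ?_ (fun j => ?_) j
    · exact Prod.ext rfl hz.symm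
    · exact congrFun e2 j.succ
  · intro η hη
    rw [Submodule.mem_bot] at hη
    exact ⟨0, Submodule.zero_mem _, hη.symm⟩
  · intro Y
    exact ⟨_, Set.mem_insert _ _, Y, (tg_ins_baseT c₁ c₂ Y).symm⟩

/-- the derivative of a letter at an invertible handle is bijective -/
theorem dlt_bijective (b : Bool) {τ : Pair r} (h1 : τ.1.det ≠ 0) (h2 : τ.2.det ≠ 0) :
    Function.Bijective (dlt b τ) := by
  have u1 : IsUnit τ.1.det := isUnit_iff_ne_zero.mpr h1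
  have u2 : IsUnit τ.2.det := isUnit_iff_ne_zero.mpr h2
  cases b with
  | false =>
    have hf : ∀ v : Pair r, dlt false τ v = (v.1, v.2 * τ.1 + τ.2 * v.1) := fun _ => rfl
    constructor
    · intro v w hvw
      rw [hf, hf] at hvw
      have e1 : v.1 = w.1 := (Prod.mk.inj hvw).1
      have e2 : v.2 * τ.1 + τ.2 * v.1 = w.2 * τ.1 + τ.2 * w.1 := (Prod.mk.inj hvw).2
      rw [e1] at e2
      have e3 : v.2 * τ.1 = w.2 * τ.1 := add_right_cancel e2
      have e4 : v.2 = w.2 := by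
        have := congrArg (· * τ.1⁻¹) e3
        simpa [Matrix.mul_assoc, Matrix.mul_nonsing_inv _ u1] using this
      exact Prod.ext e1 e4
    · intro w
      refine ⟨(w.1, (w.2 - τ.2 * w.1) * τ.1⁻¹), ?_⟩
      rw [hf]
      refine Prod.ext rfl ?_
      show (w.2 - τ.2 * w.1) * τ.1⁻¹ * τ.1 + τ.2 * w.1 = w.2
      rw [Matrix.mul_assoc, Matrix.nonsing_inv_mul _ u1, Matrix.mul_one, sub_add_cancel]
  | true =>
    have hf : ∀ v : Pair r, dlt true τ v = (v.1 * τ.2 + τ.1 * v.2, v.2) := fun _ => rfl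
    constructor
    · intro v w hvw
      rw [hf, hf] at hvw
      have e1 : v.2 = w.2 := (Prod.mk.inj hvw).2
      have e2 : v.1 * τ.2 + τ.1 * v.2 = w.1 * τ.2 + τ.1 * w.2 := (Prod.mk.inj hvw).1
      rw [e1] at e2
      have e3 : v.1 * τ.2 = w.1 * τ.2 := add_right_cancel e2
      have e4 : v.1 = w.1 := by
        have := congrArg (· * τ.2⁻¹) e3
        simpa [Matrix.mul_assoc, Matrix.mul_nonsing_inv _ u2] using this
      exact Prod.ext e4 e1
    · intro w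
      refine ⟨((w.1 - τ.1 * w.2) * τ.2⁻¹, w.2), ?_⟩
      rw [hf]
      refine Prod.ext ?_ rfl
      show (w.1 - τ.1 * w.2) * τ.2⁻¹ * τ.2 + τ.1 * w.2 = w.1
      rw [Matrix.mul_assoc, Matrix.nonsing_inv_mul _ u2, Matrix.mul_one, sub_add_cancel]

theorem tg_one_ne_zero3 : (1 : Fin (k + 3)) ≠ 0 := by
  intro h
  have h3 : (0 : Fin (k + 2)).succ = 0 := h
  exact Fin.succ_ne_zero _ h3

theorem tg_succ_succ_ne_one (i : Fin (k + 1)) : (i.succ.succ : Fin (k + 3)) ≠ 1 := by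
  intro h
  have h3 : i.succ.succ = (0 : Fin (k + 2)).succ := h
  exact Fin.succ_ne_zero _ (Fin.succ_injective _ h3)

theorem tg_two_ne_one : (2 : Fin (k + 3)) ≠ 1 := tg_succ_succ_ne_one 0

theorem Inv3.letter {O : Subring ℂ} {ρ : Tup (k + 3) (n + 2)} {R S bb} (h : Inv3 O k n ρ R S bb)
    (b : Bool) : ∃ R' S', Inv3 O k n (atS 1 (lt b) ρ) R' S' bb := by
  have hbij := dlt_bijective b h.hp.det_ne_zero.1 h.hp.det_ne_zero.2
  refine ⟨_, _, ⟨h.good.letter 1 b, ?_, ?_, ?_, ?_, ?_, ?_⟩⟩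
  · show Function.update ρ 1 _ 0 = _
    rw [Function.update_of_ne tg_one_ne_zero3.symm]
    exact h.s0
  · show HPair _ (Function.update ρ 1 _ 1)
    rw [Function.update_self]
    exact h.hp.lt (inv_ne_zero (zeta_ne_zero n)) b
  · intro i
    show Function.update ρ 1 _ _ = _
    rw [Function.update_of_ne (tg_succ_succ_ne_one i)]
    exact h.s2 i
  · intro z hz
    obtain ⟨w, hw⟩ := hbij.2 (z.2 0)
    have h10 : (1 : Fin (k + 2)) ≠ 0 := by
      intro h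
      have h3 : (0 : Fin (k + 1)).succ = 0 := h
      exact Fin.succ_ne_zero _ h3
    obtain ⟨v, hv, hvz⟩ := h.surj (z.1, Function.update z.2 0 w) (by
      show (Function.update z.2 0 w 1).2 = 0
      rw [Function.update_of_ne h10]
      exact hz)
    refine ⟨_, ⟨v, hv, rfl⟩, ?_⟩
    have e1 : Prtau (v 0) = z.1 := congrArg Prod.fst hvz
    have e2 : (fun i : Fin (k + 2) => v i.succ) = Function.update z.2 0 w :=
      congrArg Prod.snd hvz
    refine Prod.ext ?_ ?_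
    · show Prtau (dAt 1 (dlt b (ρ 1)) v 0) = z.1
      rw [tg_dAt_apply, if_neg tg_one_ne_zero3.symm]
      exact e1
    · funext j
      show dAt 1 (dlt b (ρ 1)) v j.succ = z.2 j
      rw [tg_dAt_apply]
      refine Fin.cases ?_ (fun j => ?_) j
      · have e3 : v (Fin.succ 0) = w := by
          have := congrFun e2 0
          rwa [Function.update_self] at this
        rw [if_pos (show (Fin.succ 0 : Fin (k + 3)) = 1 from rfl), e3]
        exact hw
      · rw [if_neg (tg_succ_succ_ne_one j)]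
        have := congrFun e2 j.succ
        rwa [Function.update_of_ne (Fin.succ_ne_zero j)] at this
  · intro η hη
    obtain ⟨v, hv, hvη⟩ := h.bcomp η hη
    refine ⟨_, ⟨v, hv, rfl⟩, ?_⟩
    rw [tg_dAt_apply, if_neg tg_two_ne_one]
    exact hvη
  · intro Y
    refine ⟨_, h.free Y, ?_⟩
    show Function.update (Function.update ρ 2 (Y, 1)) 1 (lt b (Function.update ρ 2 (Y, 1) 1)) =
      Function.update (Function.update ρ 1 (lt b (ρ 1))) 2 (Y, 1)
    rw [Function.update_of_ne tg_two_ne_one.symm, Function.update_comm tg_two_ne_one]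

theorem Inv3.word {O : Subring ℂ} {ρ : Tup (k + 3) (n + 2)} {R S bb} (h : Inv3 O k n ρ R S bb)
    (w : List Bool) : ∃ R' S', Inv3 O k n (atS 1 (app w) ρ) R' S' bb := by
  induction w generalizing ρ R S with
  | nil =>
    refine ⟨R, S, ?_⟩
    have : atS 1 (app []) ρ = ρ := Function.update_eq_self _ _
    rw [this]
    exact h
  | cons b w ih =>
    obtain ⟨R₁, S₁, h₁⟩ := h.letter b
    obtain ⟨R₂, S₂, h₂⟩ := ih h₁
    refine ⟨R₂, S₂, ?_⟩
    have : atS 1 (app (b :: w)) ρ = atS 1 (app w) (atS 1 (lt b) ρ) := by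
      show Function.update ρ 1 (app w (lt b (ρ 1))) =
        Function.update (Function.update ρ 1 (lt b (ρ 1))) 1
          (app w (Function.update ρ 1 (lt b (ρ 1)) 1))
      rw [Function.update_self, Function.update_idem]
    rw [this]
    exact h₂

theorem Inv3.flow {O : Subring ℂ} {ρ : Tup (k + 3) (n + 2)} {R S bb} (h : Inv3 O k n ρ R S bb) :
    ∃ R' S', Inv3 O k n ρ R' S'
      (bb ⊔ Submodule.span ℂ {Y | ∃ l : ℕ, l < n + 2 ∧ Y = (ρ 1).1 ^ l}) := by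
  have hρ2 : ρ 2 = (1, 1) := h.s2 0
  set H : Mat (n + 2) := (ρ 1).2 * (ρ 1).1.adjugate * (ρ 1).2.adjugate with hH
  have hdet : H.det ≠ 0 := by
    rw [hH, Matrix.det_mul, Matrix.det_mul, Matrix.det_adjugate, Matrix.det_adjugate]
    exact mul_ne_zero (mul_ne_zero h.hp.det_ne_zero.2 (pow_ne_zero _ h.hp.det_ne_zero.1))
      (pow_ne_zero _ h.hp.det_ne_zero.2)
  have hE : Eadj (ρ 1) (ρ 2) = H := by
    rw [hρ2]
    show H * 1 = H
    rw [Matrix.mul_one]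
  obtain ⟨R', hRR', hgood, hnew⟩ := h.good.eflow
    ⟨_, h.free (H⁻¹ * primeDiag (n + 2)), 1, one_ne_zero, by
      rw [Function.update_self, Function.update_of_ne tg_two_ne_one.symm]
      show H * (H⁻¹ * primeDiag (n + 2)) = _
      rw [← Matrix.mul_assoc, Matrix.mul_nonsing_inv _ (isUnit_iff_ne_zero.mpr hdet),
        Matrix.one_mul, one_smul]⟩
  refine ⟨R', S, ⟨hgood, h.s0, h.hp, h.s2, ?_, ?_, h.free⟩⟩
  · intro z hz
    obtain ⟨v, hv, hvz⟩ := h.surj z hz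
    exact ⟨v, hRR' hv, hvz⟩
  · -- the set of `B`-components of slot `2` is a submodule
    let pr : Tup (k + 3) (n + 2) →ₗ[ℂ] Mat (n + 2) :=
      LinearMap.snd ℂ (Mat (n + 2)) (Mat (n + 2)) ∘ₗ LinearMap.proj 2
    have key : bb ⊔ Submodule.span ℂ {Y | ∃ l : ℕ, l < n + 2 ∧ Y = (ρ 1).1 ^ l} ≤ R'.map pr := by
      refine sup_le ?_ (Submodule.span_le.mpr ?_)
      · intro η hη
        obtain ⟨v, hv, hvη⟩ := h.bcomp η hη
        exact ⟨v, hRR' hv, hvη⟩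
      · rintro Y ⟨l, hl, rfl⟩
        rcases Nat.eq_zero_or_pos l with rfl | hl0
        · obtain ⟨v, hv, hvη⟩ := hnew ⟨0, by omega⟩
          refine ⟨v, hv, ?_⟩
          show (v 2).2 = _
          rw [hvη, hρ2]
          simp
        · obtain ⟨v, hv, hvη⟩ := hnew ⟨n + 2 - l, by omega⟩
          obtain ⟨c, hc, hcH⟩ := h.hp.Hadj_pow (inv_ne_zero (zeta_ne_zero n))
            (l := n + 2 - l) (by omega) (by omega)
          have hl' : n + 2 - (n + 2 - l) = l := by omega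
          rw [hl'] at hcH
          refine ⟨c⁻¹ • v, Submodule.smul_mem _ _ hv, ?_⟩
          show c⁻¹ • (v 2).2 = _
          rw [hvη, hE, hρ2]
          show c⁻¹ • (1 * H ^ (n + 2 - l)) = _
          rw [Matrix.one_mul, hH, hcH, smul_smul, inv_mul_cancel₀ hc, one_smul]
    intro η hη
    obtain ⟨v, hv, hvη⟩ := key hη
    exact ⟨v, hv, hvη⟩

theorem tg_atS_one (f : Pair (n + 2) → Pair (n + 2)) (ρ : Tup (k + 3) (n + 2)) :
    atS 1 f ρ 1 = f (ρ 1) := Function.update_self _ _ _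

theorem Inv3.block {O : Subring ℂ} {ρ : Tup (k + 3) (n + 2)} {R S bb} (h : Inv3 O k n ρ R S bb)
    (hs : Sim (Pm n, Qm n) (ρ 1)) {pq : ℕ × ℕ} (hpq : pq ∈ slopes (n + 2)) :
    ∃ ρ' R' S', ∃ c : ℂ, c ≠ 0 ∧ Sim (Pm n, Qm n) (ρ' 1) ∧ Inv3 O k n ρ' R' S'
      (bb ⊔ Submodule.span ℂ
        {Y | ∃ l : ℕ, l < n + 2 ∧ Y = (c • (Pm n ^ pq.1 * Qm n ^ pq.2)) ^ l}) := by
  obtain ⟨p, q⟩ := pq
  have hz : (zeta n)⁻¹ ≠ 0 := inv_ne_zero (zeta_ne_zero n)
  obtain ⟨hp1, -, -, hcop⟩ := mem_slopes.mp hpq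
  obtain ⟨R₁, S₁, h₁⟩ := h.word (K.word p q)
  obtain ⟨R₂, S₂, h₂⟩ := h₁.flow
  obtain ⟨R₃, S₃, h₃⟩ := h₂.word (back (n + 2) (K.word p q))
  obtain ⟨c, hc, hcw⟩ := app_word_fst hz h.hp hp1 hcop
  obtain ⟨a, b, ha, hb, hab⟩ := hs
  refine ⟨atS 1 (app (back (n + 2) (K.word p q))) (atS 1 (app (K.word p q)) ρ), R₃, S₃,
    c * (a ^ p * b ^ q), mul_ne_zero hc (mul_ne_zero (pow_ne_zero _ ha)
    (pow_ne_zero _ hb)), ?_, ?_⟩
  · rw [tg_atS_one, tg_atS_one]
    exact Sim.trans ⟨a, b, ha, hb, hab⟩ (app_back_app hz h.hp (K.word p q))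
  · have e : (atS 1 (app (K.word p q)) ρ 1).1 = (c * (a ^ p * b ^ q)) • (Pm n ^ p * Qm n ^ q) := by
      rw [tg_atS_one, hcw, hab]
      show c • ((a • Pm n) ^ p * (b • Qm n) ^ q) = _
      rw [smul_pow, smul_pow, smul_mul_smul_comm, smul_smul]
    rw [e] at h₃
    exact h₃

theorem tg_fold {O : Subring ℂ} {ρ : Tup (k + 3) (n + 2)} {R S bb} (h : Inv3 O k n ρ R S bb)
    (hs : Sim (Pm n, Qm n) (ρ 1)) (L : List (ℕ × ℕ)) (hL : ∀ pq ∈ L, pq ∈ slopes (n + 2)) :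
    ∃ ρ' R' S' bb', Sim (Pm n, Qm n) (ρ' 1) ∧ Inv3 O k n ρ' R' S' bb' ∧ bb ≤ bb' ∧
      ∀ pq ∈ L, ∃ c : ℂ, c ≠ 0 ∧ ∀ l : ℕ, l < n + 2 →
        (c • (Pm n ^ pq.1 * Qm n ^ pq.2)) ^ l ∈ bb' := by
  induction L generalizing ρ R S bb with
  | nil => exact ⟨ρ, R, S, bb, hs, h, le_rfl, by simp⟩
  | cons pq L ih =>
    obtain ⟨ρ₁, R₁, S₁, c, hc, hs₁, h₁⟩ := h.block hs (hL pq (List.mem_cons_self ..))
    obtain ⟨ρ₂, R₂, S₂, bb₂, hs₂, h₂, hle, hall⟩ :=
      ih h₁ hs₁ (fun x hx => hL x (List.mem_cons_of_mem _ hx))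
    refine ⟨ρ₂, R₂, S₂, bb₂, hs₂, h₂, le_trans le_sup_left hle, ?_⟩
    intro x hx
    rcases List.mem_cons.mp hx with rfl | hx
    · exact ⟨c, hc, fun l hl => hle (Submodule.mem_sup_right
        (Submodule.subset_span ⟨l, hl, rfl⟩))⟩
    · exact hall x hx

theorem Inv3.all {O : Subring ℂ} {c₁ c₂ : ℂ} (h1 : c₁ ≠ 0) (h2 : c₂ ≠ 0) {R S}
    (h : Good O (baseT k n c₁ c₂) R S) (hR : R.map (PrL k n) = ⊤) :
    ∃ ρ R' S', Sim (Pm n, Qm n) (ρ 1) ∧ Inv3 O k n ρ R' S' ⊤ := by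
  obtain ⟨R₀, S₀, h₀⟩ := Inv3.start h1 h2 h hR
  obtain ⟨ρ', R', S', bb', hs', h', -, hall⟩ :=
    tg_fold h₀ ⟨c₁, c₂, h1, h2, rfl⟩ (slopes (n + 2)) (fun _ hx => hx)
  have htop : bb' = ⊤ := by
    refine eq_top_of_slopes_PQ n bb' ?_ ?_
    · obtain ⟨c, -, hc⟩ := hall (1, 0) (mem_slopes.mpr ⟨le_rfl, by omega, by omega, by simp⟩)
      have := hc 0 (by omega)
      rwa [pow_zero] at this
    · intro pq hpq
      obtain ⟨c, hc0, hc⟩ := hall pq hpq
      exact ⟨c, hc0, fun l _ hl => hc l hl⟩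
  rw [htop] at h'
  exact ⟨ρ', R', S', hs', h'⟩

/-- **Prop T(g).** -/
theorem propT (O : Subring ℂ) (n k : ℕ) :
    ∃ (c₁ c₂ : ℂ) (R : Submodule ℂ (Tup (k + 2) (n + 2))) (S : Set (Tup (k + 2) (n + 2))),
      c₁ ≠ 0 ∧ c₂ ≠ 0 ∧ Good O (baseT k n c₁ c₂) R S ∧ R.map (PrL k n) = ⊤ := by
  induction k with
  | zero =>
    obtain ⟨R, S, h, hR⟩ := propT2 O n
    exact ⟨1, 1, R, S, one_ne_zero, one_ne_zero, h, hR⟩
  | succ k ih =>
    obtain ⟨c₁, c₂, R, S, h1, h2, h, hR⟩ := ih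
    obtain ⟨ρ, R', S', ⟨a, b, ha, hb, hab⟩, h'⟩ := Inv3.all h1 h2 h hR
    have hρ : ρ = baseT (k + 1) n a b := by
      funext j
      refine Fin.cases ?_ (fun j => ?_) j
      · exact h'.s0
      refine Fin.cases ?_ (fun j => ?_) j
      · exact hab
      · exact h'.s2 j
    refine ⟨a, b, R', S', ha, hb, hρ ▸ h'.good, ?_⟩
    rw [eq_top_iff]
    intro z _
    obtain ⟨v, hv, hvz⟩ := h'.bcomp (z.2 1).2 trivial
    obtain ⟨v', hv', hvz'⟩ := h'.surj (z - PrL (k + 1) n v) (by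
      show (z.2 1).2 - (v 2).2 = 0
      rw [hvz, sub_self])
    refine ⟨v' + v, Submodule.add_mem _ hv' hv, ?_⟩
    rw [map_add, hvz', sub_add_cancel]

/-- **Theorem I.** The chart domain lies in the polynomial closure of the multi-cone. -/
theorem thmI (O : Subring ℂ) (k n : ℕ) : UU k n ⊆ ZZ O (k + 2) (n + 2) := by
  obtain ⟨c₁, c₂, R, S, -, -, h, hR⟩ := propT O n k
  exact h.conclusion ((ND_iff_nd h.base_mem_VV).mpr (nd_QP n)) hR

end Claimed.Agent.R236.K
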