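/-
Row 236 / S0471, route K (helper18).  Blueprint: `git show origin/helper18:docs/R236_S0471.md`, section 11 (LA1, LA8).
Independent linear algebra lemmas.  LA4 - LA6 are `R236/Cyc1.lean`, `Cyc2.lean`, `Pencil.lean` (helper354).
-/
import Claimed.Agent.R236.K.Basic

set_option autoImplicit false

namespace Claimed.Agent.R236.K

open scoped BigOperators Matrix.Norms.Elementwise

variable {g r : ℕ}

/-- `W` is invariant under `X` -/
def InvS (X : Mat r) (W : Submodule ℂ (Fin r → ℂ)) : Prop := ∀ x ∈ W, X.mulVec x ∈ W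

/-- an invertible matrix maps an invariant subspace onto itself, so its inverse leaves it invariant -/
theorem InvS.inv {X : Mat r} {W : Submodule ℂ (Fin r → ℂ)} (h : InvS X W) (hX : X.det ≠ 0) :
    InvS X⁻¹ W := by
  have hu : IsUnit X.det := isUnit_iff_ne_zero.mpr hX
  have hleft : ∀ x : Fin r → ℂ, X⁻¹.mulVec (X.mulVec x) = x := by
    intro x
    rw [Matrix.mulVec_mulVec, Matrix.nonsing_inv_mul X hu, Matrix.one_mulVec]
  let f : W →ₗ[ℂ] W := (Matrix.toLin' X).restrict (fun x hx => by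
    rw [Matrix.toLin'_apply]; exact h x hx)
  have hf : ∀ x : W, ((f x : W) : Fin r → ℂ) = X.mulVec (x : Fin r → ℂ) := by
    intro x
    simp [f, LinearMap.restrict_apply]
  have hinj : Function.Injective f := by
    intro x y hxy
    have h1 : X.mulVec (x : Fin r → ℂ) = X.mulVec (y : Fin r → ℂ) := by
      rw [← hf x, ← hf y, hxy]
    have h2 := congrArg X⁻¹.mulVec h1
    rw [hleft, hleft] at h2
    exact Subtype.ext h2
  have hsurj : Function.Surjective f := LinearMap.injective_iff_surjective.mp hinj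
  intro y hy
  obtain ⟨x, hx⟩ := hsurj ⟨y, hy⟩
  have h3 : X.mulVec (x : Fin r → ℂ) = y := by
    rw [← hf x, hx]
  rw [← h3, hleft]
  exact x.2

theorem InvS.mul {X Y : Mat r} {W : Submodule ℂ (Fin r → ℂ)} (hX : InvS X W) (hY : InvS Y W) :
    InvS (X * Y) W := by
  intro x hx
  rw [← Matrix.mulVec_mulVec]
  exact hX _ (hY x hx)

theorem InvS.add {X Y : Mat r} {W : Submodule ℂ (Fin r → ℂ)} (hX : InvS X W) (hY : InvS Y W) :
    InvS (X + Y) W := by
  intro x hx
  rw [Matrix.add_mulVec]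
  exact W.add_mem (hX x hx) (hY x hx)

theorem InvS.smul {X : Mat r} {W : Submodule ℂ (Fin r → ℂ)} (hX : InvS X W) (c : ℂ) :
    InvS (c • X) W := by
  intro x hx
  rw [Matrix.smul_mulVec]
  exact W.smul_mem c (hX x hx)

theorem InvS.one (W : Submodule ℂ (Fin r → ℂ)) : InvS (1 : Mat r) W := by
  intro x hx
  rw [Matrix.one_mulVec]
  exact hx

theorem InvS.pow {X : Mat r} {W : Submodule ℂ (Fin r → ℂ)} (hX : InvS X W) (m : ℕ) :
    InvS (X ^ m) W := by
  induction m with
  | zero => rw [pow_zero]; exact InvS.one W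
  | succ m ih => rw [pow_succ]; exact ih.mul hX

/-- the eigenspace of `Y` is invariant under every matrix commuting with `Y` -/
theorem InvS.eigenspace_of_comm {X Y : Mat r} (h : Y * X = X * Y) (c : ℂ) :
    InvS X (Module.End.eigenspace (Matrix.toLin' Y) c) := by
  intro x hx
  rw [Module.End.mem_eigenspace_iff, Matrix.toLin'_apply] at hx ⊢
  rw [Matrix.mulVec_mulVec, h, ← Matrix.mulVec_mulVec, hx, Matrix.mulVec_smul]

/-- **LA1 (Schur).** -/
theorem SCp_of_irr {τ : Pair r}
    (h : ∀ W : Submodule ℂ (Fin r → ℂ), InvS τ.1 W → InvS τ.2 W → W = ⊥ ∨ W = ⊤) : SCp τ := by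
  intro Y h1 h2
  rcases Nat.eq_zero_or_pos r with rfl | hr
  · exact ⟨0, Subsingleton.elim _ _⟩
  · have : Nonempty (Fin r) := ⟨⟨0, hr⟩⟩
    obtain ⟨c, hc⟩ := Module.End.exists_eigenvalue (Matrix.toLin' Y)
    refine ⟨c, ?_⟩
    rcases h _ (InvS.eigenspace_of_comm h1 c) (InvS.eigenspace_of_comm h2 c) with hW | hW
    · exact absurd hW hc
    · apply Matrix.toLin'.injective
      apply LinearMap.ext
      intro x
      have hx : x ∈ Module.End.eigenspace (Matrix.toLin' Y) c := by rw [hW]; trivial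
      rw [Module.End.mem_eigenspace_iff] at hx
      rw [hx, Matrix.toLin'_apply, Matrix.smul_mulVec, Matrix.one_mulVec]

/-- **LA8.** -/
theorem exists_common_eigenvector {A B : Mat (r + 1)} (h : A * B = B * A) :
    ∃ v : Fin (r + 1) → ℂ, v ≠ 0 ∧ ∃ a b : ℂ, A.mulVec v = a • v ∧ B.mulVec v = b • v := by
  obtain ⟨a, ha⟩ := Module.End.exists_eigenvalue (Matrix.toLin' A)
  set E := Module.End.eigenspace (Matrix.toLin' A) a with hE
  have hinv : InvS B E := InvS.eigenspace_of_comm h a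
  have : Nontrivial E := Submodule.nontrivial_iff_ne_bot.mpr ha
  let f : E →ₗ[ℂ] E := (Matrix.toLin' B).restrict (fun x hx => by
    rw [Matrix.toLin'_apply]; exact hinv x hx)
  have hf : ∀ x : E, ((f x : E) : Fin (r + 1) → ℂ) = B.mulVec (x : Fin (r + 1) → ℂ) := by
    intro x
    simp [f, LinearMap.restrict_apply]
  obtain ⟨b, hb⟩ := Module.End.exists_eigenvalue f
  obtain ⟨v, hv⟩ := hb.exists_hasEigenvector
  refine ⟨(v : Fin (r + 1) → ℂ), ?_, a, b, ?_, ?_⟩
  · intro h0
    exact hv.2 (Subtype.ext h0)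
  · have h0 : (v : Fin (r + 1) → ℂ) ∈ Module.End.eigenspace (Matrix.toLin' A) a := v.2
    rw [Module.End.mem_eigenspace_iff, Matrix.toLin'_apply] at h0
    exact h0
  · have h1 := hv.apply_eq_smul
    have h2 := congrArg (Subtype.val) h1
    rw [hf] at h2
    simpa using h2

/-- a line in dimension `≥ 2` is a proper non-zero subspace -/
theorem span_singleton_ne_bot_top {n : ℕ} {v : Fin (n + 2) → ℂ} (hv : v ≠ 0) :
    ¬ ((ℂ ∙ v) = ⊥ ∨ (ℂ ∙ v) = (⊤ : Submodule ℂ (Fin (n + 2) → ℂ))) := by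
  rintro (h | h)
  · exact hv (Submodule.span_singleton_eq_bot.mp h)
  · have h1 : Module.finrank ℂ (ℂ ∙ v) = 1 := finrank_span_singleton hv
    rw [h, finrank_top, Module.finrank_fin_fun] at h1
    omega

/-- a common eigenvector spans an invariant line -/
theorem InvS.span_eigenvector {X : Mat r} {v : Fin r → ℂ} {a : ℂ} (h : X.mulVec v = a • v) :
    InvS X (ℂ ∙ v) := by
  intro x hx
  obtain ⟨c, rfl⟩ := Submodule.mem_span_singleton.mp hx
  rw [Matrix.mulVec_smul, h]
  exact Submodule.smul_mem _ _ (Submodule.smul_mem _ _ (Submodule.mem_span_singleton_self v))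

/-- **LA8.** In genus `≤ 1` there are no irreducible representations of dimension `≥ 2`. -/
theorem not_irr_of_genus_le_one {n : ℕ} (hg : g ≤ 1) {ρ : Tup g (n + 2)} (h : ρ ∈ VV g (n + 2)) :
    ¬ Irr ρ := by
  intro hI
  have hg' : g = 0 ∨ g = 1 := by omega
  rcases hg' with rfl | rfl
  · have hv : (Pi.single 0 1 : Fin (n + 2) → ℂ) ≠ 0 := by
      intro h0
      have := congrFun h0 0
      simp at this
    exact span_singleton_ne_bot_top hv (hI _ (fun i => i.elim0))
  · obtain ⟨hinv, hk⟩ := h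
    have hA : IsUnit (ρ 0).1.det := isUnit_iff_ne_zero.mpr (hinv 0).1
    have hB : IsUnit (ρ 0).2.det := isUnit_iff_ne_zero.mpr (hinv 0).2
    rw [kap_succ, kap_zero, mul_one] at hk
    have hcomm : (ρ 0).1 * (ρ 0).2 = (ρ 0).2 * (ρ 0).1 := by
      have h1 : cmm (ρ 0) * ((ρ 0).2 * (ρ 0).1) = (ρ 0).1 * (ρ 0).2 := by
        unfold cmm
        calc (ρ 0).1 * (ρ 0).2 * (ρ 0).1⁻¹ * (ρ 0).2⁻¹ * ((ρ 0).2 * (ρ 0).1)
            = (ρ 0).1 * (ρ 0).2 * (ρ 0).1⁻¹ * ((ρ 0).2⁻¹ * (ρ 0).2) * (ρ 0).1 := by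
              simp only [mul_assoc]
          _ = (ρ 0).1 * (ρ 0).2 * ((ρ 0).1⁻¹ * (ρ 0).1) := by
              rw [Matrix.nonsing_inv_mul _ hB, mul_one, mul_assoc]
          _ = (ρ 0).1 * (ρ 0).2 := by
              rw [Matrix.nonsing_inv_mul _ hA, mul_one]
      rw [← h1, hk, one_mul]
    obtain ⟨v, hv, a, b, h1, h2⟩ := exists_common_eigenvector hcomm
    refine span_singleton_ne_bot_top hv (hI _ (fun i => ?_))
    have hi : i = 0 := Subsingleton.elim _ _
    subst hi
    exact ⟨InvS.span_eigenvector h1, InvS.span_eigenvector h2⟩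

end Claimed.Agent.R236.K
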