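/-
Row 236 / S0471, route K (helper18).  Blueprint: `git show origin/helper18:docs/R236_S0471.md`, section 11 (LA2).
Burnside: the words in an irreducible tuple span `M_r`; irreducibility is an open condition.
-/
import Claimed.Agent.R236.K.LinAlg

set_option autoImplicit false

namespace Claimed.Agent.R236.K

open scoped BigOperators Matrix.Norms.Elementwise

variable {g r : ℕ}

/-- Burnside for a subalgebra of `End V` (Schur + Jacobson density). -/
theorem brn_end {V : Type*} [AddCommGroup V] [Module ℂ V] [FiniteDimensional ℂ V] [Nontrivial V]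
    (R : Subalgebra ℂ (Module.End ℂ V))
    (h : ∀ W : Submodule ℂ V, (∀ a ∈ R, ∀ x ∈ W, a x ∈ W) → W = ⊥ ∨ W = ⊤) : R = ⊤ := by
  have : IsSimpleModule R V := by
    refine (isSimpleModule_iff R V).mpr ⟨fun W => ?_⟩
    rcases h (W.restrictScalars ℂ) (fun a ha x hx => W.smul_mem ⟨a, ha⟩ hx) with h1 | h1
    · left; exact (Submodule.restrictScalars_eq_bot_iff _ _ _).mp h1
    · right; exact (Submodule.restrictScalars_eq_top_iff _ _ _).mp h1
  have hS := (IsSimpleModule.algebraMap_end_bijective_of_isAlgClosed ℂ (A := R) (V := V)).2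
  rw [eq_top_iff]
  intro f _
  let F : Module.End (Module.End R V) V :=
    { toFun := f
      map_add' := f.map_add
      map_smul' := by
        intro φ x
        obtain ⟨c, rfl⟩ := hS φ
        simp }
  obtain ⟨s, hs⟩ := Module.Finite.fg_top (R := ℂ) (M := V)
  obtain ⟨a, ha⟩ := jacobson_density F s
  have : f = a.1 := by
    apply LinearMap.ext_on hs
    intro x hx
    exact ha x hx
  rw [this]
  exact a.2

/-- the set of the matrices of a tuple -/
def brnS (ρ : Tup g r) : Set (Mat r) :=
  Set.range (fun i => (ρ i).1) ∪ Set.range (fun i => (ρ i).2)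

theorem brn_adjoin {ρ : Tup g r} (h : Irr ρ) : Algebra.adjoin ℂ (brnS ρ) = ⊤ := by
  rcases Nat.eq_zero_or_pos r with rfl | hr
  · rw [eq_top_iff]
    intro x _
    rw [Subsingleton.elim x 0]
    exact zero_mem _
  · have : Nonempty (Fin r) := ⟨⟨0, hr⟩⟩
    have key : (Algebra.adjoin ℂ (brnS ρ)).map
        (Matrix.toLinAlgEquiv' : Mat r ≃ₐ[ℂ] _).toAlgHom = ⊤ := by
      apply brn_end
      intro W hW
      apply h W
      intro i
      constructor
      · intro x hx
        have := hW (Matrix.toLinAlgEquiv' (ρ i).1)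
          ⟨(ρ i).1, Algebra.subset_adjoin (Or.inl ⟨i, rfl⟩), rfl⟩ x hx
        simpa using this
      · intro x hx
        have := hW (Matrix.toLinAlgEquiv' (ρ i).2)
          ⟨(ρ i).2, Algebra.subset_adjoin (Or.inr ⟨i, rfl⟩), rfl⟩ x hx
        simpa using this
    rw [eq_top_iff]
    intro X _
    have hX : (Matrix.toLinAlgEquiv' : Mat r ≃ₐ[ℂ] _) X ∈ (Algebra.adjoin ℂ (brnS ρ)).map
        (Matrix.toLinAlgEquiv' : Mat r ≃ₐ[ℂ] _).toAlgHom := by rw [key]; trivial
    obtain ⟨Y, hY, hYX⟩ := hX
    have : Y = X := (Matrix.toLinAlgEquiv' : Mat r ≃ₐ[ℂ] _).injective hYX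
    rw [← this]; exact hY

/-- **LA2 (Burnside).** If `ρ` is irreducible the words in its matrices span `M_r`. -/
theorem Irr.span_words {ρ : Tup g r} (h : Irr ρ) :
    Submodule.span ℂ ((Submonoid.closure
      (Set.range (fun i => (ρ i).1) ∪ Set.range (fun i => (ρ i).2)) : Submonoid (Mat r)) : Set (Mat r)) = ⊤ := by
  have h1 := brn_adjoin h
  have h2 := Algebra.adjoin_eq_span ℂ (brnS ρ)
  rw [h1, Algebra.top_toSubmodule] at h2
  exact h2.symm

/-- the letter `(i, true) ↦ A_i`, `(i, false) ↦ B_i` -/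
def brnL (ρ : Tup g r) (p : Fin g × Bool) : Mat r := if p.2 then (ρ p.1).1 else (ρ p.1).2

/-- the value of a word -/
def brnW (ρ : Tup g r) (w : List (Fin g × Bool)) : Mat r := (w.map (brnL ρ)).prod

theorem brnL_continuous (p : Fin g × Bool) : Continuous fun ρ : Tup g r => brnL ρ p := by
  unfold brnL
  split_ifs
  · exact continuous_fst.comp (continuous_apply p.1)
  · exact continuous_snd.comp (continuous_apply p.1)

theorem brnW_continuous (w : List (Fin g × Bool)) : Continuous fun ρ : Tup g r => brnW ρ w := by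
  induction w with
  | nil => simpa [brnW] using continuous_const
  | cons p w ih =>
    have e : (fun ρ : Tup g r => brnW ρ (p :: w)) = fun ρ => brnL ρ p * brnW ρ w := by
      funext ρ; simp [brnW]
    rw [e]
    exact (brnL_continuous p).matrix_mul ih

theorem brn_exists_word {ρ : Tup g r} {X : Mat r} (hX : X ∈ Submonoid.closure (brnS ρ)) :
    ∃ w, brnW ρ w = X := by
  induction hX using Submonoid.closure_induction with
  | mem x hx =>
    rcases hx with ⟨i, rfl⟩ | ⟨i, rfl⟩
    · exact ⟨[(i, true)], by simp [brnW, brnL]⟩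
    · exact ⟨[(i, false)], by simp [brnW, brnL]⟩
  | one => exact ⟨[], by simp [brnW]⟩
  | mul x y _ _ hx hy =>
    obtain ⟨w1, rfl⟩ := hx
    obtain ⟨w2, rfl⟩ := hy
    exact ⟨w1 ++ w2, by simp [brnW]⟩

theorem brnW_inv {ρ : Tup g r} {W : Submodule ℂ (Fin r → ℂ)} (hW : InvSub ρ W)
    (w : List (Fin g × Bool)) : ∀ x ∈ W, (brnW ρ w).mulVec x ∈ W := by
  induction w with
  | nil => intro x hx; simpa [brnW] using hx
  | cons p w ih =>
    intro x hx
    have e : brnW ρ (p :: w) = brnL ρ p * brnW ρ w := by simp [brnW]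
    rw [e, ← Matrix.mulVec_mulVec]
    have h1 := ih x hx
    unfold brnL
    split_ifs
    · exact (hW p.1).1 _ h1
    · exact (hW p.1).2 _ h1

theorem brn_irr_of_span {ρ : Tup g r} (h : Submodule.span ℂ (Set.range (brnW ρ)) = ⊤) :
    Irr ρ := by
  intro W hW
  have hall : ∀ X : Mat r, ∀ x ∈ W, X.mulVec x ∈ W := by
    intro X
    have hX : X ∈ Submodule.span ℂ (Set.range (brnW ρ)) := by rw [h]; trivial
    induction hX using Submodule.span_induction with
    | mem X hX =>
      obtain ⟨w, rfl⟩ := hX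
      exact brnW_inv hW w
    | zero => intro x _; simp
    | add X Y _ _ hX hY =>
      intro x hx
      rw [Matrix.add_mulVec]
      exact W.add_mem (hX x hx) (hY x hx)
    | smul c X _ hX =>
      intro x hx
      rw [Matrix.smul_mulVec]
      exact W.smul_mem c (hX x hx)
  by_cases hb : W = ⊥
  · exact Or.inl hb
  · right
    obtain ⟨x, hxW, hx0⟩ := Submodule.exists_mem_ne_zero_of_ne_bot hb
    obtain ⟨i, hi⟩ := Function.ne_iff.mp hx0
    rw [eq_top_iff]
    intro y _
    have h1 := hall (Matrix.vecMulVec y (Pi.single i (x i)⁻¹)) x hxW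
    rw [Matrix.vecMulVec_mulVec] at h1
    have h2 : (Pi.single i (x i)⁻¹ : Fin r → ℂ) ⬝ᵥ x = 1 := by
      rw [single_dotProduct]
      exact inv_mul_cancel₀ hi
    rw [h2] at h1
    simpa using h1

/-- **LA2 (openness of irreducibility).** -/
theorem Irr.eventually {ρ : Tup g r} (h : Irr ρ) : ∀ᶠ ρ' in nhds ρ, Irr ρ' := by
  have hsp := h.span_words
  obtain ⟨b, hbS, hbsp, hbli⟩ := exists_linearIndependent ℂ
    ((Submonoid.closure (brnS ρ) : Submonoid (Mat r)) : Set (Mat r))
  have hsp' : Submodule.span ℂ b = ⊤ := by rw [hbsp]; exact hsp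
  have hfin : b.Finite := hbli.setFinite
  have : Fintype b := hfin.fintype
  have hw : ∀ X : b, ∃ w, brnW ρ w = X.1 := fun X => brn_exists_word (hbS X.2)
  choose w hw using hw
  have hcard : Fintype.card b = Module.finrank ℂ (Mat r) := by
    have hsp2 : ⊤ ≤ Submodule.span ℂ (Set.range ((↑) : b → Mat r)) := by
      rw [Subtype.range_coe]; exact hsp'.ge
    exact (Module.finrank_eq_card_basis (Module.Basis.mk hbli hsp2)).symm
  have hli : LinearIndependent ℂ (fun X : b => brnW ρ (w X)) := by
    have e : (fun X : b => brnW ρ (w X)) = ((↑) : b → Mat r) := funext hw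
    rw [e]; exact hbli
  have hcont : Continuous fun ρ' : Tup g r => fun X : b => brnW ρ' (w X) :=
    continuous_pi fun X => brnW_continuous (w X)
  have hev := hcont.continuousAt.eventually hli.eventually
  filter_upwards [hev] with ρ' hρ'
  apply brn_irr_of_span
  have h1 := hρ'.span_eq_top_of_card_eq_finrank' hcard
  rw [eq_top_iff, ← h1]
  apply Submodule.span_mono
  rintro _ ⟨X, rfl⟩
  exact ⟨w X, rfl⟩

end Claimed.Agent.R236.K
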