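/-
Row 236 / S0471, route K (helper18).  Blueprint: `git show origin/helper18:docs/R236_S0471.md`, section 12 (MV4).
Only `VV`, the usual topology and `closure (UU k n)` occur here; true inverses are used.
-/
import Claimed.Agent.R236.K.Moves
import Claimed.Agent.R236.K.LinAlg

set_option autoImplicit false

namespace Claimed.Agent.R236.K

open scoped BigOperators Matrix.Norms.Elementwise

variable {k n r : ℕ}

/-- `U = [ρ_1] ⋯ [ρ_{j-1}]` -/
noncomputable def Umid (ρ : Tup (k + 2) r) (j : Fin (k + 2)) : Mat r :=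
  (((List.ofFn fun i => cmm (ρ i)).take (j : ℕ)).drop 1).prod

/-- `E° = B₀ A₀⁻¹ B₀⁻¹ · U A_j U⁻¹` -/
noncomputable def Eo (j : Fin (k + 2)) (ρ : Tup (k + 2) r) : Mat r :=
  (ρ 0).2 * (ρ 0).1⁻¹ * (ρ 0).2⁻¹ * (Umid ρ j * (ρ j).1 * (Umid ρ j)⁻¹)

/-- the general e-move `ε_j(ρ,w)` -/
noncomputable def emv (j : Fin (k + 2)) (w : Mat r) (ρ : Tup (k + 2) r) : Tup (k + 2) r :=
  Function.update (Function.update ρ 0 ((ρ 0).1, w * (ρ 0).2)) j
    (((Umid ρ j)⁻¹ * w * Umid ρ j) * (ρ j).1 * ((Umid ρ j)⁻¹ * w * Umid ρ j)⁻¹,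
      (ρ j).2 * ((Umid ρ j)⁻¹ * w * Umid ρ j)⁻¹)

/-- `β⁻¹(A,B) = (A B⁻¹, B)` -/
noncomputable def beInv (τ : Pair r) : Pair r := (τ.1 * τ.2⁻¹, τ.2)

/-- the move used in Lemma A: `ε_j` (`b = false`) or `β_j⁻¹ ∘ ε_j ∘ β_j` (`b = true`) -/
noncomputable def emvb (b : Bool) (j : Fin (k + 2)) (w : Mat r) (ρ : Tup (k + 2) r) : Tup (k + 2) r :=
  if b then atS j beInv (emv j w (atS j be ρ)) else emv j w ρ

/-- the matrix `E°` belonging to `emvb` -/
noncomputable def Eob (b : Bool) (j : Fin (k + 2)) (ρ : Tup (k + 2) r) : Mat r :=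
  if b then Eo j (atS j be ρ) else Eo j ρ

/-! ### auxiliary lemmas -/

theorem emv_list_prod_split {M : Type*} [Monoid M] (L : List M) (j : ℕ) (h0 : 0 < j)
    (hj : j < L.length) :
    L.prod = L[0]'(by omega) * ((L.take j).drop 1).prod * L[j] * (L.drop (j + 1)).prod := by
  have hlen : 0 < (L.take j).length := by
    rw [List.length_take]
    omega
  have h1 : L.take j = L[0]'(by omega) :: (L.take j).drop 1 := by
    have h2 := List.drop_eq_getElem_cons hlen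
    rw [List.drop_zero, List.getElem_take] at h2
    exact h2
  conv_lhs => rw [← List.take_append_drop j L]
  rw [List.prod_append, List.drop_eq_getElem_cons hj, List.prod_cons]
  conv_lhs => rw [h1]
  rw [List.prod_cons]
  simp only [mul_assoc]

theorem emv_det_list_prod_ne_zero (L : List (Mat r)) (h : ∀ X ∈ L, X.det ≠ 0) :
    L.prod.det ≠ 0 := by
  induction L with
  | nil => simp
  | cons a t ih =>
    rw [List.prod_cons, Matrix.det_mul]
    exact mul_ne_zero (h a (by simp)) (ih fun X hX => h X (by simp [hX]))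

theorem emv_det_Umid {ρ : Tup (k + 2) r} (h : Invt ρ) (j : Fin (k + 2)) : (Umid ρ j).det ≠ 0 := by
  refine emv_det_list_prod_ne_zero _ fun X hX => ?_
  have h1 : X ∈ List.ofFn fun i => cmm (ρ i) := List.mem_of_mem_take (List.mem_of_mem_drop hX)
  obtain ⟨i, rfl⟩ := (List.mem_ofFn).1 h1
  rw [det_cmm _ (h i).1 (h i).2]
  exact one_ne_zero

theorem emv_Umid_congr {ρ ρ' : Tup (k + 2) r} {j : Fin (k + 2)}
    (h : ∀ i : Fin (k + 2), i ≠ 0 → i < j → ρ' i = ρ i) : Umid ρ' j = Umid ρ j := by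
  unfold Umid
  congr 1
  refine List.ext_getElem (by simp) fun m h1 h2 => ?_
  simp only [List.getElem_drop, List.getElem_take, List.getElem_ofFn]
  simp only [List.length_drop, List.length_take, List.length_ofFn] at h1
  rw [h]
  · intro h0
    have := congrArg Fin.val h0
    simp at this
  · rw [Fin.lt_def]
    simp only
    omega

theorem emv_tail_congr {ρ ρ' : Tup (k + 2) r} {j : Fin (k + 2)}
    (h : ∀ i : Fin (k + 2), j < i → ρ' i = ρ i) :
    ((List.ofFn fun i => cmm (ρ' i)).drop ((j : ℕ) + 1)).prod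
      = ((List.ofFn fun i => cmm (ρ i)).drop ((j : ℕ) + 1)).prod := by
  congr 1
  refine List.ext_getElem (by simp) fun m h1 h2 => ?_
  simp only [List.getElem_drop, List.getElem_ofFn]
  rw [h]
  rw [Fin.lt_def]
  simp only
  omega

theorem emv_exists_unit {X : Mat r} (h : X.det ≠ 0) : ∃ u : (Mat r)ˣ, (u : Mat r) = X :=
  (Matrix.isUnit_iff_isUnit_det X).2 (isUnit_iff_ne_zero.2 h)

theorem emv_grp {G : Type*} [Group G] (a0 b0 aj bj u w : G)
    (hc : w * (b0 * a0⁻¹ * b0⁻¹ * (u * aj * u⁻¹)) = b0 * a0⁻¹ * b0⁻¹ * (u * aj * u⁻¹) * w) :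
    (a0 * (w * b0) * a0⁻¹ * (w * b0)⁻¹) * u *
      ((u⁻¹ * w * u) * aj * (u⁻¹ * w * u)⁻¹ * (bj * (u⁻¹ * w * u)⁻¹)
        * ((u⁻¹ * w * u) * aj * (u⁻¹ * w * u)⁻¹)⁻¹ * (bj * (u⁻¹ * w * u)⁻¹)⁻¹)
    = (a0 * b0 * a0⁻¹ * b0⁻¹) * u * (aj * bj * aj⁻¹ * bj⁻¹) := by
  have h : w * (b0 * a0⁻¹ * b0⁻¹ * (u * aj * u⁻¹)) * w⁻¹ = b0 * a0⁻¹ * b0⁻¹ * (u * aj * u⁻¹) := by
    rw [hc]
    group
  calc _ = a0 * (w * (b0 * a0⁻¹ * b0⁻¹ * (u * aj * u⁻¹)) * w⁻¹) * u * bj * aj⁻¹ * bj⁻¹ := by group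
    _ = _ := by
      rw [h]
      group

theorem emv_cmm {A0 B0 Aj Bj U w : Mat r} (hA0 : A0.det ≠ 0) (hB0 : B0.det ≠ 0)
    (hAj : Aj.det ≠ 0) (hBj : Bj.det ≠ 0) (hU : U.det ≠ 0) (hw : w.det ≠ 0)
    (hc : w * (B0 * A0⁻¹ * B0⁻¹ * (U * Aj * U⁻¹)) = B0 * A0⁻¹ * B0⁻¹ * (U * Aj * U⁻¹) * w) :
    cmm (A0, w * B0) * U
        * cmm ((U⁻¹ * w * U) * Aj * (U⁻¹ * w * U)⁻¹, Bj * (U⁻¹ * w * U)⁻¹)
      = cmm (A0, B0) * U * cmm (Aj, Bj) := by
  obtain ⟨a0, rfl⟩ := emv_exists_unit hA0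
  obtain ⟨b0, rfl⟩ := emv_exists_unit hB0
  obtain ⟨aj, rfl⟩ := emv_exists_unit hAj
  obtain ⟨bj, rfl⟩ := emv_exists_unit hBj
  obtain ⟨u, rfl⟩ := emv_exists_unit hU
  obtain ⟨w, rfl⟩ := emv_exists_unit hw
  simp only [cmm, ← Matrix.coe_units_inv, ← Units.val_mul] at hc ⊢
  exact congrArg Units.val (emv_grp a0 b0 aj bj u w (Units.ext hc))

theorem emv_det_inv {X : Mat r} (h : X.det ≠ 0) : X⁻¹.det ≠ 0 := by
  rw [Matrix.det_nonsing_inv, Ring.inverse_eq_inv']
  exact inv_ne_zero h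

theorem emv_apply_zero (ρ : Tup (k + 2) r) {j : Fin (k + 2)} (hj : j ≠ 0) (w : Mat r) :
    emv j w ρ 0 = ((ρ 0).1, w * (ρ 0).2) := by
  unfold emv
  rw [Function.update_of_ne (Ne.symm hj), Function.update_self]

theorem emv_apply_self (ρ : Tup (k + 2) r) (j : Fin (k + 2)) (w : Mat r) :
    emv j w ρ j = (((Umid ρ j)⁻¹ * w * Umid ρ j) * (ρ j).1 * ((Umid ρ j)⁻¹ * w * Umid ρ j)⁻¹,
      (ρ j).2 * ((Umid ρ j)⁻¹ * w * Umid ρ j)⁻¹) := by
  unfold emv
  rw [Function.update_self]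

theorem emv_apply_of_ne (ρ : Tup (k + 2) r) {i j : Fin (k + 2)} (hi0 : i ≠ 0) (hij : i ≠ j)
    (w : Mat r) : emv j w ρ i = ρ i := by
  unfold emv
  rw [Function.update_of_ne hij, Function.update_of_ne hi0]

/-- splitting of the relation at the slots `0` and `j` -/
theorem kap_split (ρ : Tup (k + 2) r) {j : Fin (k + 2)} (hj : j ≠ 0) :
    kap ρ = cmm (ρ 0) * Umid ρ j * cmm (ρ j) *
      ((List.ofFn fun i => cmm (ρ i)).drop ((j : ℕ) + 1)).prod := by
  have h0 : 0 < (j : ℕ) := Nat.pos_of_ne_zero fun h => hj (Fin.ext h)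
  have h1 := emv_list_prod_split (List.ofFn fun i => cmm (ρ i)) (j : ℕ) h0
    (by rw [List.length_ofFn]; exact j.2)
  simp only [List.getElem_ofFn] at h1
  exact h1

/-- **MV4.** -/
theorem emv_mem_VV {ρ : Tup (k + 2) r} (h : ρ ∈ VV (k + 2) r) {j : Fin (k + 2)} (hj : j ≠ 0)
    {w : Mat r} (hw : w.det ≠ 0) (hc : w * Eo j ρ = Eo j ρ * w) : emv j w ρ ∈ VV (k + 2) r := by
  obtain ⟨hI, hk⟩ := h
  have hU := emv_det_Umid hI j
  have hv : ((Umid ρ j)⁻¹ * w * Umid ρ j).det ≠ 0 := by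
    rw [Matrix.det_mul, Matrix.det_mul]
    exact mul_ne_zero (mul_ne_zero (emv_det_inv hU) hw) hU
  have hvi := emv_det_inv hv
  constructor
  · intro i
    by_cases hi0 : i = 0
    · subst hi0
      rw [emv_apply_zero ρ hj w]
      exact ⟨(hI 0).1, by
        show (w * (ρ 0).2).det ≠ 0
        rw [Matrix.det_mul]
        exact mul_ne_zero hw (hI 0).2⟩
    by_cases hij : i = j
    · subst hij
      rw [emv_apply_self]
      refine ⟨?_, ?_⟩
      · show (((Umid ρ i)⁻¹ * w * Umid ρ i) * (ρ i).1 * ((Umid ρ i)⁻¹ * w * Umid ρ i)⁻¹).det ≠ 0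
        rw [Matrix.det_mul, Matrix.det_mul]
        exact mul_ne_zero (mul_ne_zero hv (hI i).1) hvi
      · show ((ρ i).2 * ((Umid ρ i)⁻¹ * w * Umid ρ i)⁻¹).det ≠ 0
        rw [Matrix.det_mul]
        exact mul_ne_zero (hI i).2 hvi
    · rw [emv_apply_of_ne ρ hi0 hij w]
      exact hI i
  · have e1 : Umid (emv j w ρ) j = Umid ρ j :=
      emv_Umid_congr fun i hi0 hij => emv_apply_of_ne ρ hi0 hij.ne w
    have e2 := emv_tail_congr (ρ := ρ) (ρ' := emv j w ρ) (j := j) fun i hij =>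
      emv_apply_of_ne ρ (fun h0 => by
        subst h0
        exact absurd hij (Fin.not_lt_zero _)) hij.ne' w
    have e3 := emv_cmm (hI 0).1 (hI 0).2 (hI j).1 (hI j).2 hU hw hc
    rw [kap_split _ hj, e1, e2, emv_apply_zero ρ hj w, emv_apply_self, e3, ← hk, kap_split ρ hj]

theorem emv_cmm_beInv (τ : Pair r) (h1 : τ.1.det ≠ 0) (h2 : τ.2.det ≠ 0) :
    cmm (beInv τ) = cmm τ := by
  obtain ⟨A, B⟩ := τ
  obtain ⟨a, rfl⟩ := emv_exists_unit (X := A) h1
  obtain ⟨b, rfl⟩ := emv_exists_unit (X := B) h2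
  simp only [cmm, beInv, ← Matrix.coe_units_inv, ← Units.val_mul]
  congr 1
  group

theorem emv_atS_beInv_mem_VV (j : Fin (k + 2)) {σ : Tup (k + 2) r} (h : σ ∈ VV (k + 2) r) :
    atS j beInv σ ∈ VV (k + 2) r := by
  obtain ⟨hI, hk⟩ := h
  constructor
  · intro i
    by_cases hij : i = j
    · subst hij
      simp only [atS, Function.update_self, beInv]
      exact ⟨by
        rw [Matrix.det_mul]
        exact mul_ne_zero (hI i).1 (emv_det_inv (hI i).2), (hI i).2⟩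
    · simp only [atS, Function.update_of_ne hij]
      exact hI i
  · rw [← hk]
    apply kap_congr
    intro i
    by_cases hij : i = j
    · subst hij
      simp only [atS, Function.update_self]
      exact emv_cmm_beInv _ (hI i).1 (hI i).2
    · simp only [atS, Function.update_of_ne hij]

theorem emv_atS_be_mem_VV (j : Fin (k + 2)) {ρ : Tup (k + 2) r} (h : ρ ∈ VV (k + 2) r) :
    atS j be ρ ∈ VV (k + 2) r := by
  have h1 := atS_lt_mem_VV j true h
  have h2 : (lt true : Pair r → Pair r) = be := by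
    funext τ
    simp [lt]
  rwa [h2] at h1

theorem emv_one {ρ : Tup (k + 2) r} (h : Invt ρ) (j : Fin (k + 2)) : emv j 1 ρ = ρ := by
  have hU := emv_det_Umid h j
  have hv : (Umid ρ j)⁻¹ * 1 * Umid ρ j = 1 := by
    rw [mul_one, Matrix.nonsing_inv_mul _ (isUnit_iff_ne_zero.2 hU)]
  unfold emv
  rw [hv]
  simp

theorem emv_beInv_be (τ : Pair r) (h2 : τ.2.det ≠ 0) : beInv (be τ) = τ := by
  obtain ⟨A, B⟩ := τ
  simp only [beInv, be]
  rw [Matrix.mul_nonsing_inv_cancel_right _ _ (isUnit_iff_ne_zero.2 h2)]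

theorem emvb_mem_VV (b : Bool) {ρ : Tup (k + 2) r} (h : ρ ∈ VV (k + 2) r) {j : Fin (k + 2)}
    (hj : j ≠ 0) {w : Mat r} (hw : w.det ≠ 0) (hc : w * Eob b j ρ = Eob b j ρ * w) :
    emvb b j w ρ ∈ VV (k + 2) r := by
  cases b with
  | false =>
    have hc' : w * Eo j ρ = Eo j ρ * w := by simpa [Eob] using hc
    simpa [emvb] using emv_mem_VV h hj hw hc'
  | true =>
    have hc' : w * Eo j (atS j be ρ) = Eo j (atS j be ρ) * w := by simpa [Eob] using hc
    simpa [emvb] using emv_atS_beInv_mem_VV j (emv_mem_VV (emv_atS_be_mem_VV j h) hj hw hc')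

theorem emvb_one (b : Bool) {ρ : Tup (k + 2) r} (h : ρ ∈ VV (k + 2) r) {j : Fin (k + 2)} (hj : j ≠ 0) :
    emvb b j 1 ρ = ρ := by
  cases b with
  | false => simpa [emvb] using emv_one h.1 j
  | true =>
    have h1 : emvb true j 1 ρ = atS j beInv (emv j 1 (atS j be ρ)) := by simp [emvb]
    rw [h1, emv_one (emv_atS_be_mem_VV j h).1 j]
    simp only [atS, Function.update_self, Function.update_idem]
    rw [emv_beInv_be _ (h.1 j).2, Function.update_eq_self]

theorem emvb_zero (b : Bool) (ρ : Tup (k + 2) r) {j : Fin (k + 2)} (hj : j ≠ 0) (w : Mat r) :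
    emvb b j w ρ 0 = ((ρ 0).1, w * (ρ 0).2) := by
  cases b with
  | false => simpa [emvb] using emv_apply_zero ρ hj w
  | true =>
    have h1 : emvb true j w ρ = atS j beInv (emv j w (atS j be ρ)) := by simp [emvb]
    have h2 : atS j be ρ 0 = ρ 0 := by
      simp only [atS]
      rw [Function.update_of_ne (Ne.symm hj)]
    have h3 : atS j beInv (emv j w (atS j be ρ)) 0 = emv j w (atS j be ρ) 0 := by
      simp only [atS]
      rw [Function.update_of_ne (Ne.symm hj)]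
    rw [h1, h3, emv_apply_zero _ hj w, h2]

theorem emv_continuousAt_inv {X : Type*} [TopologicalSpace X] {f : X → Mat r} {x : X}
    (hf : ContinuousAt f x) (h : (f x).det ≠ 0) : ContinuousAt (fun y => (f y)⁻¹) x := by
  have h1 : ContinuousAt (Inv.inv : Mat r → Mat r) (f x) := by
    refine continuousAt_matrix_inv _ ?_
    rw [Ring.inverse_eq_inv']
    exact continuousAt_inv₀ h
  exact ContinuousAt.comp (g := (Inv.inv : Mat r → Mat r)) h1 hf

theorem emv_continuousAt {σ : Tup (k + 2) r} (h : Invt σ) (j : Fin (k + 2)) :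
    ContinuousAt (fun w : Mat r => emv j w σ) 1 := by
  have hU := emv_det_Umid h j
  have hv1 : (Umid σ j)⁻¹ * 1 * Umid σ j = 1 := by
    rw [mul_one, Matrix.nonsing_inv_mul _ (isUnit_iff_ne_zero.2 hU)]
  have hv : ContinuousAt (fun w : Mat r => (Umid σ j)⁻¹ * w * Umid σ j) 1 :=
    (continuousAt_const.mul continuousAt_id).mul continuousAt_const
  have hvi : ContinuousAt (fun w : Mat r => ((Umid σ j)⁻¹ * w * Umid σ j)⁻¹) 1 :=
    emv_continuousAt_inv hv (by rw [hv1]; simp)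
  unfold emv
  refine ContinuousAt.update (ContinuousAt.update continuousAt_const 0 ?_) j ?_
  · exact continuousAt_const.prodMk (continuousAt_id.mul continuousAt_const)
  · exact ((hv.mul continuousAt_const).mul hvi).prodMk (continuousAt_const.mul hvi)

/-- continuity of the move in `w` at `w = 1` -/
theorem continuousAt_emvb (b : Bool) {ρ : Tup (k + 2) r} (h : ρ ∈ VV (k + 2) r) (j : Fin (k + 2)) :
    ContinuousAt (fun w : Mat r => emvb b j w ρ) 1 := by
  cases b with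
  | false => simpa [emvb] using emv_continuousAt h.1 j
  | true =>
    have hσ := emv_atS_be_mem_VV j h
    have h1 : (fun w : Mat r => emvb true j w ρ)
        = fun w => Function.update (emv j w (atS j be ρ)) j (beInv (emv j w (atS j be ρ) j)) := by
      funext w
      simp [emvb, atS]
    rw [h1]
    have hc := emv_continuousAt hσ.1 j
    have hg : ContinuousAt (fun w : Mat r => emv j w (atS j be ρ) j) 1 :=
      (continuous_apply j).continuousAt.comp hc
    refine ContinuousAt.update hc j ?_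
    unfold beInv
    refine (hg.fst.mul (emv_continuousAt_inv hg.snd ?_)).prodMk hg.snd
    rw [emv_one hσ.1 j]
    exact (hσ.1 j).2

theorem emv_InvS_list_prod {W : Submodule ℂ (Fin r → ℂ)} (L : List (Mat r))
    (h : ∀ X ∈ L, InvS X W) : InvS L.prod W := by
  induction L with
  | nil => simpa using InvS.one W
  | cons a t ih =>
    rw [List.prod_cons]
    exact (h a (by simp)).mul (ih fun X hX => h X (by simp [hX]))

theorem emv_InvS_cmm {τ : Pair r} {W : Submodule ℂ (Fin r → ℂ)} (h1 : InvS τ.1 W)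
    (h2 : InvS τ.2 W) (d1 : τ.1.det ≠ 0) (d2 : τ.2.det ≠ 0) : InvS (cmm τ) W :=
  ((h1.mul h2).mul (h1.inv d1)).mul (h2.inv d2)

theorem emv_InvS_Umid {ρ : Tup (k + 2) r} (hI : Invt ρ) {W : Submodule ℂ (Fin r → ℂ)}
    {j : Fin (k + 2)} (h : ∀ i < j, InvS (ρ i).1 W ∧ InvS (ρ i).2 W) : InvS (Umid ρ j) W := by
  refine emv_InvS_list_prod _ fun X hX => ?_
  have h1 : X ∈ (List.ofFn fun i => cmm (ρ i)).take (j : ℕ) := List.mem_of_mem_drop hX
  obtain ⟨m, hm, rfl⟩ := List.mem_iff_getElem.1 h1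
  rw [List.getElem_take, List.getElem_ofFn]
  rw [List.length_take, List.length_ofFn] at hm
  have hlt : (⟨m, by omega⟩ : Fin (k + 2)) < j := by
    rw [Fin.lt_def]
    simp only
    omega
  exact emv_InvS_cmm (h _ hlt).1 (h _ hlt).2 (hI _).1 (hI _).2

theorem emv_recover {A0 B0 U a : Mat r} (hA0 : A0.det ≠ 0) (hB0 : B0.det ≠ 0) (hU : U.det ≠ 0)
    (ha : a.det ≠ 0) :
    a = U⁻¹ * (B0 * A0 * B0⁻¹ * (B0 * A0⁻¹ * B0⁻¹ * (U * a * U⁻¹))) * U := by
  obtain ⟨a0, rfl⟩ := emv_exists_unit hA0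
  obtain ⟨b0, rfl⟩ := emv_exists_unit hB0
  obtain ⟨u, rfl⟩ := emv_exists_unit hU
  obtain ⟨a, rfl⟩ := emv_exists_unit ha
  simp only [← Matrix.coe_units_inv, ← Units.val_mul]
  congr 1
  group

theorem emv_InvS_recover {A0 B0 U a : Mat r} {W : Submodule ℂ (Fin r → ℂ)} (hA0 : A0.det ≠ 0)
    (hB0 : B0.det ≠ 0) (hU : U.det ≠ 0) (ha : a.det ≠ 0) (iA : InvS A0 W) (iB : InvS B0 W)
    (iU : InvS U W) (iE : InvS (B0 * A0⁻¹ * B0⁻¹ * (U * a * U⁻¹)) W) : InvS a W := by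
  rw [emv_recover hA0 hB0 hU ha]
  exact ((iU.inv hU).mul (((iB.mul iA).mul (iB.inv hB0)).mul iE)).mul iU

/-- choice of the slot and of the variant in Lemma A: if `W` is invariant under the handle `0` but not under `ρ`, then for
suitable `j ≠ 0`, `b` the matrix `E°` does not leave `W` invariant. -/
theorem exists_Eob_not_invS {ρ : Tup (k + 2) r} (h : ρ ∈ VV (k + 2) r)
    {W : Submodule ℂ (Fin r → ℂ)} (h0 : InvS (ρ 0).1 W) (h0' : InvS (ρ 0).2 W) (hW : ¬ InvSub ρ W) :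
    ∃ (j : Fin (k + 2)) (b : Bool), j ≠ 0 ∧ ¬ InvS (Eob b j ρ) W := by
  obtain ⟨hI, -⟩ := h
  -- the minimal bad slot
  have hne : {i : Fin (k + 2) | ¬ (InvS (ρ i).1 W ∧ InvS (ρ i).2 W)}.Nonempty := by
    by_contra hemp
    apply hW
    intro i
    by_contra hi
    exact hemp ⟨i, hi⟩
  obtain ⟨j, hjS, hmin⟩ := wellFounded_lt.has_min _ hne
  have hj0 : j ≠ 0 := by
    rintro rfl
    exact hjS ⟨h0, h0'⟩
  have hlt : ∀ i < j, InvS (ρ i).1 W ∧ InvS (ρ i).2 W := fun i hi => by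
    by_contra hcon
    exact hmin i hcon hi
  have iU := emv_InvS_Umid hI hlt
  have dU := emv_det_Umid hI j
  by_cases hA : InvS (ρ j).1 W
  · have hB : ¬ InvS (ρ j).2 W := fun hB => hjS ⟨hA, hB⟩
    refine ⟨j, true, hj0, fun hE => hB ?_⟩
    have e1 : Umid (atS j be ρ) j = Umid ρ j := emv_Umid_congr fun i _ hij => by
      simp only [atS]
      rw [Function.update_of_ne hij.ne]
    have e0 : atS j be ρ 0 = ρ 0 := by
      simp only [atS]
      rw [Function.update_of_ne (Ne.symm hj0)]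
    have ej : (atS j be ρ j).1 = (ρ j).1 * (ρ j).2 := by
      simp only [atS, Function.update_self, be]
    have hE' : InvS ((ρ 0).2 * (ρ 0).1⁻¹ * (ρ 0).2⁻¹
        * (Umid ρ j * ((ρ j).1 * (ρ j).2) * (Umid ρ j)⁻¹)) W := by
      have h2 : Eob true j ρ = Eo j (atS j be ρ) := by simp [Eob]
      rw [h2] at hE
      unfold Eo at hE
      rwa [e1, e0, ej] at hE
    have dAB : ((ρ j).1 * (ρ j).2).det ≠ 0 := by
      rw [Matrix.det_mul]
      exact mul_ne_zero (hI j).1 (hI j).2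
    have hAB : InvS ((ρ j).1 * (ρ j).2) W :=
      emv_InvS_recover (hI 0).1 (hI 0).2 dU dAB h0 h0' iU hE'
    have h3 : (ρ j).2 = (ρ j).1⁻¹ * ((ρ j).1 * (ρ j).2) := by
      rw [Matrix.nonsing_inv_mul_cancel_left _ _ (isUnit_iff_ne_zero.2 (hI j).1)]
    rw [h3]
    exact (hA.inv (hI j).1).mul hAB
  · refine ⟨j, false, hj0, fun hE => hA ?_⟩
    have h2 : Eob false j ρ = Eo j ρ := by simp [Eob]
    rw [h2] at hE
    exact emv_InvS_recover (hI 0).1 (hI 0).2 dU (hI j).1 h0 h0' iU hE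

end Claimed.Agent.R236.K
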