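/-
Row 236 / S0471, route K.  Analytic core of OM2 (blueprint section 10): the polynomial map
`Υ(X,Y,c,K') = (XY - c K' Y X, K')` is open at a point where its derivative is onto.
The statement only mentions the product topology; the proof uses the operator norm on matrices.
-/
import Claimed.Agent.R236.Basic

set_option autoImplicit false

namespace Claimed.Agent.R236.K

open Topology Filter

variable {r : ℕ}

/-- the map `Υ(X,Y,c,K') = (XY - c K' Y X, K')`. -/
def omU (x : Mat r × Mat r × ℂ × Mat r) : Mat r × Mat r :=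
  (x.1 * x.2.1 - x.2.2.1 • (x.2.2.2 * x.2.1 * x.1), x.2.2.2)

/-- openness of `omU` at `(A,B,1,K)` (a purely topological statement). -/
def OmOpen (A B K : Mat r) : Prop :=
  ∀ N ∈ 𝓝 ((A, B, (1 : ℂ), K) : Mat r × Mat r × ℂ × Mat r), omU '' N ∈ 𝓝 (omU (A, B, 1, K))

section

attribute [local instance] Matrix.linftyOpNormedRing Matrix.linftyOpNormedAlgebra

theorem omU_hasStrictFDerivAt (A B K : Mat r) :
    ∃ D : (Mat r × Mat r × ℂ × Mat r) →L[ℂ] (Mat r × Mat r),
      HasStrictFDerivAt omU D (A, B, 1, K) ∧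
      ∀ (a b : Mat r) (c : ℂ) (k : Mat r), D (a, b, c, k)
        = (a * B + A * b - K * (b * A + B * a) - c • (K * B * A) - k * B * A, k) := by
  let p1 : (Mat r × Mat r × ℂ × Mat r) →L[ℂ] Mat r := ContinuousLinearMap.fst ℂ _ _
  let q : (Mat r × Mat r × ℂ × Mat r) →L[ℂ] (Mat r × ℂ × Mat r) := ContinuousLinearMap.snd ℂ _ _
  let p2 : (Mat r × Mat r × ℂ × Mat r) →L[ℂ] Mat r := (ContinuousLinearMap.fst ℂ _ _).comp q
  let q2 : (Mat r × Mat r × ℂ × Mat r) →L[ℂ] (ℂ × Mat r) := (ContinuousLinearMap.snd ℂ _ _).comp q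
  let p3 : (Mat r × Mat r × ℂ × Mat r) →L[ℂ] ℂ := (ContinuousLinearMap.fst ℂ _ _).comp q2
  let p4 : (Mat r × Mat r × ℂ × Mat r) →L[ℂ] Mat r := (ContinuousLinearMap.snd ℂ _ _).comp q2
  have h1 : HasStrictFDerivAt (fun x : Mat r × Mat r × ℂ × Mat r => x.1) p1 (A, B, 1, K) :=
    p1.hasStrictFDerivAt
  have h2 : HasStrictFDerivAt (fun x : Mat r × Mat r × ℂ × Mat r => x.2.1) p2 (A, B, 1, K) :=
    p2.hasStrictFDerivAt
  have h3 : HasStrictFDerivAt (fun x : Mat r × Mat r × ℂ × Mat r => x.2.2.1) p3 (A, B, 1, K) :=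
    p3.hasStrictFDerivAt
  have h4 : HasStrictFDerivAt (fun x : Mat r × Mat r × ℂ × Mat r => x.2.2.2) p4 (A, B, 1, K) :=
    p4.hasStrictFDerivAt
  refine ⟨_, ((h1.fun_mul' h2).fun_sub (h3.fun_smul ((h4.fun_mul' h2).fun_mul' h1))).prodMk h4, ?_⟩
  intro a b c k
  show (A * b + a * B - ((1 : ℂ) • ((K * B) * a + (K * b + k * B) * A) + c • (K * B * A)), k) = _
  congr 1
  simp only [one_smul, mul_add, add_mul, mul_assoc]
  abel

/-- **open mapping**: if the linear map of OM1 is onto, `omU` is open at `(A,B,1,K)`. -/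
theorem omU_open {A B K : Mat r}
    (hsurj : ∀ Z : Mat r, ∃ (a b : Mat r) (c : ℂ),
      a * B + A * b - K * (b * A + B * a) - c • (K * B * A) = Z) : OmOpen A B K := by
  obtain ⟨D, hD, hDa⟩ := omU_hasStrictFDerivAt A B K
  have hr : D.range = ⊤ := by
    rw [LinearMap.range_eq_top]
    rintro ⟨Z, k⟩
    obtain ⟨a, b, c, h⟩ := hsurj (Z + k * B * A)
    refine ⟨(a, b, c, k), ?_⟩
    show D (a, b, c, k) = (Z, k)
    rw [hDa, h, add_sub_cancel_right]
  have hmap := @HasStrictFDerivAt.map_nhds_eq_of_surj ℂ _ _ _ _ _ _ _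
    (FiniteDimensional.complete ℂ _) (FiniteDimensional.complete ℂ _) _ _ _ hD hr
  intro N hN
  exact hmap.ge (Filter.image_mem_map hN)

end

end Claimed.Agent.R236.K
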