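/-
Row 236 / S0471, route K (helper18).  Blueprint: `git show origin/helper18:docs/R236_S0471.md`, section 10 (OM1, OM2).
-/
import Claimed.Agent.R236.K.Basic
import Claimed.Agent.R236.K.OMAux

set_option autoImplicit false

namespace Claimed.Agent.R236.K

open scoped BigOperators Matrix.Norms.Elementwise

variable {g k n r : ℕ}

/-- every linear functional on matrices is `Z ↦ tr (T Z)`. -/
theorem om_exists_trace (f : Mat r →ₗ[ℂ] ℂ) : ∃ T : Mat r, ∀ Z, f Z = (T * Z).trace := by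
  refine ⟨Matrix.of fun i j => f (Matrix.single j i 1), fun Z => ?_⟩
  conv_lhs => rw [Matrix.matrix_eq_sum_single Z]
  simp only [map_sum, Matrix.trace, Matrix.diag_apply, Matrix.mul_apply, Matrix.of_apply]
  rw [Finset.sum_comm]
  refine Finset.sum_congr rfl fun j _ => Finset.sum_congr rfl fun i _ => ?_
  have : Matrix.single i j (Z i j) = Z i j • Matrix.single i j (1 : ℂ) := by
    rw [Matrix.smul_single, smul_eq_mul, mul_one]
  rw [this, map_smul, smul_eq_mul, mul_comm]

/-- the linear map of OM1. -/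
noncomputable def omL (A B K : Mat r) : Mat r × Mat r × ℂ →ₗ[ℂ] Mat r where
  toFun x := x.1 * B + A * x.2.1 - K * (x.2.1 * A + B * x.1) - x.2.2 • (A * B)
  map_add' x y := by
    simp only [Prod.fst_add, Prod.snd_add, add_mul, mul_add, add_smul]
    abel
  map_smul' t x := by
    simp only [Prod.smul_fst, Prod.smul_snd, smul_mul_assoc, mul_smul_comm, smul_add, smul_sub,
      RingHom.id_apply, smul_eq_mul, mul_smul, mul_add]

theorem omL_apply (A B K a b : Mat r) (c : ℂ) :
    omL A B K (a, b, c) = a * B + A * b - K * (b * A + B * a) - c • (A * B) := rfl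

/-- **OM1.** -/
theorem OM1 {A B : Mat (n + 2)} (hA : A.det ≠ 0) (hB : B.det ≠ 0) (hsc : SCp (A, B))
    (Z : Mat (n + 2)) :
    ∃ (a b : Mat (n + 2)) (c : ℂ),
      a * B + A * b - cmm (A, B) * (b * A + B * a) - c • (A * B) = Z := by
  set K := cmm (A, B) with hK
  have hAu : IsUnit A.det := isUnit_iff_ne_zero.2 hA
  have hBu : IsUnit B.det := isUnit_iff_ne_zero.2 hB
  have hA1 : A * A⁻¹ = 1 := Matrix.mul_nonsing_inv A hAu
  have hA2 : A⁻¹ * A = 1 := Matrix.nonsing_inv_mul A hAu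
  have hB1 : B * B⁻¹ = 1 := Matrix.mul_nonsing_inv B hBu
  have hB2 : B⁻¹ * B = 1 := Matrix.nonsing_inv_mul B hBu
  have hKdef : K = A * B * A⁻¹ * B⁻¹ := rfl
  suffices hr : LinearMap.range (omL A B K) = ⊤ by
    have hZ : Z ∈ LinearMap.range (omL A B K) := hr ▸ Submodule.mem_top
    obtain ⟨⟨a, b, c⟩, h⟩ := hZ
    exact ⟨a, b, c, h⟩
  by_contra hne
  obtain ⟨f, hf0, hf⟩ := Submodule.exists_le_ker_of_lt_top _ (lt_top_iff_ne_top.2 hne)
  obtain ⟨T, hT⟩ := om_exists_trace f
  have hz : ∀ (a b : Mat (n + 2)) (c : ℂ), (T * (a * B + A * b - K * (b * A + B * a) - c • (A * B))).trace = 0 := by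
    intro a b c
    rw [← hT, ← omL_apply]
    exact hf ⟨_, rfl⟩
  -- (i)
  have h1 : B * T = T * K * B := by
    rw [Matrix.ext_iff_trace_mul_right]
    intro a
    have := hz a 0 0
    simp only [mul_zero, zero_mul, add_zero, zero_add, zero_smul, sub_zero, mul_sub,
      Matrix.trace_sub] at this
    have e1 : (T * (a * B)).trace = (B * T * a).trace := by
      rw [← mul_assoc, Matrix.trace_mul_comm, mul_assoc]
    have e2 : T * (K * (B * a)) = T * K * B * a := by simp only [mul_assoc]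
    rw [e1, e2] at this
    exact sub_eq_zero.1 this
  -- (ii)
  have h2 : T * A = A * T * K := by
    rw [Matrix.ext_iff_trace_mul_right]
    intro b
    have := hz 0 b 0
    simp only [mul_zero, zero_mul, add_zero, zero_add, zero_smul, sub_zero, mul_sub,
      Matrix.trace_sub] at this
    have e1 : T * (A * b) = T * A * b := by simp only [mul_assoc]
    have e2 : (T * (K * (b * A))).trace = (A * T * K * b).trace := by
      have : T * (K * (b * A)) = (T * K * b) * A := by simp only [mul_assoc]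
      rw [this, Matrix.trace_mul_comm]
      simp only [mul_assoc]
    rw [e1, e2] at this
    exact sub_eq_zero.1 this
  -- (iii)
  have h3 : (T * (A * B)).trace = 0 := by
    have := hz 0 0 (-1)
    simpa using this
  set Y := T * A * B with hY
  have hKB : K * B = A * B * A⁻¹ := by
    rw [hKdef, mul_assoc (A * B * A⁻¹), hB2, mul_one]
  have hBTA : B * T * A = Y := by
    rw [h1, mul_assoc T, hKB, hY]
    simp only [mul_assoc]
    rw [hA2, mul_one]
  have hYB : Y * B = B * Y := by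
    rw [← hBTA]
    conv_rhs => rw [hBTA, hY]
    simp only [mul_assoc]
  have hYA : Y * A = A * Y := by
    have e : T * A * B * A = A * T * K * (B * A) := by
      rw [← h2]; simp only [mul_assoc]
    have e2 : K * (B * A) = A * B := by
      rw [← mul_assoc, hKB, mul_assoc, hA2, mul_one]
    rw [hY, e, mul_assoc (A * T), e2]
    simp only [mul_assoc]
  obtain ⟨y, hy⟩ := hsc Y hYA hYB
  have hy0 : y = 0 := by
    have : Y.trace = 0 := by rw [hY, mul_assoc]; exact h3
    rw [hy, Matrix.trace_smul, Matrix.trace_one, Fintype.card_fin, smul_eq_mul] at this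
    rcases mul_eq_zero.1 this with h | h
    · exact h
    · exfalso
      have : ((n + 2 : ℕ) : ℂ) ≠ 0 := Nat.cast_ne_zero.2 (by omega)
      exact this h
  have hY0 : Y = 0 := by rw [hy, hy0, zero_smul]
  have hT0 : T = 0 := by
    have : T = Y * B⁻¹ * A⁻¹ := by
      rw [hY, mul_assoc (T * A), hB1, mul_one, mul_assoc, hA1, mul_one]
    rw [this, hY0, zero_mul, zero_mul]
  apply hf0
  ext1 Z
  rw [hT, hT0, zero_mul, Matrix.trace_zero, LinearMap.zero_apply]

theorem continuousAt_inv {X : Mat r} (h : X.det ≠ 0) :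
    ContinuousAt (fun Y : Mat r => Y⁻¹) X := by
  refine continuousAt_matrix_inv X ?_
  rw [Ring.inverse_eq_inv']
  exact continuousAt_inv₀ h

theorem continuousAt_cmm {τ : Pair r} (h1 : τ.1.det ≠ 0) (h2 : τ.2.det ≠ 0) :
    ContinuousAt (cmm : Pair r → Mat r) τ := by
  have c1 : ContinuousAt (fun σ : Pair r => σ.1) τ := continuousAt_fst
  have c2 : ContinuousAt (fun σ : Pair r => σ.2) τ := continuousAt_snd
  have c3 : ContinuousAt (fun σ : Pair r => σ.1⁻¹) τ :=
    ContinuousAt.comp (g := fun Y : Mat r => Y⁻¹) (continuousAt_inv h1) c1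
  have c4 : ContinuousAt (fun σ : Pair r => σ.2⁻¹) τ :=
    ContinuousAt.comp (g := fun Y : Mat r => Y⁻¹) (continuousAt_inv h2) c2
  exact ((c1.mul c2).mul c3).mul c4

/-- near `1` the only `m`-th root of unity is `1`. -/
theorem om_eventually_root {m : ℕ} (hm : 0 < m) : ∀ᶠ c : ℂ in nhds 1, c ^ m = 1 → c = 1 := by
  have hfin : {c : ℂ | c ^ m = 1}.Finite := by
    have hsub : {c : ℂ | c ^ m = 1} ⊆ ((Polynomial.nthRoots m (1 : ℂ)).toFinset : Set ℂ) := by
      intro c hc
      simpa [Polynomial.mem_nthRoots hm] using hc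
    exact (Finset.finite_toSet _).subset hsub
  have hcl : IsClosed ({c : ℂ | c ^ m = 1} \ {1}) := (hfin.subset Set.sdiff_subset).isClosed
  have hmem : ({c : ℂ | c ^ m = 1} \ {1})ᶜ ∈ nhds (1 : ℂ) :=
    hcl.isOpen_compl.mem_nhds (by simp)
  filter_upwards [hmem] with c hc h
  by_contra hne
  exact hc ⟨h, hne⟩

/-- **OM2.** The commutator map is open (onto `SL`) at handles with scalar commutant. -/
theorem OM2 {τ : Pair (n + 2)} (h1 : τ.1.det ≠ 0) (h2 : τ.2.det ≠ 0) (hsc : SCp τ)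
    {N : Set (Pair (n + 2))} (hN : N ∈ nhds τ) :
    ∃ KK ∈ nhds (cmm τ), ∀ K' ∈ KK, K'.det = 1 →
      ∃ τ' ∈ N, τ'.1.det ≠ 0 ∧ τ'.2.det ≠ 0 ∧ cmm τ' = K' := by
  obtain ⟨A, B⟩ := τ
  have hA : A.det ≠ 0 := h1
  have hB : B.det ≠ 0 := h2
  set K := cmm (A, B) with hK
  have hA2 : A⁻¹ * A = 1 := Matrix.nonsing_inv_mul A (isUnit_iff_ne_zero.2 hA)
  have hB2 : B⁻¹ * B = 1 := Matrix.nonsing_inv_mul B (isUnit_iff_ne_zero.2 hB)
  have hKBA : K * B * A = A * B := by
    have : K = A * B * A⁻¹ * B⁻¹ := rfl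
    rw [this, mul_assoc (A * B * A⁻¹), hB2, mul_one, mul_assoc (A * B), hA2, mul_one]
  have hopen : OmOpen A B K := omU_open fun Z => by
    obtain ⟨a, b, c, h⟩ := OM1 hA hB hsc Z
    exact ⟨a, b, c, by rw [hKBA]; exact h⟩
  have e1 : ∀ᶠ x : Mat (n + 2) × Mat (n + 2) × ℂ × Mat (n + 2) in nhds (A, B, 1, K),
      x.1.det ≠ 0 :=
    (continuous_fst.matrix_det.continuousAt (x := (A, B, (1 : ℂ), K))).eventually_ne hA
  have e2 : ∀ᶠ x : Mat (n + 2) × Mat (n + 2) × ℂ × Mat (n + 2) in nhds (A, B, 1, K),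
      x.2.1.det ≠ 0 :=
    ((continuous_fst.comp continuous_snd).matrix_det.continuousAt
      (x := (A, B, (1 : ℂ), K))).eventually_ne hB
  have e3 : ∀ᶠ x : Mat (n + 2) × Mat (n + 2) × ℂ × Mat (n + 2) in nhds (A, B, 1, K),
      (x.1, x.2.1) ∈ N :=
    ((continuous_fst.prodMk (continuous_fst.comp continuous_snd)).continuousAt
      (x := (A, B, (1 : ℂ), K))).eventually_mem hN
  have e4 : ∀ᶠ x : Mat (n + 2) × Mat (n + 2) × ℂ × Mat (n + 2) in nhds (A, B, 1, K),
      x.2.2.1 ^ (n + 2) = 1 → x.2.2.1 = 1 :=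
    ((continuous_fst.comp (continuous_snd.comp continuous_snd)).continuousAt
      (x := (A, B, (1 : ℂ), K))).eventually (om_eventually_root (Nat.succ_pos _))
  have hW := hopen _ (e1.and (e2.and (e3.and e4)))
  have h0 : omU (A, B, 1, K) = (0, K) := by
    simp only [omU, one_smul, hKBA, sub_self]
  rw [h0] at hW
  have hcont : Continuous fun K' : Mat (n + 2) => ((0 : Mat (n + 2)), K') :=
    continuous_const.prodMk continuous_id
  refine ⟨_, hcont.continuousAt.preimage_mem_nhds hW, ?_⟩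
  rintro K' ⟨⟨X, Y, c, K''⟩, ⟨hX, hY, hXY, hc⟩, hxe⟩ hdet
  simp only [omU, Prod.mk.injEq] at hxe
  obtain ⟨hx1, rfl⟩ := hxe
  have hX' : X.det ≠ 0 := hX
  have hY' : Y.det ≠ 0 := hY
  have heq : X * Y = c • (K'' * Y * X) := sub_eq_zero.1 hx1
  have hc1 : c = 1 := by
    apply hc
    have hd := congrArg Matrix.det heq
    rw [Matrix.det_smul, Matrix.det_mul, Matrix.det_mul, Matrix.det_mul, hdet, one_mul,
      Fintype.card_fin] at hd
    have hne : Y.det * X.det ≠ 0 := mul_ne_zero hY' hX'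
    have : (c ^ (n + 2) - 1) * (Y.det * X.det) = 0 := by
      rw [sub_mul, one_mul, ← hd]; ring
    rcases mul_eq_zero.1 this with h | h
    · exact sub_eq_zero.1 h
    · exact absurd h hne
  refine ⟨(X, Y), hXY, hX', hY', ?_⟩
  have hX1 : X * X⁻¹ = 1 := Matrix.mul_nonsing_inv X (isUnit_iff_ne_zero.2 hX')
  have hY1 : Y * Y⁻¹ = 1 := Matrix.mul_nonsing_inv Y (isUnit_iff_ne_zero.2 hY')
  show X * Y * X⁻¹ * Y⁻¹ = K''
  rw [heq, hc1, one_smul, mul_assoc (K'' * Y), hX1, mul_one, mul_assoc, hY1, mul_one]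

end Claimed.Agent.R236.K
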