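/-
Row 236 / S0471, route K (helper18).  Blueprint: `git show origin/helper18:docs/R236_S0471.md`, section 10 (SCD, Prop END).
-/
import Claimed.Agent.R236.K.OM
import Claimed.Agent.R236.K.ChartRT
import Claimed.Agent.R236.K.ChartBase

set_option autoImplicit false

namespace Claimed.Agent.R236.K

open scoped BigOperators Matrix.Norms.Elementwise

variable {g k n r : ℕ}

/-- **SCD**: the determinant of the `r² × r²` matrix of the flattened `A^a B^b` -/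
def spd (τ : Pair r) : ℂ :=
  (Matrix.of fun (ab : Fin r × Fin r) (ij : Fin r × Fin r) =>
    (τ.1 ^ (ab.1 : ℕ) * τ.2 ^ (ab.2 : ℕ)) ij.1 ij.2).det

theorem polyFun_spd : (spd : Pair r → ℂ) ∈ PolyFun (Pair r) := by
  unfold spd
  apply PolyMap.det
  rw [polyMap_matrix]
  intro ab ij
  have h1 : PolyMap (fun τ : Pair r => τ.1 ^ (ab.1 : ℕ) * τ.2 ^ (ab.2 : ℕ)) :=
    (PolyMap.matPow (polyMap_id.fst) _).matMul (PolyMap.matPow (polyMap_id.snd) _)
  exact polyMap_matrix.1 h1 ij.1 ij.2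

/-- if `spd τ = 0` some non-zero linear functional kills all `A^a B^b`, `a, b < r`. -/
theorem end_exists_functional {τ : Pair r} (h : spd τ = 0) :
    ∃ v : Fin r × Fin r → ℂ, v ≠ 0 ∧ ∀ a b : Fin r,
      ∑ ij : Fin r × Fin r, (τ.1 ^ (a : ℕ) * τ.2 ^ (b : ℕ)) ij.1 ij.2 * v ij = 0 := by
  obtain ⟨v, hv, hMv⟩ := Matrix.exists_mulVec_eq_zero_iff.2 h
  refine ⟨v, hv, fun a b => ?_⟩
  have := congrFun hMv (a, b)
  simpa [Matrix.mulVec, dotProduct] using this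

theorem spd_QP (n : ℕ) : spd (Qm n, Pm n) ≠ 0 := by
  intro h
  obtain ⟨v, hv, hk⟩ := end_exists_functional h
  apply hv
  -- the functional
  let ℓ : Mat (n + 2) →ₗ[ℂ] ℂ :=
    { toFun := fun Y => ∑ ij : Fin (n + 2) × Fin (n + 2), Y ij.1 ij.2 * v ij
      map_add' := by
        intro X Y
        simp only [Matrix.add_apply, add_mul, Finset.sum_add_distrib]
      map_smul' := by
        intro c X
        simp only [Matrix.smul_apply, smul_eq_mul, RingHom.id_apply, Finset.mul_sum, mul_assoc] }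
  have hℓ : ∀ Y ∈ Submodule.span ℂ {Y : Mat (n + 2) | ∃ a b : ℕ, Y = Qm n ^ a * Pm n ^ b},
      ℓ Y = 0 := by
    intro Y hY
    induction hY using Submodule.span_induction with
    | mem x hx =>
      obtain ⟨a, b, rfl⟩ := hx
      rw [pow_eq_pow_mod a (Qm_pow n), pow_eq_pow_mod b (Pm_pow n)]
      exact hk ⟨a % (n + 2), Nat.mod_lt _ (by omega)⟩ ⟨b % (n + 2), Nat.mod_lt _ (by omega)⟩
    | zero => exact map_zero ℓ
    | add x y _ _ hx hy => rw [map_add, hx, hy, add_zero]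
    | smul c x _ hx => rw [map_smul, hx, smul_zero]
  funext ij
  have h1 := hℓ (Matrix.single ij.1 ij.2 1) (by rw [span_QP]; trivial)
  have h2 : ℓ (Matrix.single ij.1 ij.2 1) = v ij := by
    show ∑ kl : Fin (n + 2) × Fin (n + 2), (Matrix.single ij.1 ij.2 (1 : ℂ)) kl.1 kl.2 * v kl = v ij
    rw [Finset.sum_eq_single ij]
    · simp
    · intro kl _ hne
      have : ¬ (ij.1 = kl.1 ∧ ij.2 = kl.2) := fun h => hne (Prod.ext h.1.symm h.2.symm)
      simp [this]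
    · intro h
      exact absurd (Finset.mem_univ _) h
  rw [h2] at h1
  exact h1

theorem SCp_of_spd {τ : Pair r} (h : spd τ ≠ 0) : SCp τ := by
  intro Y hY1 hY2
  -- every matrix is a combination of the `A^a B^b`
  set M : Matrix (Fin r × Fin r) (Fin r × Fin r) ℂ :=
    Matrix.of fun (ab : Fin r × Fin r) (ij : Fin r × Fin r) =>
      (τ.1 ^ (ab.1 : ℕ) * τ.2 ^ (ab.2 : ℕ)) ij.1 ij.2 with hM
  have hMu : IsUnit M.det := isUnit_iff_ne_zero.2 h
  have hspan : ∀ X : Mat r, ∃ c : Fin r × Fin r → ℂ,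
      X = ∑ ab : Fin r × Fin r, c ab • (τ.1 ^ (ab.1 : ℕ) * τ.2 ^ (ab.2 : ℕ)) := by
    intro X
    refine ⟨Matrix.vecMul (fun ij : Fin r × Fin r => X ij.1 ij.2) M⁻¹, ?_⟩
    have h1 : Matrix.vecMul (Matrix.vecMul (fun ij : Fin r × Fin r => X ij.1 ij.2) M⁻¹) M
        = fun ij : Fin r × Fin r => X ij.1 ij.2 := by
      rw [Matrix.vecMul_vecMul, Matrix.nonsing_inv_mul _ hMu, Matrix.vecMul_one]
    ext i j
    have h2 := congrFun h1 (i, j)
    simp only [Matrix.vecMul, dotProduct, hM, Matrix.of_apply] at h2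
    rw [Matrix.sum_apply]
    simp only [Matrix.smul_apply, smul_eq_mul]
    exact h2.symm
  have hc1 : ∀ a : ℕ, Y * τ.1 ^ a = τ.1 ^ a * Y := fun a =>
    ((Commute.pow_right (show Commute Y τ.1 from hY1) a)).eq
  have hc2 : ∀ a : ℕ, Y * τ.2 ^ a = τ.2 ^ a * Y := fun a =>
    ((Commute.pow_right (show Commute Y τ.2 from hY2) a)).eq
  have hcomm : ∀ X : Mat r, Commute X Y := by
    intro X
    obtain ⟨c, rfl⟩ := hspan X
    show (∑ ab : Fin r × Fin r, c ab • (τ.1 ^ (ab.1 : ℕ) * τ.2 ^ (ab.2 : ℕ))) * Y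
      = Y * ∑ ab : Fin r × Fin r, c ab • (τ.1 ^ (ab.1 : ℕ) * τ.2 ^ (ab.2 : ℕ))
    rw [Finset.sum_mul, Finset.mul_sum]
    refine Finset.sum_congr rfl fun ab _ => ?_
    rw [Matrix.smul_mul, Matrix.mul_smul, ← Matrix.mul_assoc Y, hc1, Matrix.mul_assoc,
      Matrix.mul_assoc, hc2]
  obtain ⟨c, hc⟩ := Matrix.mem_range_scalar_iff_commute_single'.2 fun i j => hcomm _
  refine ⟨c, ?_⟩
  rw [← hc, Matrix.smul_one_eq_diagonal]
  rfl

/-- the tuple with the handles `x.1`, `x.2` followed by `σ`. -/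
def endF (σ : Tup k r) (x : Pair r × Pair r) : Tup (k + 2) r :=
  Fin.cons (α := fun _ => Pair r) x.1 (Fin.cons (α := fun _ => Pair r) x.2 σ)

theorem endF_zero (σ : Tup k r) (x : Pair r × Pair r) : endF σ x 0 = x.1 := rfl

theorem endF_one (σ : Tup k r) (x : Pair r × Pair r) : endF σ x (Fin.succ 0) = x.2 := rfl

theorem endF_succ_succ (σ : Tup k r) (x : Pair r × Pair r) (i : Fin k) :
    endF σ x i.succ.succ = σ i := rfl

theorem endF_self (ρ : Tup (k + 2) r) :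
    endF (fun i => ρ i.succ.succ) (ρ 0, ρ (Fin.succ 0)) = ρ := by
  funext i
  refine Fin.cases rfl (fun j => ?_) i
  exact Fin.cases rfl (fun l => rfl) j

theorem continuous_endF (σ : Tup k r) : Continuous (endF σ) := by
  refine continuous_pi fun i => ?_
  refine Fin.cases ?_ (fun j => ?_) i
  · exact continuous_fst
  · refine Fin.cases ?_ (fun l => ?_) j
    · exact continuous_snd
    · exact continuous_const

theorem kap_endF (σ : Tup k r) (x : Pair r × Pair r) :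
    kap (endF σ x) = cmm x.1 * (cmm x.2 * kap σ) := by
  rw [kap_succ, kap_succ]
  rfl

theorem Invt_endF {σ : Tup k r} (hσ : Invt σ) {x : Pair r × Pair r}
    (h1 : x.1.1.det ≠ 0 ∧ x.1.2.det ≠ 0) (h2 : x.2.1.det ≠ 0 ∧ x.2.2.det ≠ 0) :
    Invt (endF σ x) := by
  intro i
  refine Fin.cases h1 (fun j => ?_) i
  exact Fin.cases h2 (fun l => hσ l) j

theorem end_eventually_det {τ : Pair r} (h1 : τ.1.det ≠ 0) (h2 : τ.2.det ≠ 0) :
    ∀ᶠ τ' in nhds τ, τ'.1.det ≠ 0 ∧ τ'.2.det ≠ 0 := by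
  have c1 : Continuous fun τ' : Pair r => τ'.1.det := continuous_fst.matrix_det
  have c2 : Continuous fun τ' : Pair r => τ'.2.det := continuous_snd.matrix_det
  exact (c1.continuousAt.eventually_ne h1).and (c2.continuousAt.eventually_ne h2)

theorem end_det_inv {X : Mat r} (h : X.det = 1) : X⁻¹.det = 1 := by
  rw [Matrix.det_nonsing_inv, h, Ring.inverse_one]

/-- **Prop END.** If the handle `0` has scalar commutant then `ρ` is in the closure of the chart domain. -/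
theorem propEND {ρ : Tup (k + 2) (n + 2)} (h : ρ ∈ VV (k + 2) (n + 2)) (hsc : SCp (ρ 0)) :
    ρ ∈ closure (UU k n) := by
  rw [mem_closure_iff_nhds]
  intro t ht
  obtain ⟨hinv, hkap⟩ := h
  set σ : Tup k (n + 2) := fun i => ρ i.succ.succ with hσdef
  have hσ : Invt σ := fun i => hinv i.succ.succ
  set R : Mat (n + 2) := kap σ with hR
  have hRdet : R.det = 1 := det_kap hσ
  have hRu : IsUnit R.det := by rw [hRdet]; exact isUnit_one
  have hself : endF σ (ρ 0, ρ (Fin.succ 0)) = ρ := endF_self ρ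
  -- a product neighbourhood
  have ht' : endF σ ⁻¹' t ∈ nhds (ρ 0, ρ (Fin.succ 0)) := by
    apply (continuous_endF σ).continuousAt.preimage_mem_nhds
    rw [hself]
    exact ht
  obtain ⟨N0, N1, hN0o, hN0, hN1o, hN1, hsub⟩ := mem_nhds_prod_iff'.1 ht'
  have hrel : cmm (ρ 0) * (cmm (ρ (Fin.succ 0)) * R) = 1 := by
    rw [← kap_endF σ (ρ 0, ρ (Fin.succ 0)), hself]
    exact hkap
  have hdc : ∀ τ : Pair (n + 2), τ.1.det ≠ 0 → τ.2.det ≠ 0 → (cmm τ * R).det = 1 := by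
    intro τ h1 h2
    rw [Matrix.det_mul, det_cmm τ h1 h2, hRdet, mul_one]
  -- Step 1
  obtain ⟨KK0, hKK0, hOM0⟩ := OM2 (hinv 0).1 (hinv 0).2 hsc (hN0o.mem_nhds hN0)
  have hval1 : (cmm (ρ (Fin.succ 0)) * R)⁻¹ = cmm (ρ 0) := Matrix.inv_eq_left_inv hrel
  have hcont1 : ContinuousAt (fun τ : Pair (n + 2) => (cmm τ * R)⁻¹) (ρ (Fin.succ 0)) := by
    have h1 : ContinuousAt (fun τ : Pair (n + 2) => cmm τ * R) (ρ (Fin.succ 0)) :=
      ContinuousAt.comp (g := fun X : Mat (n + 2) => X * R)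
        (continuous_id.matrix_mul continuous_const).continuousAt
        (continuousAt_cmm (hinv _).1 (hinv _).2)
    have h2 : ContinuousAt (fun Y : Mat (n + 2) => Y⁻¹) (cmm (ρ (Fin.succ 0)) * R) :=
      continuousAt_inv (by rw [hdc _ (hinv _).1 (hinv _).2]; exact one_ne_zero)
    exact ContinuousAt.comp (g := fun Y : Mat (n + 2) => Y⁻¹) h2 h1
  have hS1 : {τ : Pair (n + 2) | τ ∈ N1 ∧ (τ.1.det ≠ 0 ∧ τ.2.det ≠ 0) ∧ (cmm τ * R)⁻¹ ∈ KK0}
      ∈ nhds (ρ (Fin.succ 0)) := by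
    have e1 : ∀ᶠ τ in nhds (ρ (Fin.succ 0)), τ ∈ N1 := hN1o.mem_nhds hN1
    have e2 := end_eventually_det (hinv (Fin.succ 0)).1 (hinv (Fin.succ 0)).2
    have e3 : ∀ᶠ τ in nhds (ρ (Fin.succ 0)), (cmm τ * R)⁻¹ ∈ KK0 := by
      apply hcont1.eventually
      show KK0 ∈ nhds ((cmm (ρ (Fin.succ 0)) * R)⁻¹)
      rw [hval1]
      exact hKK0
    filter_upwards [e1, e2, e3] with τ a b c
    exact ⟨a, b, c⟩
  obtain ⟨τ1', hspd, hτ1N, hτ1d, hτ1K⟩ :=
    (dense_ne_zero polyFun_spd (spd_QP n)).inter_nhds_nonempty hS1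
  obtain ⟨τ0', hτ0N, hτ0d1, hτ0d2, hτ0c⟩ :=
    hOM0 _ hτ1K (end_det_inv (hdc τ1' hτ1d.1 hτ1d.2))
  -- Step 2
  obtain ⟨KK1, hKK1, hOM1⟩ := OM2 hτ1d.1 hτ1d.2 (SCp_of_spd hspd) (hN1o.mem_nhds hτ1N)
  have hval0 : (cmm τ0')⁻¹ * R⁻¹ = cmm τ1' := by
    rw [hτ0c, Matrix.nonsing_inv_nonsing_inv _ (by rw [hdc τ1' hτ1d.1 hτ1d.2]; exact isUnit_one),
      Matrix.mul_nonsing_inv_cancel_right _ _ hRu]
  have hcont0 : ContinuousAt (fun τ : Pair (n + 2) => (cmm τ)⁻¹ * R⁻¹) τ0' := by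
    have h1 : ContinuousAt (fun τ : Pair (n + 2) => (cmm τ)⁻¹) τ0' :=
      ContinuousAt.comp (g := fun Y : Mat (n + 2) => Y⁻¹)
        (continuousAt_inv (by rw [det_cmm τ0' hτ0d1 hτ0d2]; exact one_ne_zero))
        (continuousAt_cmm hτ0d1 hτ0d2)
    exact ContinuousAt.comp (g := fun X : Mat (n + 2) => X * R⁻¹)
      (continuous_id.matrix_mul continuous_const).continuousAt h1
  have hS0 : {τ : Pair (n + 2) | τ ∈ N0 ∧ (τ.1.det ≠ 0 ∧ τ.2.det ≠ 0) ∧ (cmm τ)⁻¹ * R⁻¹ ∈ KK1}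
      ∈ nhds τ0' := by
    have e1 : ∀ᶠ τ in nhds τ0', τ ∈ N0 := hN0o.mem_nhds hτ0N
    have e2 := end_eventually_det hτ0d1 hτ0d2
    have e3 : ∀ᶠ τ in nhds τ0', (cmm τ)⁻¹ * R⁻¹ ∈ KK1 := by
      apply hcont0.eventually
      show KK1 ∈ nhds ((cmm τ0')⁻¹ * R⁻¹)
      rw [hval0]
      exact hKK1
    filter_upwards [e1, e2, e3] with τ a b c
    exact ⟨a, b, c⟩
  obtain ⟨τ0'', hnd, hτ0N', hτ0d', hτ0K'⟩ :=
    (dense_ne_zero polyFun_nd (nd_QP n)).inter_nhds_nonempty hS0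
  have hc0det : (cmm τ0'').det = 1 := det_cmm τ0'' hτ0d'.1 hτ0d'.2
  obtain ⟨τ1'', hτ1N', hτ1d1', hτ1d2', hτ1c'⟩ := hOM1 _ hτ0K' (by
    rw [Matrix.det_mul, end_det_inv hc0det, end_det_inv hRdet, mul_one])
  -- the new tuple
  refine ⟨endF σ (τ0'', τ1''), hsub ⟨hτ0N', hτ1N'⟩, ?_⟩
  have hV : endF σ (τ0'', τ1'') ∈ VV (k + 2) (n + 2) := by
    refine ⟨Invt_endF hσ hτ0d' ⟨hτ1d1', hτ1d2'⟩, ?_⟩
    rw [kap_endF]
    show cmm τ0'' * (cmm τ1'' * R) = 1
    rw [hτ1c', Matrix.nonsing_inv_mul_cancel_right _ _ hRu,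
      Matrix.mul_nonsing_inv _ (by rw [hc0det]; exact isUnit_one)]
  exact ⟨hV, (ND_iff_nd hV).2 hnd⟩

end Claimed.Agent.R236.K
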