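/-
Row 236 / S0471, route K (helper18).  Blueprint: `git show origin/helper18:docs/R236_S0471.md`, section 11 (LA3).
-/
import Claimed.Agent.R236.K.LinAlg
import Claimed.Agent.R236.Cyc2

set_option autoImplicit false

namespace Claimed.Agent.R236.K

open scoped BigOperators

variable {g r : ℕ}

section LatAux

open Module

variable {V : Type*} [AddCommGroup V] [Module ℂ V] [FiniteDimensional ℂ V]

/-- `dim ker N^j ≤ j` if `dim ker N ≤ 1` -/
theorem lat_finrank_ker_pow_le (N : End ℂ V) (h : finrank ℂ (LinearMap.ker N) ≤ 1) (j : ℕ) :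
    finrank ℂ (LinearMap.ker (N ^ j)) ≤ j := by
  induction j with
  | zero =>
    have : LinearMap.ker (N ^ 0) = ⊥ := by
      rw [pow_zero]; exact LinearMap.ker_id
    rw [this]; simp
  | succ j ih =>
    let φ : LinearMap.ker (N ^ (j+1)) →ₗ[ℂ] V := (N ^ j).domRestrict (LinearMap.ker (N ^ (j+1)))
    have h1 := LinearMap.finrank_range_add_finrank_ker φ
    have h2 : finrank ℂ (LinearMap.range φ) ≤ 1 := by
      refine le_trans (Submodule.finrank_mono ?_) h
      rintro _ ⟨x, rfl⟩
      have hx : (N ^ (j+1)) x.1 = 0 := x.2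
      have hx' : (N * N ^ j) x.1 = 0 := by rw [← pow_succ']; exact hx
      exact hx'
    have h3 : finrank ℂ (LinearMap.ker φ) ≤ j := by
      refine le_trans ?_ ih
      let ψ : LinearMap.ker φ →ₗ[ℂ] LinearMap.ker (N ^ j) :=
        LinearMap.codRestrict _ ((Submodule.subtype _).comp (Submodule.subtype _)) (by
          intro x
          exact x.2)
      refine LinearMap.finrank_le_finrank_of_injective (f := ψ) ?_
      intro x y hxy
      have := congrArg (fun z : LinearMap.ker (N ^ j) => (z : V)) hxy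
      exact Subtype.ext (Subtype.ext this)
    omega

theorem lat_le_ker_pow (N : End ℂ V) (P : Submodule ℂ V) (hP : ∀ x ∈ P, N x ∈ P)
    (hnil : ∀ x ∈ P, ∃ k : ℕ, (N ^ k) x = 0) : P ≤ LinearMap.ker (N ^ finrank ℂ P) := by
  intro x hx
  obtain ⟨k, hk⟩ := hnil x hx
  set g : End ℂ P := N.restrict hP with hg
  have h1 : (⟨x, hx⟩ : P) ∈ LinearMap.ker (g ^ k) := by
    rw [LinearMap.mem_ker, hg, Module.End.pow_restrict]
    exact Subtype.ext hk
  have h2 : (⟨x, hx⟩ : P) ∈ LinearMap.ker (g ^ (max k (finrank ℂ P))) := by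
    have : LinearMap.ker (g ^ k) ≤ LinearMap.ker (g ^ (max k (finrank ℂ P))) := by
      obtain ⟨c, hc⟩ := Nat.exists_eq_add_of_le (le_max_left k (finrank ℂ P))
      rw [hc, add_comm, pow_add]
      exact LinearMap.ker_le_ker_comp _ _
    exact this h1
  rw [End.ker_pow_eq_ker_pow_finrank_of_le (le_max_right _ _), LinearMap.mem_ker, hg,
    Module.End.pow_restrict] at h2
  exact congrArg Subtype.val h2

theorem lat_finite (f : End ℂ V) (h : ∀ μ : ℂ, finrank ℂ (LinearMap.ker (f - μ • (1 : End ℂ V))) ≤ 1) :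
    {U : Submodule ℂ V | ∀ x ∈ U, f x ∈ U}.Finite := by
  classical
  set S : Set ℂ := {μ | f.HasEigenvalue μ} with hSdef
  have hS : S.Finite := f.finite_hasEigenvalue
  set T : Set (Submodule ℂ V) :=
    (fun p : ℂ × ℕ => LinearMap.ker ((f - p.1 • (1 : End ℂ V)) ^ p.2)) ''
      (S ×ˢ Set.Iic (finrank ℂ V)) with hTdef
  have hT : T.Finite := (hS.prod (Set.finite_Iic _)).image _
  refine (hT.powerset.image sSup).subset ?_
  intro U hU
  refine ⟨{P ∈ T | P ≤ U}, fun P hP => hP.1, ?_⟩
  apply le_antisymm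
  · exact sSup_le fun P hP => hP.2
  · have hdec := Submodule.eq_iSup_inf_genEigenspace (p := U) (f := f) ⊤ hU
      f.iSup_maxGenEigenspace_eq_top
    have key : ∀ μ, U ⊓ f.maxGenEigenspace μ ≤ sSup {P ∈ T | P ≤ U} := by
      intro μ
      set P := U ⊓ f.maxGenEigenspace μ with hPdef
      set N : End ℂ V := f - μ • (1 : End ℂ V) with hN
      have hPinv : ∀ x ∈ P, N x ∈ P := by
        intro x hx
        refine ⟨?_, ?_⟩
        · have : N x = f x - μ • x := by simp [hN]
          rw [this]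
          exact U.sub_mem (hU x hx.1) (U.smul_mem _ hx.1)
        · obtain ⟨k, hk⟩ := (End.mem_maxGenEigenspace f μ x).1 hx.2
          refine (End.mem_maxGenEigenspace f μ _).2 ⟨k, ?_⟩
          rw [← hN, ← Module.End.mul_apply, ← pow_succ, pow_succ', Module.End.mul_apply, hk, map_zero]
      have hnil : ∀ x ∈ P, ∃ k : ℕ, (N ^ k) x = 0 := fun x hx =>
        (End.mem_maxGenEigenspace f μ x).1 hx.2
      have ha := lat_le_ker_pow N P hPinv hnil
      have hb : P = LinearMap.ker (N ^ finrank ℂ P) :=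
        Submodule.eq_of_le_of_finrank_le ha (lat_finrank_ker_pow_le N (h μ) _)
      by_cases hj : finrank ℂ P = 0
      · rw [Submodule.finrank_eq_zero.1 hj]; exact bot_le
      · have hμ : μ ∈ S := by
          have : f.HasGenEigenvalue μ (finrank ℂ P) := by
            unfold End.HasGenEigenvalue End.HasUnifEigenvalue
            rw [End.genEigenspace_nat, ← hN, ← hb]
            intro hbot
            exact hj (by rw [hbot]; simp)
          exact End.hasEigenvalue_of_hasGenEigenvalue this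
        refine le_sSup ⟨⟨(μ, finrank ℂ P), ⟨hμ, Submodule.finrank_le P⟩, hb.symm⟩, inf_le_left⟩
    calc U = ⨆ μ, U ⊓ f.maxGenEigenspace μ := hdec
      _ ≤ _ := iSup_le key

end LatAux

/-- **LA3.** A matrix all of whose eigenspaces have dimension `≤ 1` has finitely many invariant subspaces.
Proof: `U = ⨆ μ, U ⊓ maxGenEigenspace μ` (`Submodule.eq_iSup_inf_genEigenspace`); with `N = X - μ`, `j = dim (U ⊓ W_μ)`: `N` is nilpotent on
`U ⊓ W_μ`, so `U ⊓ W_μ ≤ ker N^j`, and `dim ker N^j ≤ j`, hence equality.  So `U` is determined by a function `spec X → {0..r}`. -/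
theorem finite_invS_of_ker_le_one {X : Mat r}
    (h : ∀ μ : ℂ, Module.finrank ℂ (LinearMap.ker (Matrix.toLin' (X - μ • (1 : Mat r)))) ≤ 1) :
    {W : Submodule ℂ (Fin r → ℂ) | InvS X W}.Finite := by
  have h' : ∀ μ : ℂ, Module.finrank ℂ (LinearMap.ker
      (Matrix.toLin' X - μ • (1 : Module.End ℂ (Fin r → ℂ)))) ≤ 1 := by
    intro μ
    have e : Matrix.toLin' (X - μ • (1 : Mat r)) =
        Matrix.toLin' X - μ • (1 : Module.End ℂ (Fin r → ℂ)) := by
      rw [map_sub, map_smul, Matrix.toLin'_one]; rfl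
    rw [← e]; exact h μ
  refine (lat_finite (Matrix.toLin' X) h').subset ?_
  intro W hW x hx
  rw [Matrix.toLin'_apply]
  exact hW x hx

/-- **LA3** for cyclic matrices (`IsCyc.ker_le_one`). -/
theorem IsCyc.finite_invS {X : Mat r} (h : IsCyc X) :
    {W : Submodule ℂ (Fin r → ℂ) | InvS X W}.Finite :=
  finite_invS_of_ker_le_one fun μ => h.ker_le_one μ

end Claimed.Agent.R236.K
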