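/-
Row 236 / S0471, route K (helper18).  Blueprint: `git show origin/helper18:docs/R236_S0471.md`, section 12 (the "generic pencil" step in the proof of Lemma A; LA7).
-/
import Claimed.Agent.R236.K.Lat

set_option autoImplicit false

namespace Claimed.Agent.R236.K

open scoped BigOperators

variable {g r : ℕ}

/-- the subspace `S_W = {w : w B W ⊆ W}` of the matrix algebra -/
def genPencilS (B : Mat r) (W : Submodule ℂ (Fin r → ℂ)) : Submodule ℂ (Mat r) where
  carrier := {w | InvS (w * B) W}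
  add_mem' := by
    intro a b ha hb
    show InvS ((a + b) * B) W
    rw [add_mul]
    exact InvS.add ha hb
  zero_mem' := by
    show InvS ((0 : Mat r) * B) W
    intro x _
    simp
  smul_mem' := by
    intro c a ha
    show InvS ((c • a) * B) W
    rw [smul_mul_assoc]
    exact InvS.smul ha c

theorem mem_genPencilS {B w : Mat r} {W : Submodule ℂ (Fin r → ℂ)} :
    w ∈ genPencilS B W ↔ InvS (w * B) W := Iff.rfl

/-- if `1` and `E` lie in `S_W` and `B` is invertible then `W` is invariant under `B` and `E` -/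
theorem genPencil_inv_of_mem {B E : Mat r} {W : Submodule ℂ (Fin r → ℂ)} (hB : B.det ≠ 0)
    (h1 : (1 : Mat r) ∈ genPencilS B W) (hE : E ∈ genPencilS B W) : InvS B W ∧ InvS E W := by
  have hBW : InvS B W := by
    have := mem_genPencilS.1 h1
    rwa [one_mul] at this
  refine ⟨hBW, ?_⟩
  have h2 : InvS ((E * B) * B⁻¹) W := InvS.mul (mem_genPencilS.1 hE) (hBW.inv hB)
  have hu : IsUnit B.det := isUnit_iff_ne_zero.2 hB
  rwa [Matrix.mul_assoc, Matrix.mul_nonsing_inv B hu, mul_one] at h2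

/-- at most one member of the pencil lies in a subspace which does not contain `w₁` -/
theorem genPencil_subsingleton {S : Submodule ℂ (Mat r)} {w₁ : Mat r} (hw : w₁ ∉ S) :
    {c : ℂ | (1 + c • (w₁ - 1)) ∈ S}.Subsingleton := by
  intro c hc c' hc'
  by_contra hne
  apply hw
  have hc0 : (1 + c • (w₁ - 1)) ∈ S := hc
  have hc1 : (1 + c' • (w₁ - 1)) ∈ S := hc'
  have hd : (c - c') • (w₁ - 1) ∈ S := by
    have := S.sub_mem hc0 hc1
    have e : (1 + c • (w₁ - 1)) - (1 + c' • (w₁ - 1)) = (c - c') • (w₁ - 1) := by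
      rw [sub_smul]; abel
    rwa [e] at this
  have hcc : c - c' ≠ 0 := sub_ne_zero.2 hne
  have hw1 : w₁ - 1 ∈ S := by
    have := S.smul_mem (c - c')⁻¹ hd
    rwa [smul_smul, inv_mul_cancel₀ hcc, one_smul] at this
  have h1 : (1 : Mat r) ∈ S := by
    have := S.sub_mem hc0 (S.smul_mem c hw1)
    rwa [add_sub_cancel_right] at this
  have := S.add_mem hw1 h1
  rwa [sub_add_cancel] at this

/-- the generic member of the pencil `w(c) = 1 + c (w₁ - 1)`, `w₁ ∈ ℂ[E]`: for `A` cyclic, `B` invertible there is `w₁`, a polynomial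
in `E`, such that for all but finitely many `c` the subspaces invariant under `A` and `w(c) B` are invariant under `A, B, E`. -/
theorem exists_generic_pencil {A B E : Mat r} (hA : IsCyc A) (hB : B.det ≠ 0) :
    ∃ w₁ : Mat r, w₁ ∈ Algebra.adjoin ℂ {E} ∧
      {c : ℂ | ∃ W : Submodule ℂ (Fin r → ℂ), InvS A W ∧ InvS ((1 + c • (w₁ - 1)) * B) W ∧
        ¬ (InvS B W ∧ InvS E W)}.Finite := by
  classical
  set 𝔸 : Submodule ℂ (Mat r) := Subalgebra.toSubmodule (Algebra.adjoin ℂ {E}) with h𝔸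
  have hmem𝔸 : ∀ w : Mat r, w ∈ 𝔸 ↔ w ∈ Algebra.adjoin ℂ {E} := fun w => Iff.rfl
  have hfin : {W : Submodule ℂ (Fin r → ℂ) | InvS A W ∧ ¬ (InvS B W ∧ InvS E W)}.Finite :=
    (IsCyc.finite_invS hA).subset fun W hW => hW.1
  set s : Finset (Submodule ℂ 𝔸) :=
    hfin.toFinset.image (fun W => (genPencilS B W).comap 𝔸.subtype) with hs
  have htop : (⊤ : Submodule ℂ 𝔸) ∉ s := by
    intro h
    rw [hs, Finset.mem_image] at h
    obtain ⟨W, hW, hWtop⟩ := h
    have hW' := (hfin.mem_toFinset).1 hW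
    apply hW'.2
    have h1 : (1 : Mat r) ∈ 𝔸 := (hmem𝔸 1).2 (Subalgebra.one_mem _)
    have hE : E ∈ 𝔸 := (hmem𝔸 E).2 (Algebra.subset_adjoin (Set.mem_singleton E))
    have m1 : (⟨1, h1⟩ : 𝔸) ∈ (genPencilS B W).comap 𝔸.subtype := by rw [hWtop]; trivial
    have mE : (⟨E, hE⟩ : 𝔸) ∈ (genPencilS B W).comap 𝔸.subtype := by rw [hWtop]; trivial
    exact genPencil_inv_of_mem hB m1 mE
  have hne := Subspace.biUnion_ne_univ_of_top_notMem htop
  obtain ⟨w, hw⟩ : ∃ w : 𝔸, w ∉ ⋃ p ∈ s, (p : Set 𝔸) := by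
    by_contra hcon
    push Not at hcon
    exact hne (Set.eq_univ_of_forall hcon)
  refine ⟨w.1, (hmem𝔸 _).1 w.2, ?_⟩
  have hwW : ∀ W : Submodule ℂ (Fin r → ℂ), InvS A W → ¬ (InvS B W ∧ InvS E W) →
      w.1 ∉ genPencilS B W := by
    intro W h1 h2 h3
    apply hw
    simp only [Set.mem_iUnion]
    refine ⟨(genPencilS B W).comap 𝔸.subtype, ?_, h3⟩
    rw [hs, Finset.mem_image]
    exact ⟨W, (hfin.mem_toFinset).2 ⟨h1, h2⟩, rfl⟩
  have hsub : {c : ℂ | ∃ W : Submodule ℂ (Fin r → ℂ), InvS A W ∧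
      InvS ((1 + c • (w.1 - 1)) * B) W ∧ ¬ (InvS B W ∧ InvS E W)} ⊆
      ⋃ W ∈ {W : Submodule ℂ (Fin r → ℂ) | InvS A W ∧ ¬ (InvS B W ∧ InvS E W)},
        {c : ℂ | (1 + c • (w.1 - 1)) ∈ genPencilS B W} := by
    rintro c ⟨W, h1, h2, h3⟩
    simp only [Set.mem_iUnion]
    exact ⟨W, ⟨h1, h3⟩, h2⟩
  refine Set.Finite.subset (hfin.biUnion ?_) hsub
  intro W hW
  exact (genPencil_subsingleton (hwW W hW.1 hW.2)).finite

end Claimed.Agent.R236.K
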