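/-
Row 236 / S0471, route K (helper18).  Blueprint: `git show origin/helper18:docs/R236_S0471.md`, section 12 (Lemma A).
Only `VV`, the usual topology and `closure (UU k n)` occur here.
-/
import Claimed.Agent.R236.K.End
import Claimed.Agent.R236.K.EMove
import Claimed.Agent.R236.K.GenPencil
import Claimed.Agent.R236.K.Burnside

set_option autoImplicit false

namespace Claimed.Agent.R236.K

open scoped BigOperators Matrix.Norms.Elementwise

variable {k n r : ℕ}

/-- the subspaces invariant under a handle -/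
def latH (τ : Pair r) : Set (Submodule ℂ (Fin r → ℂ)) := {W | InvS τ.1 W ∧ InvS τ.2 W}

theorem latH_finite {τ : Pair r} (h : IsCyc τ.1) : (latH τ).Finite :=
  (IsCyc.finite_invS h).subset fun _ hW => hW.1

/-- the pencil `w(c) = 1 + c (w₁ - 1)` -/
def lemA_w (w₁ : Mat r) (c : ℂ) : Mat r := 1 + c • (w₁ - 1)

theorem lemA_w_continuous (w₁ : Mat r) : Continuous (lemA_w w₁) :=
  continuous_const.add (continuous_id.smul continuous_const)

theorem lemA_w_zero (w₁ : Mat r) : lemA_w w₁ 0 = 1 := by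
  simp [lemA_w]

theorem lemA_w_comm {w₁ E : Mat r} (h : w₁ ∈ Algebra.adjoin ℂ {E}) (c : ℂ) :
    lemA_w w₁ c * E = E * lemA_w w₁ c := by
  have h1 : E * w₁ = w₁ * E := (Algebra.commute_of_mem_adjoin_self h).eq
  unfold lemA_w
  rw [add_mul, mul_add, one_mul, mul_one, smul_mul_assoc, mul_smul_comm, sub_mul, mul_sub, h1,
    one_mul, mul_one]

/-- Lemma A, by strong induction on the number of subspaces invariant under the handle `0`. -/
theorem lemmaA_aux (m : ℕ) : ∀ ρ : Tup (k + 2) (n + 2), ρ ∈ VV (k + 2) (n + 2) → Irr ρ →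
    IsCyc (ρ 0).1 → (latH (ρ 0)).ncard = m → ρ ∈ closure (UU k n) := by
  induction m using Nat.strong_induction_on with
  | _ m ih =>
    intro ρ h hirr hnd hm
    by_cases hall : ∀ W : Submodule ℂ (Fin (n + 2) → ℂ),
        InvS (ρ 0).1 W → InvS (ρ 0).2 W → W = ⊥ ∨ W = ⊤
    · exact propEND h (SCp_of_irr hall)
    push Not at hall
    obtain ⟨W₁, h0, h0', hbot, htop⟩ := hall
    have hW : ¬ InvSub ρ W₁ := fun hi => by
      rcases hirr W₁ hi with h1 | h1
      · exact hbot h1
      · exact htop h1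
    obtain ⟨j, b, hj, hE⟩ := exists_Eob_not_invS h h0 h0' hW
    obtain ⟨w₁, hw₁, hbad⟩ := exists_generic_pencil (A := (ρ 0).1) (B := (ρ 0).2)
      (E := Eob b j ρ) hnd (h.1 0).2
    set Bad : Set ℂ := {c : ℂ | ∃ W : Submodule ℂ (Fin (n + 2) → ℂ), InvS (ρ 0).1 W ∧
        InvS ((1 + c • (w₁ - 1)) * (ρ 0).2) W ∧ ¬ (InvS (ρ 0).2 W ∧ InvS (Eob b j ρ) W)} with hBad
    -- the path
    have hw0 : Filter.Tendsto (lemA_w w₁) (nhds 0) (nhds 1) := by
      have := (lemA_w_continuous w₁).tendsto 0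
      rwa [lemA_w_zero] at this
    have hpath : Filter.Tendsto (fun c => emvb b j (lemA_w w₁ c) ρ) (nhds 0) (nhds ρ) := by
      have h1 : Filter.Tendsto (fun w : Mat (n + 2) => emvb b j w ρ) (nhds 1) (nhds ρ) := by
        have := (continuousAt_emvb b h j).tendsto
        rwa [emvb_one b h hj] at this
      exact h1.comp hw0
    have hdet : ∀ᶠ c in nhds (0 : ℂ), (lemA_w w₁ c).det ≠ 0 := by
      have hc : Continuous fun c => (lemA_w w₁ c).det := (lemA_w_continuous w₁).matrix_det
      have h1 : (lemA_w w₁ 0).det ≠ 0 := by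
        rw [lemA_w_zero, Matrix.det_one]
        exact one_ne_zero
      exact hc.continuousAt.eventually_ne h1
    have hirr' : ∀ᶠ c in nhds (0 : ℂ), Irr (emvb b j (lemA_w w₁ c) ρ) :=
      hpath.eventually hirr.eventually
    have hnb : ∀ᶠ c in nhds (0 : ℂ), c ∉ Bad \ {0} :=
      (hbad.subset Set.sdiff_subset).isClosed.isOpen_compl.mem_nhds (by simp)
    have hev : ∀ᶠ c in nhdsWithin (0 : ℂ) {0}ᶜ, emvb b j (lemA_w w₁ c) ρ ∈ closure (UU k n) := by
      filter_upwards [nhdsWithin_le_nhds hdet, nhdsWithin_le_nhds hirr', nhdsWithin_le_nhds hnb,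
        self_mem_nhdsWithin] with c hc1 hc2 hc3 hc4
      have hcB : c ∉ Bad := fun hc => hc3 ⟨hc, hc4⟩
      have hz := emvb_zero b ρ hj (lemA_w w₁ c)
      have hsub : latH (emvb b j (lemA_w w₁ c) ρ 0) ⊂ latH (ρ 0) := by
        rw [hz]
        refine ⟨?_, ?_⟩
        · intro W hWl
          have h2 : InvS (ρ 0).2 W ∧ InvS (Eob b j ρ) W := by
            by_contra hcon
            exact hcB ⟨W, hWl.1, hWl.2, hcon⟩
          exact ⟨hWl.1, h2.1⟩
        · intro hle
          have hWl := hle (show W₁ ∈ latH (ρ 0) from ⟨h0, h0'⟩)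
          have h2 : InvS (ρ 0).2 W₁ ∧ InvS (Eob b j ρ) W₁ := by
            by_contra hcon
            exact hcB ⟨W₁, hWl.1, hWl.2, hcon⟩
          exact hE h2.2
      have hlt : (latH (emvb b j (lemA_w w₁ c) ρ 0)).ncard < m := by
        rw [← hm]
        exact Set.ncard_lt_ncard hsub (latH_finite hnd)
      refine ih _ hlt _ (emvb_mem_VV b h hj hc1 (lemA_w_comm hw₁ c)) hc2 ?_ rfl
      rw [hz]
      exact hnd
    exact isClosed_closure.mem_of_tendsto (hpath.mono_left nhdsWithin_le_nhds) hev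

/-- **Lemma A.**  Strong induction on the (finite, `IsCyc.finite_invS`) number of subspaces invariant under the handle `0`, for all `ρ` simultaneously.
If all of them are `⊥` or `⊤`: `SCp_of_irr`, `propEND`.  Otherwise take `W₁` proper, invariant under the handle `0`; it is not `InvSub ρ` (`hirr`);
`exists_Eob_not_invS` gives `j, b`; `exists_generic_pencil` (with `A = (ρ 0).1`, `B = (ρ 0).2`, `E = Eob b j ρ`) gives `w₁`; put `w c = 1 + c • (w₁ - 1)` (it commutes
with `E`, being in `Algebra.adjoin ℂ {E}`) and `ρ_c = emvb b j (w c) ρ`.  For `c → 0`: `ρ_c → ρ` (`continuousAt_emvb`, `emvb_one`), `det (w c) ≠ 0`, `ρ_c ∈ VV`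
(`emvb_mem_VV`), `Irr ρ_c` (`Irr.eventually`), `ρ_c 0 = ((ρ 0).1, w c * (ρ 0).2)` (`emvb_zero`); for `c` outside a finite set every subspace invariant under the handle `0`
of `ρ_c` is invariant under `(ρ 0).1, (ρ 0).2, E`, hence is one of the old ones and `≠ W₁`: the number drops.  So `ρ_c ∈ closure (UU k n)` for all `c ≠ 0` near `0` outside a
finite set, and the closure is closed. -/
theorem lemmaA {ρ : Tup (k + 2) (n + 2)} (h : ρ ∈ VV (k + 2) (n + 2)) (hirr : Irr ρ)
    (hnd : IsCyc (ρ 0).1) : ρ ∈ closure (UU k n) :=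
  lemmaA_aux _ ρ h hirr hnd rfl

end Claimed.Agent.R236.K
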