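/-
Row 236 / S0471, route K (helper18).  Blueprint: `git show origin/helper18:docs/R236_S0471.md`, section 12 (Lemma B, Theorem II).
Only `VV`, the usual topology and `closure (UU k n)` occur here.
-/
import Claimed.Agent.R236.K.LemA
import Claimed.Agent.R236.Pencil

set_option autoImplicit false

namespace Claimed.Agent.R236.K

open scoped BigOperators Matrix.Norms.Elementwise

variable {k n r : ℕ}

/-- the commutator of a handle does not change if `A` is multiplied on the right by an invertible matrix commuting with `B` -/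
theorem cmm_mul_right_of_commute (A B M : Mat r) (hM : M.det ≠ 0) (hc : M * B = B * M) :
    cmm (A * M, B) = cmm (A, B) := by
  have hMu : IsUnit M.det := isUnit_iff_ne_zero.2 hM
  have h1 : M * M⁻¹ = 1 := Matrix.mul_nonsing_inv M hMu
  unfold cmm
  simp only
  rw [Matrix.mul_inv_rev]
  calc A * M * B * (M⁻¹ * A⁻¹) * B⁻¹ = A * (M * B) * M⁻¹ * A⁻¹ * B⁻¹ := by
        simp only [Matrix.mul_assoc]
    _ = A * B * (M * M⁻¹) * A⁻¹ * B⁻¹ := by rw [hc]; simp only [Matrix.mul_assoc]
    _ = A * B * A⁻¹ * B⁻¹ := by rw [h1, Matrix.mul_one]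

/-- **Lemma B.**  `exists_cyc_commute (ρ 0).2` gives a cyclic `X` commuting with `(ρ 0).2`.  `ρ_ε` := `ρ` with `(ρ 0).1` replaced by `(ρ 0).1 * (1 - ε • X)`.
By `pencil`, for all but finitely many `ε` this matrix is cyclic and invertible; then `cmm (ρ_ε 0) = cmm (ρ 0)` (as `1 - ε • X` is invertible and commutes with `(ρ 0).2`), so
`ρ_ε ∈ VV` (`kap_congr`); `ρ_ε → ρ` as `ε → 0`, so `Irr ρ_ε` eventually (`Irr.eventually`); `lemmaA` gives `ρ_ε ∈ closure (UU k n)`; the closure is closed. -/
theorem lemmaB {ρ : Tup (k + 2) (n + 2)} (h : ρ ∈ VV (k + 2) (n + 2)) (hirr : Irr ρ) :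
    ρ ∈ closure (UU k n) := by
  obtain ⟨X, hX, hXB⟩ := exists_cyc_commute (ρ 0).2
  obtain ⟨hinv, hkap⟩ := h
  have hA : IsUnit (ρ 0).1.det := isUnit_iff_ne_zero.2 (hinv 0).1
  set f : ℂ → Tup (k + 2) (n + 2) := fun ε =>
    Function.update ρ 0 ((ρ 0).1 * (1 - ε • X), (ρ 0).2) with hf
  have hf0 : f 0 = ρ := by
    simp only [hf, zero_smul, sub_zero, Matrix.mul_one]
    exact Function.update_eq_self 0 ρ
  have hcont : Continuous f := by
    refine continuous_pi fun i => ?_
    by_cases hi : i = 0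
    · subst hi
      simp only [hf, Function.update_self]
      fun_prop
    · simp only [hf, Function.update_of_ne hi]
      exact continuous_const
  have htend : Filter.Tendsto f (nhds 0) (nhds ρ) := by
    have := hcont.tendsto 0
    rwa [hf0] at this
  have hfin := pencil (ρ 0).1 X hA hX
  have hirr' : ∀ᶠ ε in nhds (0 : ℂ), Irr (f ε) := htend.eventually hirr.eventually
  have hfreq : ∃ᶠ ε in nhds (0 : ℂ),
      ε ∈ {ε : ℂ | ¬ (IsCyc ((ρ 0).1 * (1 - ε • X)) ∧ IsUnit ((ρ 0).1 * (1 - ε • X)).det)}ᶜ :=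
    mem_closure_iff_frequently.1 (hfin.countable.dense_compl ℂ 0)
  have hmain : ∃ᶠ ε in nhds (0 : ℂ), f ε ∈ closure (UU k n) := by
    refine (hfreq.and_eventually hirr').mono ?_
    rintro ε ⟨hε, hI⟩
    simp only [Set.mem_compl_iff, Set.mem_ofPred_eq, not_not] at hε
    obtain ⟨hcyc, hdet⟩ := hε
    have hdet' : ((ρ 0).1 * (1 - ε • X)).det ≠ 0 := hdet.ne_zero
    have hM : (1 - ε • X : Mat (n + 2)).det ≠ 0 := by
      intro h0
      apply hdet'
      rw [Matrix.det_mul, h0, mul_zero]
    have hMc : (1 - ε • X : Mat (n + 2)) * (ρ 0).2 = (ρ 0).2 * (1 - ε • X) := by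
      rw [sub_mul, mul_sub, one_mul, mul_one, smul_mul_assoc, mul_smul_comm, hXB]
    have hfε0 : f ε 0 = ((ρ 0).1 * (1 - ε • X), (ρ 0).2) := by
      simp only [hf, Function.update_self]
    have hfεi : ∀ i, i ≠ 0 → f ε i = ρ i := fun i hi => by
      simp only [hf, Function.update_of_ne hi]
    refine lemmaA ⟨?_, ?_⟩ hI ?_
    · intro i
      by_cases hi : i = 0
      · subst hi
        rw [hfε0]
        exact ⟨hdet', (hinv 0).2⟩
      · rw [hfεi i hi]
        exact hinv i
    · rw [← hkap]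
      refine kap_congr fun i => ?_
      by_cases hi : i = 0
      · subst hi
        rw [hfε0]
        exact cmm_mul_right_of_commute _ _ _ hM hMc
      · rw [hfεi i hi]
    · rw [hfε0]
      exact hcyc
  have := mem_closure_of_frequently_of_tendsto hmain htend
  rwa [closure_closure] at this

/-- **Theorem II.** -/
theorem thmII {ρ : Tup (k + 2) (n + 2)} (h : ρ ∈ VV (k + 2) (n + 2)) (hirr : Irr ρ) :
    ρ ∈ closure (UU k n) := lemmaB h hirr

end Claimed.Agent.R236.K
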