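/-
Row 236 / S0471, route K (helper18).  Blueprint: `git show origin/helper18:docs/R236_S0471.md`, Corollary (I+II).
Bridge to helper354's conventions (`R236/Basic.lean`, `R236/VC.lean`): the deliverable of route K is `irr_mem_VC`.
-/
import Claimed.Agent.R236.K.Tg
import Claimed.Agent.R236.K.ThmII
import Claimed.Agent.R236.VC

set_option autoImplicit false

namespace Claimed.Agent.R236.K

open scoped BigOperators Matrix.Norms.Elementwise

variable {g n r : ℕ}

/-- from `Fin g → Fin 2 → Mat r` to `Fin g → Mat r × Mat r` -/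
def toK (ρ : R236.Tup g r) : Tup g r := fun i => (ρ i 0, ρ i 1)

/-- and back -/
def ofK (ρ : Tup g r) : R236.Tup g r := fun i => ![(ρ i).1, (ρ i).2]

/-- `ofK` as a linear map -/
def ofKL (g r : ℕ) : Tup g r →ₗ[ℂ] R236.Tup g r where
  toFun := ofK
  map_add' x y := by
    funext i c
    fin_cases c <;> rfl
  map_smul' a x := by
    funext i c
    fin_cases c <;> rfl

theorem ofK_toK (ρ : R236.Tup g r) : ofK (toK ρ) = ρ := by
  funext i c
  fin_cases c <;> rfl

theorem toK_ofK (ρ : Tup g r) : toK (ofK ρ) = ρ := by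
  funext i
  rfl

theorem kap_toK (ρ : R236.Tup g r) : kap (toK ρ) = mu ρ := by
  rfl

theorem toK_mem_VV {ρ : R236.Tup g r} (h : ρ ∈ RC g r) : toK ρ ∈ VV g r := by
  obtain ⟨hI, hm⟩ := h
  refine ⟨fun i => ⟨(hI i 0).ne_zero, (hI i 1).ne_zero⟩, ?_⟩
  rw [kap_toK, hm]

theorem irr_toK {ρ : R236.Tup g r} (h : IsIrr ρ) : Irr (toK ρ) := by
  intro W hW
  refine h W (fun i c v hv => ?_)
  fin_cases c
  · exact (hW i).1 v hv
  · exact (hW i).2 v hv

theorem ofK_mem_Cone (O : Subring ℂ) {ρ : Tup g r} (h : ρ ∈ GG O g r) : ofK ρ ∈ Cone O g r := by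
  obtain ⟨ρ0, ⟨⟨_, hk⟩, hS⟩, lam, _, rfl⟩ := h
  refine ⟨ofK ρ0, ⟨⟨?_, ?_⟩, ?_⟩, fun i => ![(lam i).1, (lam i).2], ?_⟩
  · intro i c
    fin_cases c
    · exact (hS i).1.2
    · exact (hS i).2.2
  · rw [← kap_toK, toK_ofK, hk]
  · intro i c p q
    fin_cases c
    · exact (hS i).1.1 p q
    · exact (hS i).2.1 p q
  · funext i c
    fin_cases c <;> rfl

theorem ofK_mem_VC (O : Subring ℂ) {ρ : Tup g r} (h : ρ ∈ ZZ O g r) : ofK ρ ∈ VC O g r := by
  have hΦ : PolyMap (fun x : Tup g r => ofKL g r x) := polyMap_linear (ofKL g r)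
  exact hΦ.maps_ZCl (B := Cone O g r) (fun a ha => subset_ZCl _ (ofK_mem_Cone O ha)) ρ h

/-- **Corollary (I+II).**  `thmII`, `thmI`, `ZZ_isClosed`; genus `≤ 1` is excluded by `not_irr_of_genus_le_one`. -/
theorem irr_mem_ZZ (O : Subring ℂ) {ρ : Tup g (n + 2)} (h : ρ ∈ VV g (n + 2)) (hirr : Irr ρ) :
    ρ ∈ ZZ O g (n + 2) := by
  rcases Nat.lt_or_ge g 2 with hg | hg
  · exact absurd hirr (not_irr_of_genus_le_one (by omega) h)
  · obtain ⟨k, rfl⟩ := Nat.exists_eq_add_of_le' hg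
    exact closure_minimal (thmI O k n) (ZZ_isClosed O) (thmII h hirr)

/-- **The deliverable of route K**: irreducible representations lie in the Zariski closure of the multi-cone over the
`SL_n(S)`-points, for every subring `S` of `ℂ`. -/
theorem irr_mem_VC (S : Subring ℂ) (hn : 2 ≤ n) {ρ : R236.Tup g n} (hρ : ρ ∈ RC g n) (h : IsIrr ρ) :
    ρ ∈ VC S g n := by
  obtain ⟨m, rfl⟩ := Nat.exists_eq_add_of_le' hn
  have := ofK_mem_VC S (irr_mem_ZZ S (toK_mem_VV hρ) (irr_toK h))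
  rwa [ofK_toK] at this

end Claimed.Agent.R236.K
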